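import Vale.Agent.Lib.P113.Defs

/-!
# Uniqueness of classical solutions (energy estimate on the torus)
-/

open scoped ContDiff
open Set MeasureTheory

namespace Vale.Agent.Lib.P113

/-! ### Integration by parts on the periodic cube -/

lemma cube_eq : cube = Icc (0 : R3) 1 := rfl

lemma isCompact_cube : IsCompact cube := isCompact_Icc

lemma measurableSet_cube : MeasurableSet cube := measurableSet_Icc

lemma insertNth_one_eq (i : Fin 3) (y : Fin 2 → ℝ) :
    Fin.insertNth (α := fun _ => ℝ) i (1 : ℝ) y =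
      Fin.insertNth (α := fun _ => ℝ) i (0 : ℝ) y + e i := by
  ext k
  rcases eq_or_ne k i with rfl | hk
  · simp [e]
  · obtain ⟨m, rfl⟩ := Fin.exists_succAbove_eq hk
    simp [e, hk]

/-- The integral over the cube of a coordinate derivative of a periodic `C¹` function vanishes. -/
theorem integral_pd_periodic (i : Fin 3) {g : R3 → ℝ} (hg : Differentiable ℝ g)
    (hper : SpacePeriodic g) (hc : Continuous (pd i g)) : ∫ x in cube, pd i g x = 0 := by
  classical
  have hle : (0 : R3) ≤ 1 := zero_le_one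
  have hlhs : (fun x => ∑ k : Fin 3,
      (if k = i then fderiv ℝ g x else (0 : R3 →L[ℝ] ℝ)) (Pi.single k 1)) = pd i g := by
    funext x
    rw [Finset.sum_eq_single i]
    · simp [pd, e]
    · intro k _ hk
      simp [hk]
    · simp
  have key := integral_divergence_of_hasFDerivAt_off_countable' (E := ℝ) (0 : R3) 1 hle
    (fun k x => if k = i then g x else 0)
    (fun k x => if k = i then fderiv ℝ g x else 0) (∅ : Set R3) Set.countable_empty
    (by
      intro k
      by_cases hk : k = i
      · simp only [hk, if_true]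
        exact hg.continuous.continuousOn
      · simp only [hk, if_false]
        exact continuousOn_const)
    (by
      intro x _ k
      by_cases hk : k = i
      · simp only [hk, if_true]
        exact (hg x).hasFDerivAt
      · simp only [hk, if_false]
        exact hasFDerivAt_const _ _)
    (by
      rw [hlhs]
      exact hc.continuousOn.integrableOn_compact isCompact_Icc)
  rw [hlhs] at key
  rw [cube_eq, key]
  apply Finset.sum_eq_zero
  intro k _
  by_cases hk : k = i
  · subst hk
    simp only [if_true]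
    rw [sub_eq_zero]
    apply setIntegral_congr_fun measurableSet_Icc
    intro y _
    simp only [Pi.one_apply, Pi.zero_apply]
    rw [insertNth_one_eq]
    exact hper k _
  · simp [hk]

/-! ### Calculus of coordinate derivatives -/

lemma pd_add {f g : R3 → ℝ} {x : R3} (i : Fin 3) (hf : DifferentiableAt ℝ f x)
    (hg : DifferentiableAt ℝ g x) :
    pd i (fun y => f y + g y) x = pd i f x + pd i g x := by
  simp [pd, fderiv_fun_add hf hg]

lemma pd_sub {f g : R3 → ℝ} {x : R3} (i : Fin 3) (hf : DifferentiableAt ℝ f x)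
    (hg : DifferentiableAt ℝ g x) :
    pd i (fun y => f y - g y) x = pd i f x - pd i g x := by
  simp [pd, fderiv_fun_sub hf hg]

lemma pd_neg {f : R3 → ℝ} {x : R3} (i : Fin 3) :
    pd i (fun y => - f y) x = - pd i f x := by
  simp [pd, fderiv_fun_neg]

lemma pd_mul {f g : R3 → ℝ} {x : R3} (i : Fin 3) (hf : DifferentiableAt ℝ f x)
    (hg : DifferentiableAt ℝ g x) :
    pd i (fun y => f y * g y) x = f x * pd i g x + g x * pd i f x := by
  simp [pd, fderiv_fun_mul hf hg]

lemma pd_const_mul {f : R3 → ℝ} {x : R3} (i : Fin 3) (c : ℝ) (hf : DifferentiableAt ℝ f x) :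
    pd i (fun y => c * f y) x = c * pd i f x := by
  simp [pd, fderiv_const_mul hf]

lemma pd_sum {ι : Type*} (s : Finset ι) {f : ι → R3 → ℝ} {x : R3} (i : Fin 3)
    (hf : ∀ k ∈ s, DifferentiableAt ℝ (f k) x) :
    pd i (fun y => ∑ k ∈ s, f k y) x = ∑ k ∈ s, pd i (f k) x := by
  simp [pd, fderiv_fun_sum hf]

lemma pd_periodic {g : R3 → ℝ} (i : Fin 3) (hper : SpacePeriodic g) : SpacePeriodic (pd i g) := by
  intro k x
  have : (fun y => g (y + e k)) = g := funext (hper k)
  have h2 := fderiv_comp_add_right (𝕜 := ℝ) (f := g) (x := x) (e k)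
  simp only [pd]
  rw [← h2, this]

lemma contDiff_pd {g : R3 → ℝ} (i : Fin 3) (h : ContDiff ℝ 2 g) : ContDiff ℝ 1 (pd i g) := by
  have h1 : ContDiff ℝ 1 (fderiv ℝ g) := h.fderiv_right (by norm_num)
  exact h1.clm_apply contDiff_const

lemma contDiff_pd' {g : R3 → ℝ} (i : Fin 3) (h : ContDiff ℝ 1 g) : Continuous (pd i g) := by
  have h1 : Continuous (fderiv ℝ g) := h.continuous_fderiv (by norm_num)
  exact h1.clm_apply continuous_const

/-- The integral of the divergence of a periodic `C¹` vector field over the cube vanishes. -/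
theorem integral_div_periodic {G : Fin 3 → R3 → ℝ} (hG : ∀ i, ContDiff ℝ 1 (G i))
    (hper : ∀ i, SpacePeriodic (G i)) : ∫ x in cube, ∑ i, pd i (G i) x = 0 := by
  rw [integral_finsetSum]
  · apply Finset.sum_eq_zero
    intro i _
    exact integral_pd_periodic i ((hG i).differentiable (by norm_num)) (hper i)
      (contDiff_pd' i (hG i))
  · intro i _
    exact (contDiff_pd' i (hG i)).continuousOn.integrableOn_compact isCompact_cube

/-! ### The spatial energy estimate at a fixed time -/

/-- The difference of the right-hand sides of the momentum equation. -/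
noncomputable def rhsDiff (ν : ℝ) (a b : Fin 3 → R3 → ℝ) (P1 P2 : R3 → ℝ) (j : Fin 3) (x : R3) :
    ℝ :=
  -(∑ i, a i x * pd i (a j) x - ∑ i, b i x * pd i (b j) x) - (pd j P1 x - pd j P2 x)
    + ν * (∑ i, pd i (pd i (a j)) x - ∑ i, pd i (pd i (b j)) x)

lemma cross_bound {u v c M : ℝ} (h : |c| ≤ M) : -(u * v * c) ≤ M * ((u ^ 2 + v ^ 2) / 2) := by
  have h1 : -(u * v * c) ≤ |u * v| * |c| := by
    rw [← abs_mul]
    exact (neg_le_abs _)
  have h2 : |u * v| * |c| ≤ |u * v| * M := by gcongr
  have h3 : |u * v| ≤ (u ^ 2 + v ^ 2) / 2 := by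
    rw [abs_le]
    constructor <;> nlinarith [sq_nonneg (u + v), sq_nonneg (u - v)]
  have hM : 0 ≤ M := (abs_nonneg c).trans h
  nlinarith

theorem energy_spatial (ν M : ℝ) (hν : 0 ≤ ν) {a b : Fin 3 → R3 → ℝ} {P1 P2 : R3 → ℝ}
    (ha : ∀ i, ContDiff ℝ 2 (a i)) (hb : ∀ i, ContDiff ℝ 2 (b i))
    (hP1 : ContDiff ℝ 1 P1) (hP2 : ContDiff ℝ 1 P2)
    (hap : ∀ i, SpacePeriodic (a i)) (hbp : ∀ i, SpacePeriodic (b i))
    (hP1p : SpacePeriodic P1) (hP2p : SpacePeriodic P2)
    (hdiva : ∀ x, ∑ i, pd i (a i) x = 0) (hdivb : ∀ x, ∑ i, pd i (b i) x = 0)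
    (hbound : ∀ x ∈ cube, ∀ i j, |pd i (b j) x| ≤ M) :
    ∫ x in cube, ∑ j, (a j x - b j x) * rhsDiff ν a b P1 P2 j x ≤
      3 * M * ∫ x in cube, ∑ j, (a j x - b j x) ^ 2 := by
  classical
  set w : Fin 3 → R3 → ℝ := fun j y => a j y - b j y with hw_def
  set π : R3 → ℝ := fun y => P1 y - P2 y with hπ_def
  have ha1 : ∀ i, ContDiff ℝ 1 (a i) := fun i => (ha i).of_le (by norm_num)
  have hb1 : ∀ i, ContDiff ℝ 1 (b i) := fun i => (hb i).of_le (by norm_num)
  have hw2 : ∀ j, ContDiff ℝ 2 (w j) := fun j => (ha j).sub (hb j)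
  have hw1 : ∀ j, ContDiff ℝ 1 (w j) := fun j => (hw2 j).of_le (by norm_num)
  have hπ1 : ContDiff ℝ 1 π := hP1.sub hP2
  have hdw1 : ∀ i j, ContDiff ℝ 1 (pd i (w j)) := fun i j => contDiff_pd i (hw2 j)
  have hda : ∀ j x, DifferentiableAt ℝ (a j) x := fun j x =>
    ((ha1 j).differentiable (by norm_num)) x
  have hdb : ∀ j x, DifferentiableAt ℝ (b j) x := fun j x =>
    ((hb1 j).differentiable (by norm_num)) x
  have hdw : ∀ j x, DifferentiableAt ℝ (w j) x := fun j x =>
    ((hw1 j).differentiable (by norm_num)) x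
  have hdπ : ∀ x, DifferentiableAt ℝ π x := fun x => (hπ1.differentiable (by norm_num)) x
  have hddw : ∀ i j x, DifferentiableAt ℝ (pd i (w j)) x := fun i j x =>
    ((hdw1 i j).differentiable (by norm_num)) x
  have hpw : ∀ i j x, pd i (w j) x = pd i (a j) x - pd i (b j) x := fun i j x =>
    pd_sub i (hda j x) (hdb j x)
  have hpπ : ∀ i x, pd i π x = pd i P1 x - pd i P2 x := fun i x =>
    pd_sub i ((hP1.differentiable (by norm_num)) x) ((hP2.differentiable (by norm_num)) x)
  have hppw : ∀ i j x, pd i (pd i (w j)) x = pd i (pd i (a j)) x - pd i (pd i (b j)) x := by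
    intro i j x
    have h1 : pd i (w j) = fun y => pd i (a j) y - pd i (b j) y := funext (hpw i j)
    rw [h1]
    exact pd_sub i (((contDiff_pd i (ha j)).differentiable (by norm_num)) x)
      (((contDiff_pd i (hb j)).differentiable (by norm_num)) x)
  -- the flux
  set S : R3 → ℝ := fun y => ∑ j, (w j y * w j y) / 2 with hS_def
  set G : Fin 3 → R3 → ℝ := fun i y =>
    -(a i y * S y) - w i y * π y + ν * ∑ j, w j y * pd i (w j) y with hG_def
  have hS1 : ContDiff ℝ 1 S := by
    apply ContDiff.sum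
    intro j _
    exact ((hw1 j).mul (hw1 j)).div_const 2
  have hdS : ∀ x, DifferentiableAt ℝ S x := fun x => (hS1.differentiable (by norm_num)) x
  have hpS : ∀ i x, pd i S x = ∑ j, w j x * pd i (w j) x := by
    intro i x
    have h1 : pd i S x = ∑ j, pd i (fun y => (w j y * w j y) / 2) x :=
      pd_sum Finset.univ i (fun j _ =>
        (((hw1 j).mul (hw1 j)).div_const (2 : ℝ)).differentiable (by norm_num) x)
    rw [h1]
    apply Finset.sum_congr rfl
    intro j _
    have h2 : (fun y => (w j y * w j y) / 2) = fun y => (1 / 2 : ℝ) * (w j y * w j y) := by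
      funext y; ring
    have h3 : DifferentiableAt ℝ (fun y => w j y * w j y) x := (hdw j x).mul (hdw j x)
    have h4 : pd i (fun y => (1 / 2 : ℝ) * (w j y * w j y)) x =
        (1 / 2 : ℝ) * pd i (fun y => w j y * w j y) x := pd_const_mul i _ h3
    have h5 : pd i (fun y => w j y * w j y) x = w j x * pd i (w j) x + w j x * pd i (w j) x :=
      pd_mul i (hdw j x) (hdw j x)
    rw [h2, h4, h5]
    ring
  have hG1 : ∀ i, ContDiff ℝ 1 (G i) := by
    intro i
    refine (((ha1 i).mul hS1).neg.sub ((hw1 i).mul hπ1)).add (contDiff_const.mul ?_)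
    apply ContDiff.sum
    intro j _
    exact (hw1 j).mul (hdw1 i j)
  have hwp : ∀ j, SpacePeriodic (w j) := by
    intro j k x
    simp only [hw_def]
    rw [hap j k x, hbp j k x]
  have hπp : SpacePeriodic π := by
    intro k x
    simp only [hπ_def]
    rw [hP1p k x, hP2p k x]
  have hSp : SpacePeriodic S := by
    intro k x
    simp only [hS_def]
    apply Finset.sum_congr rfl
    intro j _
    rw [hwp j k x]
  have hGp : ∀ i, SpacePeriodic (G i) := by
    intro i k x
    simp only [hG_def]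
    rw [hap i k x, hSp k x, hwp i k x, hπp k x]
    congr 2
    apply Finset.sum_congr rfl
    intro j _
    rw [hwp j k x, pd_periodic i (hwp j) k x]
  -- its divergence
  have hpG : ∀ i x, pd i (G i) x = -(a i x * (∑ j, w j x * pd i (w j) x) + S x * pd i (a i) x)
      - (w i x * pd i π x + π x * pd i (w i) x)
      + ν * ∑ j, (w j x * pd i (pd i (w j)) x + pd i (w j) x * pd i (w j) x) := by
    intro i x
    have hA : DifferentiableAt ℝ (fun y => a i y * S y) x := (hda i x).mul (hdS x)
    have hB : DifferentiableAt ℝ (fun y => w i y * π y) x := (hdw i x).mul (hdπ x)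
    have hC : DifferentiableAt ℝ (fun y => ∑ j, w j y * pd i (w j) y) x :=
      DifferentiableAt.fun_sum (fun j _ => (hdw j x).mul (hddw i j x))
    have hA' : DifferentiableAt ℝ (fun y => -(a i y * S y)) x := hA.fun_neg
    have hX : DifferentiableAt ℝ (fun y => -(a i y * S y) - w i y * π y) x := hA'.fun_sub hB
    have hY : DifferentiableAt ℝ (fun y => ν * ∑ j, w j y * pd i (w j) y) x := hC.const_mul ν
    have e1 : pd i (G i) x = pd i (fun y => -(a i y * S y) - w i y * π y) x +
        pd i (fun y => ν * ∑ j, w j y * pd i (w j) y) x := pd_add i hX hY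
    have e2 : pd i (fun y => -(a i y * S y) - w i y * π y) x =
        pd i (fun y => -(a i y * S y)) x - pd i (fun y => w i y * π y) x := pd_sub i hA' hB
    have e3 : pd i (fun y => -(a i y * S y)) x = - pd i (fun y => a i y * S y) x := pd_neg i
    have e4 : pd i (fun y => a i y * S y) x = a i x * pd i S x + S x * pd i (a i) x :=
      pd_mul i (hda i x) (hdS x)
    have e5 : pd i (fun y => w i y * π y) x = w i x * pd i π x + π x * pd i (w i) x :=
      pd_mul i (hdw i x) (hdπ x)
    have e6 : pd i (fun y => ν * ∑ j, w j y * pd i (w j) y) x =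
        ν * pd i (fun y => ∑ j, w j y * pd i (w j) y) x := pd_const_mul i ν hC
    have e7 : pd i (fun y => ∑ j, w j y * pd i (w j) y) x =
        ∑ j, pd i (fun y => w j y * pd i (w j) y) x :=
      pd_sum Finset.univ i (fun j _ => (hdw j x).mul (hddw i j x))
    have e8 : ∀ j, pd i (fun y => w j y * pd i (w j) y) x =
        w j x * pd i (pd i (w j)) x + pd i (w j) x * pd i (w j) x := fun j =>
      pd_mul i (hdw j x) (hddw i j x)
    rw [e1, e2, e3, e4, e5, e6, e7, hpS]
    simp only [e8]
  -- the pointwise inequality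
  have hpt : ∀ x ∈ cube, ∑ j, (a j x - b j x) * rhsDiff ν a b P1 P2 j x ≤
      ∑ i, pd i (G i) x + 3 * M * ∑ j, (a j x - b j x) ^ 2 := by
    intro x hx
    have hdiv1 := hdiva x
    have hdiv2 : ∑ i, pd i (w i) x = 0 := by
      have : ∑ i, pd i (w i) x = ∑ i, pd i (a i) x - ∑ i, pd i (b i) x := by
        rw [← Finset.sum_sub_distrib]
        exact Finset.sum_congr rfl (fun i _ => hpw i i x)
      rw [this, hdiva x, hdivb x, sub_zero]
    have hb' := hbound x hx
    have hD : ∀ i j, -(w j x * w i x * pd i (b j) x) ≤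
        M * ((w j x ^ 2 + w i x ^ 2) / 2) := fun i j => cross_bound (hb' i j)
    have hνs : ∀ i j, 0 ≤ ν * (pd i (w j) x * pd i (w j) x) := fun i j =>
      mul_nonneg hν (mul_self_nonneg _)
    simp only [rhsDiff, hpG, Fin.sum_univ_three, hpw, hppw, hpπ] at hdiv1 hdiv2 hD hνs ⊢
    simp only [hS_def, Fin.sum_univ_three, hw_def] at hdiv1 hdiv2 hD hνs ⊢
    have hD00 := hD 0 0
    have hD01 := hD 0 1
    have hD02 := hD 0 2
    have hD10 := hD 1 0
    have hD11 := hD 1 1
    have hD12 := hD 1 2
    have hD20 := hD 2 0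
    have hD21 := hD 2 1
    have hD22 := hD 2 2
    have hν00 := hνs 0 0
    have hν01 := hνs 0 1
    have hν02 := hνs 0 2
    have hν10 := hνs 1 0
    have hν11 := hνs 1 1
    have hν12 := hνs 1 2
    have hν20 := hνs 2 0
    have hν21 := hνs 2 1
    have hν22 := hνs 2 2
    have e1 : (pd 0 (a 0) x + pd 1 (a 1) x + pd 2 (a 2) x) *
        ((a 0 x - b 0 x) ^ 2 + (a 1 x - b 1 x) ^ 2 + (a 2 x - b 2 x) ^ 2) = 0 := by
      rw [hdiv1]; ring
    have e2 : ((pd 0 (a 0) x - pd 0 (b 0) x) + (pd 1 (a 1) x - pd 1 (b 1) x) +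
        (pd 2 (a 2) x - pd 2 (b 2) x)) * π x = 0 := by
      rw [hdiv2]; ring
    linarith
  have hcontW : Continuous (fun x => ∑ j, (a j x - b j x) ^ 2) :=
    continuous_finsetSum _ (fun j _ => ((ha j).continuous.sub (hb j).continuous).pow 2)
  have hcontdiv : Continuous (fun x => ∑ i, pd i (G i) x) :=
    continuous_finsetSum _ (fun i _ => contDiff_pd' i (hG1 i))
  have hcontR : ∀ j, Continuous (rhsDiff ν a b P1 P2 j) := by
    intro j
    unfold rhsDiff
    have hc1 : ∀ i j, Continuous (pd i (a j)) := fun i j => contDiff_pd' i (ha1 j)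
    have hc2 : ∀ i j, Continuous (pd i (b j)) := fun i j => contDiff_pd' i (hb1 j)
    have hc3 : ∀ i j, Continuous (pd i (pd i (a j))) := fun i j =>
      contDiff_pd' i (contDiff_pd i (ha j))
    have hc4 : ∀ i j, Continuous (pd i (pd i (b j))) := fun i j =>
      contDiff_pd' i (contDiff_pd i (hb j))
    refine ((Continuous.sub ?_ ?_).neg.sub ((contDiff_pd' j hP1).sub (contDiff_pd' j hP2))).add
      (continuous_const.mul (Continuous.sub ?_ ?_))
    · exact continuous_finsetSum _ (fun i _ => (ha i).continuous.mul (hc1 i j))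
    · exact continuous_finsetSum _ (fun i _ => (hb i).continuous.mul (hc2 i j))
    · exact continuous_finsetSum _ (fun i _ => hc3 i j)
    · exact continuous_finsetSum _ (fun i _ => hc4 i j)
  have hcontL : Continuous (fun x => ∑ j, (a j x - b j x) * rhsDiff ν a b P1 P2 j x) :=
    continuous_finsetSum _ (fun j _ =>
      ((ha j).continuous.sub (hb j).continuous).mul (hcontR j))
  have hI := fun {h : R3 → ℝ} (hc : Continuous h) =>
    (hc.continuousOn.integrableOn_compact isCompact_cube : IntegrableOn h cube)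
  calc ∫ x in cube, ∑ j, (a j x - b j x) * rhsDiff ν a b P1 P2 j x
      ≤ ∫ x in cube, (∑ i, pd i (G i) x + 3 * M * ∑ j, (a j x - b j x) ^ 2) :=
        setIntegral_mono_on (hI hcontL) (hI (hcontdiv.add (continuous_const.mul hcontW)))
          measurableSet_cube hpt
    _ = 3 * M * ∫ x in cube, ∑ j, (a j x - b j x) ^ 2 := by
        have hc3 : Continuous (fun x => 3 * M * ∑ j, (a j x - b j x) ^ 2) :=
          continuous_const.mul hcontW
        rw [integral_add (hI hcontdiv) (hI hc3),
          integral_div_periodic hG1 hGp, zero_add, integral_const_mul]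

/-! ### Functions on `[0, T] × ℝ³`: integrals over the cube -/

section TimeIntegral

variable {T : ℝ} {W W' : ℝ → R3 → ℝ}

lemma exists_bound_on_compact
    (h : ContinuousOn (fun q : ℝ × R3 => W q.1 q.2) (Icc 0 T ×ˢ univ)) :
    ∃ C, ∀ t ∈ Icc 0 T, ∀ x ∈ cube, ‖W t x‖ ≤ C := by
  have hK : IsCompact (Icc (0 : ℝ) T ×ˢ cube) := isCompact_Icc.prod isCompact_cube
  obtain ⟨C, hC⟩ := hK.exists_bound_of_continuousOn (h.mono (prod_mono_right (subset_univ _)))
  exact ⟨C, fun t ht x hx => hC (t, x) ⟨ht, hx⟩⟩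

lemma continuous_slice
    (h : ContinuousOn (fun q : ℝ × R3 => W q.1 q.2) (Icc 0 T ×ˢ univ)) {t : ℝ}
    (ht : t ∈ Icc 0 T) : Continuous (W t) := by
  have h1 : ContinuousOn (fun x : R3 => W t x) univ :=
    h.comp (f := fun x : R3 => (t, x)) (by fun_prop) (fun x _ => ⟨ht, mem_univ _⟩)
  exact continuousOn_univ.1 h1

lemma continuous_time
    (h : ContinuousOn (fun q : ℝ × R3 => W q.1 q.2) (Icc 0 T ×ˢ univ)) (x : R3) :
    ContinuousOn (fun t => W t x) (Icc 0 T) :=
  h.comp (f := fun t : ℝ => (t, x)) (by fun_prop) (fun _ ht => ⟨ht, mem_univ _⟩)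

lemma integrable_const_cube (C : ℝ) : Integrable (fun _ : R3 => C) (volume.restrict cube) := by
  have : IsFiniteMeasure (volume.restrict cube) :=
    ⟨by simpa using isCompact_cube.measure_lt_top⟩
  exact integrable_const C

theorem continuousOn_integral_cube
    (h : ContinuousOn (fun q : ℝ × R3 => W q.1 q.2) (Icc 0 T ×ˢ univ)) :
    ContinuousOn (fun t => ∫ x in cube, W t x) (Icc 0 T) := by
  obtain ⟨C, hC⟩ := exists_bound_on_compact h
  intro t₀ ht₀
  apply continuousWithinAt_of_dominated (bound := fun _ => C)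
  · filter_upwards [self_mem_nhdsWithin] with t ht
    exact (continuous_slice h ht).aestronglyMeasurable
  · filter_upwards [self_mem_nhdsWithin] with t ht
    exact ae_restrict_of_forall_mem measurableSet_cube (hC t ht)
  · exact integrable_const_cube C
  · exact Filter.Eventually.of_forall (fun x => continuous_time h x t₀ ht₀)

theorem hasDerivAt_integral_cube
    (h : ContinuousOn (fun q : ℝ × R3 => W q.1 q.2) (Icc 0 T ×ˢ univ))
    (h' : ContinuousOn (fun q : ℝ × R3 => W' q.1 q.2) (Icc 0 T ×ˢ univ))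
    (hd : ∀ t ∈ Ioo 0 T, ∀ x, HasDerivAt (fun s => W s x) (W' t x) t) {t : ℝ}
    (ht : t ∈ Ioo 0 T) :
    HasDerivAt (fun s => ∫ x in cube, W s x) (∫ x in cube, W' t x) t := by
  obtain ⟨C, hC⟩ := exists_bound_on_compact h'
  have hIcc : t ∈ Icc 0 T := Ioo_subset_Icc_self ht
  refine (hasDerivAt_integral_of_dominated_loc_of_deriv_le (μ := volume.restrict cube)
    (F := W) (F' := W') (x₀ := t) (bound := fun _ => C) (s := Ioo 0 T)
    (Ioo_mem_nhds ht.1 ht.2) ?_ ?_ ?_ ?_ (integrable_const_cube C) ?_).2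
  · filter_upwards [Ioo_mem_nhds ht.1 ht.2] with s hs
    exact (continuous_slice h (Ioo_subset_Icc_self hs)).aestronglyMeasurable
  · exact (continuous_slice h hIcc).continuousOn.integrableOn_compact isCompact_cube
  · exact (continuous_slice h' hIcc).aestronglyMeasurable
  · exact ae_restrict_of_forall_mem measurableSet_cube
      (fun x hx s hs => hC s (Ioo_subset_Icc_self hs) x hx)
  · exact Filter.Eventually.of_forall (fun x s hs => hd s hs x)

/-- A Gronwall argument: a nonnegative continuous function on `[0, T]`, vanishing at `0`, with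
`E' ≤ K E` on `(0, T)`, vanishes. -/
theorem gronwall_zero {E E' : ℝ → ℝ} {K : ℝ} (hc : ContinuousOn E (Icc 0 T))
    (hd : ∀ t ∈ Ioo 0 T, HasDerivAt E (E' t) t) (hle : ∀ t ∈ Ioo 0 T, E' t ≤ K * E t)
    (h0 : E 0 = 0) (hnn : ∀ t ∈ Icc 0 T, 0 ≤ E t) (hT : 0 ≤ T) :
    ∀ t ∈ Icc 0 T, E t = 0 := by
  set g : ℝ → ℝ := fun t => Real.exp (-K * t) * E t with hg
  have hexp : ∀ t, HasDerivAt (fun s => Real.exp (-K * s)) (Real.exp (-K * t) * (-K)) t := by
    intro t
    have : HasDerivAt (fun s => -K * s) (-K) t := by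
      simpa using (hasDerivAt_id t).const_mul (-K)
    exact this.exp
  have hgd : ∀ t ∈ Ioo 0 T, HasDerivAt g
      (Real.exp (-K * t) * (-K) * E t + Real.exp (-K * t) * E' t) t := fun t ht =>
    (hexp t).mul (hd t ht)
  have hanti : AntitoneOn g (Icc 0 T) := by
    apply antitoneOn_of_deriv_nonpos (convex_Icc 0 T)
    · exact ContinuousOn.mul (by fun_prop) hc
    · rw [interior_Icc]
      exact fun t ht => (hgd t ht).differentiableAt.differentiableWithinAt
    · rw [interior_Icc]
      intro t ht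
      rw [(hgd t ht).deriv]
      have h1 := hle t ht
      have h2 := Real.exp_pos (-K * t)
      have : Real.exp (-K * t) * (-K) * E t + Real.exp (-K * t) * E' t =
          Real.exp (-K * t) * (E' t - K * E t) := by ring
      rw [this]
      exact mul_nonpos_of_nonneg_of_nonpos h2.le (by linarith)
  intro t ht
  have h3 := hanti (left_mem_Icc.2 hT) ht ht.1
  simp only [hg, h0, mul_zero] at h3
  have h4 := Real.exp_pos (-K * t)
  have h5 := hnn t ht
  have h6 : E t ≤ 0 := by
    by_contra hcon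
    have := mul_pos h4 (not_le.1 hcon)
    linarith
  linarith

end TimeIntegral

/-! ### From vanishing integrals to vanishing functions -/

lemma cube_subset_closure_interior : cube ⊆ closure (interior cube) := by
  have h : interior cube = pi univ (fun _ : Fin 3 => Ioo (0 : ℝ) 1) := by
    rw [cube_eq, ← pi_univ_Icc, interior_pi_set finite_univ]
    simp [interior_Icc]
  rw [h, closure_pi_set]
  simp only [closure_Ioo (zero_ne_one' ℝ)]
  rw [cube_eq, ← pi_univ_Icc]
  simp

lemma eq_zero_on_cube {h : R3 → ℝ} (hc : Continuous h) (hnn : ∀ x, 0 ≤ h x)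
    (hi : ∫ x in cube, h x = 0) : ∀ x ∈ cube, h x = 0 := by
  have h1 : h =ᵐ[volume.restrict cube] 0 :=
    (setIntegral_eq_zero_iff_of_nonneg_ae (Filter.Eventually.of_forall hnn)
      (hc.continuousOn.integrableOn_compact isCompact_cube)).1 hi
  exact Measure.eqOn_of_ae_eq h1 hc.continuousOn continuousOn_const cube_subset_closure_interior

lemma periodic_int_shift {β : Type*} {g : R3 → β} (hper : SpacePeriodic g) (i : Fin 3) (n : ℤ)
    (x : R3) : g (x + (n : ℝ) • e i) = g x := by
  have hp : Function.Periodic (fun s : ℝ => g (x + s • e i)) 1 := by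
    intro s
    show g (x + (s + 1) • e i) = g (x + s • e i)
    rw [add_smul, one_smul, ← add_assoc]
    exact hper i _
  have := hp.int_mul n 0
  simpa using this

lemma periodic_eq_zero {g : R3 → ℝ} (hper : SpacePeriodic g) (h0 : ∀ x ∈ cube, g x = 0) (x : R3) :
    g x = 0 := by
  set y : R3 := fun i => Int.fract (x i) with hy
  have hx : x = y + ((⌊x 0⌋ : ℤ) : ℝ) • e 0 + ((⌊x 1⌋ : ℤ) : ℝ) • e 1 + ((⌊x 2⌋ : ℤ) : ℝ) • e 2 := by
    ext i
    fin_cases i <;> simp [hy, e]
  have hyc : y ∈ cube := by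
    rw [cube_eq]
    constructor
    · intro i
      exact Int.fract_nonneg _
    · intro i
      exact (Int.fract_lt_one _).le
  rw [hx, periodic_int_shift hper, periodic_int_shift hper, periodic_int_shift hper]
  exact h0 y hyc

lemma volume_cube : (volume : Measure R3).real cube = 1 := by
  rw [cube_eq, Measure.real, Real.volume_Icc_pi]
  simp

/-! ### Uniqueness -/

variable {ν T : ℝ} {f : ℝ → R3 → R3} {u1 u2 : ℝ → R3 → R3} {p1 p2 : ℝ → R3 → ℝ}

lemma pd_component_eq {U : R3 → R3} (hU : ContDiff ℝ 2 U) (i j : Fin 3) (x : R3) :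
    pd i (fun y => U y j) x = fderiv ℝ U x (e i) j := by
  have hd : HasFDerivAt U (fderiv ℝ U x) x :=
    ((hU.differentiable (by norm_num)) x).hasFDerivAt
  have h := (hasFDerivAt_pi'.1 hd j).fderiv
  simp only [pd]
  rw [h]
  rfl

lemma norm_e (i : Fin 3) : ‖e i‖ = 1 := by
  simp [e, Pi.norm_single]

lemma abs_pd_le {U : R3 → R3} (hU : ContDiff ℝ 2 U) (i j : Fin 3) (x : R3) :
    |pd i (fun y => U y j) x| ≤ ‖fderiv ℝ U x‖ := by
  rw [pd_component_eq hU]
  calc |fderiv ℝ U x (e i) j| = ‖fderiv ℝ U x (e i) j‖ := (Real.norm_eq_abs _).symm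
    _ ≤ ‖fderiv ℝ U x (e i)‖ := norm_le_pi_norm _ j
    _ ≤ ‖fderiv ℝ U x‖ * ‖e i‖ := (fderiv ℝ U x).le_opNorm _
    _ = ‖fderiv ℝ U x‖ := by rw [norm_e, mul_one]

/-- The energy of the difference of two classical solutions vanishes. -/
theorem energy_zero (hν : 0 ≤ ν) (hT : 0 < T) (h1 : IsClassicalSolution ν f T u1 p1)
    (h2 : IsClassicalSolution ν f T u2 p2) {t : ℝ} (ht : t ∈ Icc 0 T) (x : R3) :
    u1 t x = u2 t x := by
  classical
  -- bound on `∇u2`
  obtain ⟨M, hM⟩ : ∃ M, ∀ t ∈ Icc 0 T, ∀ x ∈ cube, ‖fderiv ℝ (u2 t) x‖ ≤ M := by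
    have hK : IsCompact (Icc (0 : ℝ) T ×ˢ cube) := isCompact_Icc.prod isCompact_cube
    obtain ⟨C, hC⟩ := hK.exists_bound_of_continuousOn
      (h2.cont_du.mono (prod_mono_right (subset_univ _)))
    exact ⟨C, fun t ht x hx => hC (t, x) ⟨ht, hx⟩⟩
  set d1 : ℝ → R3 → R3 := fun t x => derivWithin (fun s => u1 s x) (Icc 0 T) t with hd1
  set d2 : ℝ → R3 → R3 := fun t x => derivWithin (fun s => u2 s x) (Icc 0 T) t with hd2
  set W : ℝ → R3 → ℝ := fun t x => ∑ j, (u1 t x j - u2 t x j) ^ 2 with hW
  set W' : ℝ → R3 → ℝ := fun t x => ∑ j, 2 * (u1 t x j - u2 t x j) * (d1 t x j - d2 t x j)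
    with hW'
  have hcu1 : ∀ j, ContinuousOn (fun q : ℝ × R3 => u1 q.1 q.2 j) (Icc 0 T ×ˢ univ) := fun j =>
    (continuous_apply j).comp_continuousOn h1.cont_u
  have hcu2 : ∀ j, ContinuousOn (fun q : ℝ × R3 => u2 q.1 q.2 j) (Icc 0 T ×ˢ univ) := fun j =>
    (continuous_apply j).comp_continuousOn h2.cont_u
  have hcd1 : ∀ j, ContinuousOn (fun q : ℝ × R3 => d1 q.1 q.2 j) (Icc 0 T ×ˢ univ) := fun j =>
    (continuous_apply j).comp_continuousOn h1.cont_dt
  have hcd2 : ∀ j, ContinuousOn (fun q : ℝ × R3 => d2 q.1 q.2 j) (Icc 0 T ×ˢ univ) := fun j =>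
    (continuous_apply j).comp_continuousOn h2.cont_dt
  have hcW : ContinuousOn (fun q : ℝ × R3 => W q.1 q.2) (Icc 0 T ×ˢ univ) :=
    continuousOn_finsetSum _ (fun j _ => ((hcu1 j).sub (hcu2 j)).pow 2)
  have hcW' : ContinuousOn (fun q : ℝ × R3 => W' q.1 q.2) (Icc 0 T ×ˢ univ) :=
    continuousOn_finsetSum _ (fun j _ =>
      (continuousOn_const.mul ((hcu1 j).sub (hcu2 j))).mul ((hcd1 j).sub (hcd2 j)))
  have hdW : ∀ t ∈ Ioo 0 T, ∀ x, HasDerivAt (fun s => W s x) (W' t x) t := by
    intro t ht x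
    have hI := Ioo_subset_Icc_self ht
    have hn := Icc_mem_nhds ht.1 ht.2
    have e1 : HasDerivAt (fun s => u1 s x) (d1 t x) t :=
      (h1.diff_time t hI x).hasDerivWithinAt.hasDerivAt hn
    have e2 : HasDerivAt (fun s => u2 s x) (d2 t x) t :=
      (h2.diff_time t hI x).hasDerivWithinAt.hasDerivAt hn
    apply HasDerivAt.fun_sum
    intro j _
    have e4 : HasDerivAt (fun s => u1 s x j - u2 s x j) (d1 t x j - d2 t x j) t :=
      (hasDerivAt_pi.1 e1 j).sub (hasDerivAt_pi.1 e2 j)
    have e5 := e4.fun_pow 2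
    have e6 : ((2 : ℕ) : ℝ) * (u1 t x j - u2 t x j) ^ (2 - 1) * (d1 t x j - d2 t x j) =
        2 * (u1 t x j - u2 t x j) * (d1 t x j - d2 t x j) := by
      rw [show 2 - 1 = 1 from rfl, pow_one]
      norm_num
    rw [e6] at e5
    exact e5
  set E : ℝ → ℝ := fun t => ∫ x in cube, W t x with hE
  have hEc : ContinuousOn E (Icc 0 T) := continuousOn_integral_cube hcW
  have hEd : ∀ t ∈ Ioo 0 T, HasDerivAt E (∫ x in cube, W' t x) t := fun t ht =>
    hasDerivAt_integral_cube hcW hcW' hdW ht
  have hWnn : ∀ t x, 0 ≤ W t x := fun t x =>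
    Finset.sum_nonneg (fun j _ => sq_nonneg _)
  have hE0 : E 0 = 0 := by
    simp [hE, hW, h1.initial, h2.initial]
  have hEnn : ∀ t ∈ Icc 0 T, 0 ≤ E t := fun t _ =>
    integral_nonneg (fun x => hWnn t x)
  -- the differential inequality
  have hEle : ∀ t ∈ Ioo 0 T, (∫ x in cube, W' t x) ≤ (6 * M) * E t := by
    intro t ht
    have hI := Ioo_subset_Icc_self ht
    have hes := energy_spatial ν M hν (a := fun j y => u1 t y j) (b := fun j y => u2 t y j)
      (P1 := p1 t) (P2 := p2 t)
      (fun j => contDiff_pi.1 (h1.contDiff_u t hI) j) (fun j => contDiff_pi.1 (h2.contDiff_u t hI) j)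
      (h1.contDiff_p t hI) (h2.contDiff_p t hI)
      (fun j k y => congrFun (h1.periodic_u t hI k y) j)
      (fun j k y => congrFun (h2.periodic_u t hI k y) j)
      (h1.periodic_p t hI) (h2.periodic_p t hI)
      (h1.incompressible t hI) (h2.incompressible t hI)
      (fun y hy i j => (abs_pd_le (h2.contDiff_u t hI) i j y).trans (hM t hI y hy))
    have hW'eq : ∀ y, W' t y = 2 * ∑ j, (u1 t y j - u2 t y j) *
        rhsDiff ν (fun j y => u1 t y j) (fun j y => u2 t y j) (p1 t) (p2 t) j y := by
      intro y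
      simp only [hW']
      rw [Finset.mul_sum]
      apply Finset.sum_congr rfl
      intro j _
      have m1 := h1.momentum t hI y j
      have m2 := h2.momentum t hI y j
      have : d1 t y j - d2 t y j = rhsDiff ν (fun j y => u1 t y j) (fun j y => u2 t y j)
          (p1 t) (p2 t) j y := by
        simp only [rhsDiff]
        simp only [hd1, hd2]
        linarith
      rw [this]
      ring
    simp only [hW'eq]
    rw [integral_const_mul]
    have : (6 * M) * E t = 2 * (3 * M * ∫ x in cube, W t x) := by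
      simp only [hE]
      ring
    rw [this]
    exact mul_le_mul_of_nonneg_left hes (by norm_num)
  have hzero := gronwall_zero hEc hEd hEle hE0 hEnn hT.le t ht
  -- conclusion
  have hcWt : Continuous (W t) := continuous_slice hcW ht
  have hWp : SpacePeriodic (W t) := by
    intro k y
    simp only [hW]
    rw [h1.periodic_u t ht k y, h2.periodic_u t ht k y]
  have hW0 : W t x = 0 :=
    periodic_eq_zero hWp (eq_zero_on_cube hcWt (hWnn t) hzero) x
  ext j
  have h3 : (u1 t x j - u2 t x j) ^ 2 = 0 :=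
    (Finset.sum_eq_zero_iff_of_nonneg (fun j _ => sq_nonneg _)).1 hW0 j (Finset.mem_univ j)
  have h4 : u1 t x j - u2 t x j = 0 := by
    simpa using h3
  linarith

/-- **Uniqueness of classical solutions**: two classical solutions on `[0, T] × 𝕋³` of the same
forced system, for `ν ≥ 0`, coincide (velocity and mean-zero pressure). -/
theorem classical_unique (hν : 0 ≤ ν) (hT : 0 < T) (h1 : IsClassicalSolution ν f T u1 p1)
    (h2 : IsClassicalSolution ν f T u2 p2) :
    ∀ t ∈ Icc 0 T, ∀ x, u1 t x = u2 t x ∧ p1 t x = p2 t x := by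
  have hu : ∀ t ∈ Icc 0 T, ∀ x, u1 t x = u2 t x := fun t ht x => energy_zero hν hT h1 h2 ht x
  intro t ht x
  refine ⟨hu t ht x, ?_⟩
  have hut : u1 t = u2 t := funext (hu t ht)
  -- the gradients of the pressures agree
  have hgrad : ∀ (j : Fin 3) (y : R3), pd j (p1 t) y = pd j (p2 t) y := by
    intro j y
    have m1 := h1.momentum t ht y j
    have m2 := h2.momentum t ht y j
    have hdt : derivWithin (fun s => u1 s y) (Icc 0 T) t = derivWithin (fun s => u2 s y) (Icc 0 T) t :=
      derivWithin_congr (fun s hs => hu s hs y) (hu t ht y)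
    rw [hdt, hut] at m1
    linarith
  set q : R3 → ℝ := fun y => p1 t y - p2 t y with hq
  have hq1 : ContDiff ℝ 1 q := (h1.contDiff_p t ht).sub (h2.contDiff_p t ht)
  have hdq : Differentiable ℝ q := hq1.differentiable (by norm_num)
  have hd1 : Differentiable ℝ (p1 t) := (h1.contDiff_p t ht).differentiable (by norm_num)
  have hd2 : Differentiable ℝ (p2 t) := (h2.contDiff_p t ht).differentiable (by norm_num)
  have hfd : ∀ y, fderiv ℝ q y = 0 := by
    intro y
    have : fderiv ℝ q y = fderiv ℝ (p1 t) y - fderiv ℝ (p2 t) y := fderiv_fun_sub (hd1 y) (hd2 y)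
    rw [this, sub_eq_zero]
    apply ContinuousLinearMap.coe_injective
    apply LinearMap.pi_ext'
    intro j
    ext
    exact hgrad j y
  have hconst : ∀ y, q y = q 0 := fun y => is_const_of_fderiv_eq_zero hdq hfd y 0
  have hint : ∫ y in cube, q y = 0 := by
    have hc1 : IntegrableOn (p1 t) cube :=
      (h1.contDiff_p t ht).continuous.continuousOn.integrableOn_compact isCompact_cube
    have hc2 : IntegrableOn (p2 t) cube :=
      (h2.contDiff_p t ht).continuous.continuousOn.integrableOn_compact isCompact_cube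
    rw [integral_sub hc1 hc2, h1.mean_zero t ht, h2.mean_zero t ht, sub_zero]
  have h0 : q 0 = 0 := by
    have : ∫ y in cube, q y = q 0 := by
      have h3 : ∫ y in cube, q y = ∫ y in cube, q 0 :=
        integral_congr_ae (Filter.Eventually.of_forall hconst)
      rw [h3, setIntegral_const, volume_cube, one_smul]
    rw [← this, hint]
  have h5 : q x = 0 := by rw [hconst x, h0]
  simp only [hq] at h5
  linarith

end Vale.Agent.Lib.P113
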