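import Vale.Agent.Lib.P113.CompForce
import Vale.Agent.Lib.P113.Unique

/-!
# The assembly of the construction
-/

open scoped ContDiff
open Set

namespace Vale.Agent.Lib.P113

open QCode Nat.Partrec

noncomputable section

/-- The input of the program. -/
abbrev ForceIn := ℕ × ℕ × ℕ × ℕ × Fin 3 × QCode × QCode × QCode × QCode × ℕ

/-- A computable function on pairs is a family of programs, computably in the first component. -/
lemma exists_program {β σ : Type*} [Primcodable β] [Primcodable σ] {G : (Machine × List ℕ) × β → σ}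
    (hG : Computable G) :
    ∃ c : Code, ∀ mw x, c.eval (Nat.pair (Encodable.encode mw) (Encodable.encode x))
      = Part.some (Encodable.encode (G (mw, x))) := by
  obtain ⟨c, hc⟩ := Code.exists_code.1 hG
  refine ⟨c, fun mw x => ?_⟩
  rw [hc]
  have e : Nat.pair (Encodable.encode mw) (Encodable.encode x) = Encodable.encode (mw, x) := rfl
  rw [e]
  simp [Encodable.encodek]

lemma shearOf_congr {M : Machine} {w w' : List ℕ} {k : ℤ} (hk : 2 ≤ k) :
    shearOf M w k = shearOf M w' k := by
  unfold shearOf
  rw [if_neg (by omega), if_neg (by omega)]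
  have : phase M w k.toNat = phase M w' k.toNat := by
    rw [phase_of_ge_two w (by omega), phase_of_ge_two w' (by omega)]
  congr 1

lemma periodPhase_add_five (M : Machine) (r : ℕ) : periodPhase M (r + 5) = periodPhase M r := by
  unfold periodPhase
  rw [Nat.add_mod_right]

lemma shearOf_period {M : Machine} {w : List ℕ} {k : ℤ} (hk : 2 ≤ k) :
    shearOf M w (k + 5) = shearOf M w k := by
  unfold shearOf
  rw [if_neg (by omega), if_neg (by omega)]
  have : phase M w (k + 5).toNat = phase M w k.toNat := by
    rw [phase_of_ge_two w (by omega), phase_of_ge_two w (by omega)]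
    have : (k + 5).toNat - 2 = (k.toNat - 2) + 5 := by omega
    rw [this, periodPhase_add_five]
  congr 1

lemma two_le_floor {t : ℝ} (ht : 2 ≤ t) : (2 : ℤ) ≤ ⌊t⌋ := by
  apply Int.le_floor.mpr
  push_cast
  exact ht

lemma Frc_congr_w {M : Machine} {w w' : List ℕ} (ν : ℝ) {t : ℝ} (ht : 2 ≤ t) (x : R3) :
    Frc (shearOf M w) ν t x = Frc (shearOf M w') ν t x := by
  unfold Frc
  rw [shearOf_congr (w := w) (w' := w') (two_le_floor ht)]

lemma Frc_time_period {M : Machine} {w : List ℕ} (ν : ℝ) {t : ℝ} (ht : 2 ≤ t) (x : R3) :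
    Frc (shearOf M w) ν (t + 5) x = Frc (shearOf M w) ν t x := by
  unfold Frc
  have h5 : ⌊t + 5⌋ = ⌊t⌋ + 5 := by
    have := Int.floor_add_intCast t 5
    simpa only [Int.cast_ofNat] using this
  rw [h5, shearOf_period (two_le_floor ht)]
  have e : t + 5 - ((⌊t⌋ + 5 : ℤ) : ℝ) = t - (⌊t⌋ : ℝ) := by
    push_cast
    ring
  rw [e]

/-- The construction, given the uniform computability of the derivatives of the step. -/
theorem haltingDetection_of (hS : CompR fun p : ℕ × QCode => iteratedDeriv p.1 stepS p.2.val)
    {ν : ℝ} (hν0 : 0 < ν) (hν : IsComputableReal ν) : HaltingDetection ν := by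
  obtain ⟨g, hg, hb⟩ := compForceD hS hν
  -- the total program
  let G : (Machine × List ℕ) × ForceIn → QCode := fun q =>
    g (q.1, (q.2.1, q.2.2.1, q.2.2.2.1, q.2.2.2.2.1, q.2.2.2.2.2.1, q.2.2.2.2.2.2.1,
      q.2.2.2.2.2.2.2.1, q.2.2.2.2.2.2.2.2.1, q.2.2.2.2.2.2.2.2.2.1)) q.2.2.2.2.2.2.2.2.2.2
  have hG : Computable G := by
    have h2 : Computable fun q : (Machine × List ℕ) × ForceIn => q.2 := Computable.snd
    have p1 := Computable.fst.comp h2
    have h3 := Computable.snd.comp h2
    have p2 := Computable.fst.comp h3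
    have h4 := Computable.snd.comp h3
    have p3 := Computable.fst.comp h4
    have h5 := Computable.snd.comp h4
    have p4 := Computable.fst.comp h5
    have h6 := Computable.snd.comp h5
    have p5 := Computable.fst.comp h6
    have h7 := Computable.snd.comp h6
    have p6 := Computable.fst.comp h7
    have h8 := Computable.snd.comp h7
    have p7 := Computable.fst.comp h8
    have h9 := Computable.snd.comp h8
    have p8 := Computable.fst.comp h9
    have h10 := Computable.snd.comp h9
    have p9 := Computable.fst.comp h10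
    have p10 := Computable.snd.comp h10
    exact hg.comp (Computable.fst.pair (p1.pair (p2.pair (p3.pair (p4.pair (p5.pair (p6.pair
      (p7.pair (p8.pair p9))))))))) p10
  obtain ⟨c, hc⟩ := exists_program hG
  refine ⟨0, detSet, 2, fun mw => Code.curry c (Encodable.encode mw),
    fun M w => Frc (shearOf M w) ν, detSet_open, detSet_periodic, ?_, by norm_num, ?_, ?_⟩
  · exact (Code.primrec₂_curry.comp (Primrec.const c) Primrec.encode).to_comp
  · intro M w w' t x ht
    exact Frc_congr_w ν ht x
  · intro M w
    refine ⟨?_, Frc_contDiff _ _, Frc_periodic _ _, ⟨5, by norm_num, fun t x ht =>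
      Frc_time_period ν ht x⟩, Vel (shearOf M w), fun _ _ => 0, Vel_contDiff _, contDiff_const,
      fun T hT => Vel_classical _ _ hT, ?_, ⟨_, traj_isTrajectory _ _⟩, ?_⟩
    · intro n m₀ m₁ m₂ j t x₀ x₁ x₂ k
      refine ⟨G ((M, w), (n, m₀, m₁, m₂, j, t, x₀, x₁, x₂, k)), ?_, ?_⟩
      · rw [Code.eval_curry]
        exact hc _ _
      · rw [forceD_eq]
        exact hb _ _
    · intro T hT v q h
      exact classical_unique hν0.le hT h (Vel_classical _ _ hT)
    · intro hw X hX
      rw [← traj_detects hw]
      constructor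
      · rintro ⟨t, ht, hO⟩
        exact ⟨t, ht, by rwa [← traj_unique _ hX t ht]⟩
      · rintro ⟨t, ht, hO⟩
        exact ⟨t, ht, by rwa [traj_unique _ hX t ht]⟩

end

end Vale.Agent.Lib.P113
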