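import Vale.Agent.Lib.P113.StepNum

/-!
# The derivatives of the bump are computable
-/

open scoped ContDiff Topology
open Filter

namespace Vale.Agent.Lib.P113

open QCode

noncomputable section

/-- The derivatives of the basic flat function. -/
def flatD (k : ℕ) (x : ℝ) : ℝ := iteratedDeriv k expNegInvGlue x

lemma flatD_contDiff (k : ℕ) : ContDiff ℝ ∞ (flatD k) := by
  induction k with
  | zero =>
    have : flatD 0 = expNegInvGlue := by
      funext x
      simp [flatD]
    rw [this]
    exact expNegInvGlue.contDiff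
  | succ k ih =>
    have : flatD (k + 1) = deriv (flatD k) := iteratedDeriv_succ
    rw [this]
    exact (contDiff_infty_iff_deriv.mp ih).2

lemma flatD_hasDerivAt (k : ℕ) (x : ℝ) : HasDerivAt (flatD k) (flatD (k + 1) x) x := by
  have : flatD (k + 1) = deriv (flatD k) := iteratedDeriv_succ
  rw [this]
  exact ((flatD_contDiff k).differentiable (by simp) x).hasDerivAt

lemma flatD_zero_apply (x : ℝ) : flatD 0 x = expNegInvGlue x := by simp [flatD]

lemma flat_of_pos {x : ℝ} (hx : 0 < x) : expNegInvGlue x = Real.exp (-x⁻¹) := by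
  simp [expNegInvGlue, not_le.mpr hx]

/-- The differential equation of the flat function. -/
lemma flat_ode {x : ℝ} (hx : 0 < x) : x ^ 2 * flatD 1 x = flatD 0 x := by
  have h1 : HasDerivAt (fun y : ℝ => Real.exp (-y⁻¹)) (Real.exp (-x⁻¹) * (x ^ 2)⁻¹) x := by
    have h2 : HasDerivAt (fun y : ℝ => -y⁻¹) ((x ^ 2)⁻¹) x := by
      have := (hasDerivAt_inv hx.ne').fun_neg
      simpa using this
    exact h2.exp
  have h3 : flatD 0 =ᶠ[𝓝 x] fun y : ℝ => Real.exp (-y⁻¹) := by
    filter_upwards [lt_mem_nhds hx] with y hy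
    rw [flatD_zero_apply, flat_of_pos hy]
  have h4 : HasDerivAt (flatD 0) (Real.exp (-x⁻¹) * (x ^ 2)⁻¹) x := h1.congr_of_eventuallyEq h3
  have h5 := (flatD_hasDerivAt 0 x).unique h4
  rw [h5, flatD_zero_apply, flat_of_pos hx]
  field_simp

/-- A function vanishing on the positive half-line has a vanishing derivative there. -/
lemma deriv_unique_zero {g : ℝ → ℝ} {g' : ℝ} {x : ℝ} (hx : 0 < x) (h : ∀ y, 0 < y → g y = 0)
    (hg : HasDerivAt g g' x) : g' = 0 := by
  have h3 : g =ᶠ[𝓝 x] fun _ => (0 : ℝ) := by
    filter_upwards [lt_mem_nhds hx] with y hy using h y hy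
  exact hg.unique ((hasDerivAt_const x (0 : ℝ)).congr_of_eventuallyEq h3)

/-- The second step of the recursion. -/
lemma flat_rec_zero {x : ℝ} (hx : 0 < x) :
    x ^ 2 * flatD 2 x = (1 - 2 * x) * flatD 1 x := by
  have hd : HasDerivAt (fun y => y ^ 2 * flatD 1 y - flatD 0 y)
      ((2 * x) * flatD 1 x + x ^ 2 * flatD 2 x - flatD 1 x) x := by
    have h1 : HasDerivAt (fun y : ℝ => y ^ 2) (2 * x) x := by
      simpa using hasDerivAt_pow 2 x
    exact (h1.mul (flatD_hasDerivAt 1 x)).sub (flatD_hasDerivAt 0 x)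
  have := deriv_unique_zero hx (fun y hy => by rw [flat_ode hy]; ring) hd
  linarith

/-- The recursion of the derivatives of the flat function. -/
lemma flat_rec (k : ℕ) {x : ℝ} (hx : 0 < x) :
    x ^ 2 * flatD (k + 2) x
      = (1 - 2 * ((k : ℝ) + 1) * x) * flatD (k + 1) x - ((k : ℝ) + 1) * k * flatD k x := by
  induction k generalizing x with
  | zero =>
    have := flat_rec_zero hx
    simp only [Nat.cast_zero, zero_add, mul_one, mul_zero, zero_mul, sub_zero]
    exact this
  | succ k ih =>
    have hd : HasDerivAt (fun y => y ^ 2 * flatD (k + 2) y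
        - ((1 - 2 * ((k : ℝ) + 1) * y) * flatD (k + 1) y - ((k : ℝ) + 1) * k * flatD k y))
        (((2 * x) * flatD (k + 2) x + x ^ 2 * flatD (k + 3) x)
          - (((-(2 * ((k : ℝ) + 1))) * flatD (k + 1) x + (1 - 2 * ((k : ℝ) + 1) * x) * flatD (k + 2) x)
            - ((k : ℝ) + 1) * k * flatD (k + 1) x)) x := by
      have h1 : HasDerivAt (fun y : ℝ => y ^ 2) (2 * x) x := by
        simpa using hasDerivAt_pow 2 x
      have h2 : HasDerivAt (fun y : ℝ => 1 - 2 * ((k : ℝ) + 1) * y) (-(2 * ((k : ℝ) + 1))) x := by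
        have := ((hasDerivAt_id x).const_mul (2 * ((k : ℝ) + 1))).const_sub 1
        simpa using this
      exact (h1.mul (flatD_hasDerivAt (k + 2) x)).sub
        ((h2.mul (flatD_hasDerivAt (k + 1) x)).sub
          ((flatD_hasDerivAt k x).const_mul (((k : ℝ) + 1) * k)))
    have := deriv_unique_zero hx (fun y hy => by rw [ih hy]; ring) hd
    push_cast
    have e3 : k + 1 + 2 = k + 3 := rfl
    rw [e3]
    linarith

/-- Derivatives vanish on the nonpositive half-line. -/
lemma flatD_of_nonpos (k : ℕ) {x : ℝ} (hx : x ≤ 0) : flatD k x = 0 := by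
  have h1 : ∀ y, y < 0 → flatD k y = 0 := by
    intro y hy
    have h2 : expNegInvGlue =ᶠ[𝓝 y] fun _ => (0 : ℝ) := by
      filter_upwards [gt_mem_nhds hy] with z hz using expNegInvGlue.zero_of_nonpos hz.le
    unfold flatD
    rw [h2.iteratedDeriv_eq k, iteratedDeriv_const]
    split_ifs <;> rfl
  rcases lt_or_eq_of_le hx with hx | rfl
  · exact h1 x hx
  · have hc := (flatD_contDiff k).continuous
    have hcl : closure (Set.Iio (0 : ℝ)) = Set.Iic 0 := closure_Iio 0
    have hs : Set.Iic (0 : ℝ) ⊆ {y | flatD k y = 0} := by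
      rw [← hcl]
      apply closure_minimal
      · intro y hy
        exact h1 y hy
      · exact isClosed_eq hc continuous_const
    exact hs (by simp)

/-- The Leibniz formula for the bump. -/
lemma bump_leibniz (n : ℕ) (s : ℝ) :
    iteratedDeriv n bumpB s = ∑ i ∈ Finset.range (n + 1), (n.choose i : ℝ)
      * flatD i s * ((-1) ^ (n - i) * flatD (n - i) (1 - s)) := by
  have h1 : ContDiff ℝ n expNegInvGlue := expNegInvGlue.contDiff.of_le (by exact_mod_cast le_top)
  have h2 : ContDiff ℝ n fun s => expNegInvGlue (1 - s) :=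
    h1.comp (contDiff_const.sub contDiff_id)
  have e : bumpB = fun s => expNegInvGlue s * expNegInvGlue (1 - s) := rfl
  rw [e, iteratedDeriv_fun_mul h1.contDiffAt h2.contDiffAt]
  refine Finset.sum_congr rfl fun i _ => ?_
  have h3 : iteratedDeriv (n - i) (fun s => expNegInvGlue (1 - s)) s
      = (-1) ^ (n - i) * flatD (n - i) (1 - s) := by
    have := congrFun (iteratedDeriv_comp_const_sub (n - i) expNegInvGlue 1) s
    rw [this]
    simp [flatD, smul_eq_mul]
  rw [h3]
  rfl

/-- The pair of rational coefficients `(E k, E (k + 1))` at the point `x`. -/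
def coefPair (x : QCode) : ℕ → QCode × QCode
  | 0 => (ofNat 1, inv (mul x x))
  | k + 1 =>
    let p := coefPair x k
    (p.2, mul (inv (mul x x)) (sub (mul (sub (ofNat 1) (mul (ofNat (2 * (k + 1))) x)) p.2)
      (mul (ofNat ((k + 1) * k)) p.1)))

lemma primCoefPair : Primrec₂ coefPair := by
  have hx : Primrec fun q : QCode × ℕ => q.1 := Primrec.fst
  have hI : Primrec fun q : QCode × ℕ => inv (mul q.1 q.1) := primInv.comp (primMul.comp hx hx)
  have hstep : Primrec₂ fun (q : QCode × ℕ) (r : ℕ × QCode × QCode) =>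
      ((r.2.2, mul (inv (mul q.1 q.1)) (sub (mul (sub (ofNat 1) (mul (ofNat (2 * (r.1 + 1))) q.1))
        r.2.2) (mul (ofNat ((r.1 + 1) * r.1)) r.2.1))) : QCode × QCode) := by
    have hq : Primrec fun z : (QCode × ℕ) × ℕ × QCode × QCode => z.1.1 :=
      Primrec.fst.comp Primrec.fst
    have hk : Primrec fun z : (QCode × ℕ) × ℕ × QCode × QCode => z.2.1 :=
      Primrec.fst.comp Primrec.snd
    have ha : Primrec fun z : (QCode × ℕ) × ℕ × QCode × QCode => z.2.2.1 :=
      Primrec.fst.comp (Primrec.snd.comp Primrec.snd)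
    have hb : Primrec fun z : (QCode × ℕ) × ℕ × QCode × QCode => z.2.2.2 :=
      Primrec.snd.comp (Primrec.snd.comp Primrec.snd)
    have hk1 : Primrec fun z : (QCode × ℕ) × ℕ × QCode × QCode => z.2.1 + 1 :=
      Primrec.succ.comp hk
    refine Primrec.pair hb ?_
    refine primMul.comp (primInv.comp (primMul.comp hq hq)) (primSub.comp (primMul.comp ?_ hb)
      (primMul.comp (primOfNat.comp (Primrec.nat_mul.comp hk1 hk)) ha))
    exact primSub.comp (Primrec.const _) (primMul.comp (primOfNat.comp
      (Primrec.nat_mul.comp (Primrec.const 2) hk1)) hq)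
  have h := Primrec.nat_rec' (f := fun q : QCode × ℕ => q.2)
    (g := fun q => ((ofNat 1, inv (mul q.1 q.1)) : QCode × QCode)) Primrec.snd
    (Primrec.pair (Primrec.const _) hI) hstep
  refine h.of_eq fun q => ?_
  obtain ⟨x, k⟩ := q
  simp only
  induction k with
  | zero => rfl
  | succ k ih =>
    simp only [coefPair]
    rw [← ih]

/-- The coefficients compute the derivatives of the flat function. -/
lemma coefPair_spec {x : QCode} (hx : 0 < x.val) (k : ℕ) :
    flatD k x.val = (coefPair x k).1.val * flatD 0 x.val ∧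
      flatD (k + 1) x.val = (coefPair x k).2.val * flatD 0 x.val := by
  have hI : (inv (mul x x)).val = (x.val ^ 2)⁻¹ := by
    rw [val_inv (by rw [val_mul]; positivity), val_mul, sq]
  have hx2 : x.val ^ 2 ≠ 0 := by positivity
  induction k with
  | zero =>
    constructor
    · simp [coefPair]
    · simp only [coefPair]
      rw [hI, ← flat_ode hx]
      field_simp
  | succ k ih =>
    obtain ⟨h1, h2⟩ := ih
    constructor
    · simpa [coefPair] using h2
    · have h3 := flat_rec k hx
      simp only [coefPair, val_mul, val_sub, hI, val_ofNat]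
      have e : flatD (k + 1 + 1) x.val = (x.val ^ 2)⁻¹ * (x.val ^ 2 * flatD (k + 2) x.val) := by
        field_simp
      rw [e, h3, h2, h1]
      push_cast
      ring

/-- The factorial as a primitive recursive function. -/
lemma primFactorial : Primrec Nat.factorial := by
  have h := Primrec.nat_rec' (f := fun n : ℕ => n) (g := fun _ => 1)
    (h := fun _ (r : ℕ × ℕ) => (r.1 + 1) * r.2) Primrec.id (Primrec.const 1)
    (Primrec.nat_mul.comp (Primrec.succ.comp (Primrec.fst.comp Primrec.snd))
      (Primrec.snd.comp Primrec.snd))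
  refine h.of_eq fun n => ?_
  induction n with
  | zero => rfl
  | succ n ih => rw [Nat.factorial_succ]; simp only [ih]

/-- The binomial coefficient in the range of Leibniz' formula. -/
def binomCode (n i : ℕ) : ℕ := n.factorial / (i.factorial * (n - i).factorial)

lemma binomCode_eq {n i : ℕ} (h : i ≤ n) : binomCode n i = n.choose i :=
  (Nat.choose_eq_factorial_div_factorial h).symm

lemma primBinomCode : Primrec₂ binomCode :=
  Primrec.nat_div.comp (primFactorial.comp Primrec.fst)
    (Primrec.nat_mul.comp (primFactorial.comp Primrec.snd)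
      (primFactorial.comp (Primrec.nat_sub.comp Primrec.fst Primrec.snd)))

/-- The code of `1 - s`. -/
def oneSub (s : QCode) : QCode := sub (ofNat 1) s

lemma primOneSub : Primrec oneSub := primSub.comp (Primrec.const _) Primrec.id

@[simp] lemma val_oneSub (s : QCode) : (oneSub s).val = 1 - s.val := by
  simp [oneSub]

/-- The rational coefficient of the term `i` in Leibniz' formula. -/
def leibCode (n : ℕ) (s : QCode) (i : ℕ) : QCode :=
  mul (mul (ofNat (binomCode n i)) (coefPair s i).1)
    (mul (QCode.pow (neg (ofNat 1)) (n - i)) (coefPair (oneSub s) (n - i)).1)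

lemma primLeibCode : Primrec fun q : (ℕ × QCode) × ℕ => leibCode q.1.1 q.1.2 q.2 := by
  have hn : Primrec fun q : (ℕ × QCode) × ℕ => q.1.1 := Primrec.fst.comp Primrec.fst
  have hs : Primrec fun q : (ℕ × QCode) × ℕ => q.1.2 := Primrec.snd.comp Primrec.fst
  have hi : Primrec fun q : (ℕ × QCode) × ℕ => q.2 := Primrec.snd
  have hd : Primrec fun q : (ℕ × QCode) × ℕ => q.1.1 - q.2 := Primrec.nat_sub.comp hn hi
  exact primMul.comp
    (primMul.comp (primOfNat.comp (primBinomCode.comp hn hi))
      (Primrec.fst.comp (primCoefPair.comp hs hi)))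
    (primMul.comp (primPow.comp (Primrec.const _) hd)
      (Primrec.fst.comp (primCoefPair.comp (primOneSub.comp hs) hd)))

/-- The bump inside the interval. -/
lemma bump_inside (n : ℕ) {s : QCode} (h0 : 0 < s.val) (h1 : 0 < (oneSub s).val) :
    iteratedDeriv n bumpB s.val = (∑ i ∈ Finset.range (n + 1), (leibCode n s i).val)
      * (Real.exp (-(posCode (inv s)).val) * Real.exp (-(posCode (inv (oneSub s))).val)) := by
  have h1' : 0 < 1 - s.val := by simpa using h1
  have e1 : (posCode (inv s)).val = (s.val)⁻¹ := by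
    rw [val_posCode_of_nonneg, val_inv h0]
    rw [val_inv h0]
    positivity
  have e2 : (posCode (inv (oneSub s))).val = (1 - s.val)⁻¹ := by
    rw [val_posCode_of_nonneg, val_inv h1, val_oneSub]
    rw [val_inv h1]
    positivity
  have f1 : flatD 0 s.val = Real.exp (-(s.val)⁻¹) := by
    rw [flatD_zero_apply, flat_of_pos h0]
  have f2 : flatD 0 (1 - s.val) = Real.exp (-(1 - s.val)⁻¹) := by
    rw [flatD_zero_apply, flat_of_pos h1']
  rw [bump_leibniz, e1, e2, ← f1, ← f2, Finset.sum_mul]
  refine Finset.sum_congr rfl fun i hi => ?_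
  have hi' : i ≤ n := Nat.lt_succ_iff.mp (Finset.mem_range.mp hi)
  have a1 := (coefPair_spec h0 i).1
  have a2 := (coefPair_spec h1 (n - i)).1
  rw [val_oneSub] at a2
  rw [a1, a2]
  simp only [leibCode, val_mul, val_ofNat, val_pow, val_neg, binomCode_eq hi']
  ring

/-- The bump outside the interval. -/
lemma bump_outside (n : ℕ) {s : ℝ} (h : s ≤ 0 ∨ 1 - s ≤ 0) : iteratedDeriv n bumpB s = 0 := by
  rw [bump_leibniz]
  refine Finset.sum_eq_zero fun i _ => ?_
  rcases h with h | h
  · rw [flatD_of_nonpos i h]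
    ring
  · rw [flatD_of_nonpos (n - i) h]
    ring

lemma val_pos_iff (c : QCode) : 0 < c.val ↔ c.2.1 < c.1 := by
  obtain ⟨a, b, d⟩ := c
  simp only [QCode.val]
  have hd : (0 : ℝ) < (d : ℝ) + 1 := by positivity
  rw [div_pos_iff_of_pos_right hd, sub_pos]
  exact Nat.cast_lt

/-- The derivatives of the bump are computable. -/
theorem compBumpDeriv : CompR fun p : ℕ × QCode => iteratedDeriv p.1 bumpB p.2.val := by
  have hn : Computable fun p : ℕ × QCode => p.1 := Computable.fst
  have hs : Computable fun p : ℕ × QCode => p.2 := Computable.snd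
  have hs1 : Computable fun p : ℕ × QCode => oneSub p.2 := primOneSub.to_comp.comp hs
  have hsum : CompR fun p : ℕ × QCode => ∑ i ∈ Finset.range (p.1 + 1), (leibCode p.1 p.2 i).val := by
    have hT : CompR fun q : (ℕ × QCode) × ℕ => (leibCode q.1.1 q.1.2 q.2).val :=
      CompR.of_exact primLeibCode.to_comp
    exact CompR.sum (Primrec.succ.to_comp.comp hn) hT
  have hexp1 : CompR fun p : ℕ × QCode => Real.exp (-(posCode (inv p.2)).val) :=
    compExp.comp (primInv.to_comp.comp hs)
  have hexp2 : CompR fun p : ℕ × QCode => Real.exp (-(posCode (inv (oneSub p.2))).val) :=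
    compExp.comp (primInv.to_comp.comp hs1)
  have hmain := hsum.mul (hexp1.mul hexp2)
  have hc : Computable fun p : ℕ × QCode =>
      decide (p.2.2.1 < p.2.1) && decide ((oneSub p.2).2.1 < (oneSub p.2).1) := by
    have h1 : Primrec fun c : QCode => decide (c.2.1 < c.1) :=
      (Primrec.nat_lt).decide.comp (prim2 Primrec.id) (prim1 Primrec.id)
    exact (Primrec.and.to_comp).comp (h1.to_comp.comp hs) (h1.to_comp.comp hs1)
  refine (CompR.cond hc hmain (CompR.const_val (ofNat 0))).congr fun p => ?_
  by_cases h : (decide (p.2.2.1 < p.2.1) && decide ((oneSub p.2).2.1 < (oneSub p.2).1)) = true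
  · rw [if_pos h]
    simp only [Bool.and_eq_true, decide_eq_true_eq] at h
    exact (bump_inside p.1 ((val_pos_iff _).mpr h.1) ((val_pos_iff _).mpr h.2)).symm
  · rw [if_neg h]
    have h' : ¬ (0 < p.2.val ∧ 0 < (oneSub p.2).val) := by
      rw [val_pos_iff, val_pos_iff]
      simpa using h
    have h2 : p.2.val ≤ 0 ∨ 1 - p.2.val ≤ 0 := by
      by_contra hc
      simp only [not_or, not_le] at hc
      exact h' ⟨hc.1, by simpa using hc.2⟩
    rw [bump_outside p.1 h2]
    simp

/-- The main computability statement. -/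
theorem compR_stepDeriv : CompR fun p : ℕ × QCode => iteratedDeriv p.1 stepS p.2.val :=
  compR_stepDeriv_of compBumpDeriv

end

end Vale.Agent.Lib.P113
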