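import Vale.Agent.Lib.P113.QArith

/-!
# Uniformly computable real-valued functions
-/

namespace Vale.Agent.Lib.P113

open QCode

/-- `f` is uniformly computable from (codes of) its argument. -/
def CompR {α : Type*} [Primcodable α] (f : α → ℝ) : Prop :=
  ∃ g : α → ℕ → QCode, Computable₂ g ∧ ∀ a k, |(g a k).val - f a| ≤ (1 / 2 : ℝ) ^ k

namespace QCode

/-- Powers of codes. -/
def pow (p : QCode) : ℕ → QCode
  | 0 => ofNat 1
  | n + 1 => mul (pow p n) p

@[simp] lemma val_pow (p : QCode) (n : ℕ) : (pow p n).val = p.val ^ n := by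
  induction n with
  | zero => simp [pow]
  | succ n ih => simp [pow, ih, pow_succ]

lemma primPow : Primrec₂ pow := by
  have h : Primrec₂ fun (p : QCode) (x : ℕ × QCode) => mul x.2 p :=
    primMul.comp (Primrec.snd.comp Primrec.snd) Primrec.fst
  have h2 := Primrec.nat_rec' (f := fun q : QCode × ℕ => q.2) (g := fun _ => ofNat 1)
    (h := fun q x => mul x.2 q.1) Primrec.snd (Primrec.const _)
    (primMul.comp (Primrec.snd.comp Primrec.snd) (Primrec.fst.comp Primrec.fst))
  refine h2.of_eq fun q => ?_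
  induction q.2 with
  | zero => rfl
  | succ n ih => simp only [pow]; exact congrArg (fun x => mul x q.1) ih

/-- The size of a code: a natural bound on the absolute value. -/
def size (p : QCode) : ℕ := p.1 + p.2.1

lemma primSize : Primrec size :=
  Primrec.nat_add.comp (prim1 Primrec.id) (prim2 Primrec.id)

lemma abs_val_le_size (p : QCode) : |p.val| ≤ p.size := by
  simp only [QCode.val, size]
  rw [abs_div]
  have h1 : (1 : ℝ) ≤ |(p.2.2 : ℝ) + 1| := by
    rw [abs_of_pos (by positivity)]
    have : (0 : ℝ) ≤ p.2.2 := Nat.cast_nonneg _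
    linarith
  have h2 : |(p.1 : ℝ) - p.2.1| ≤ ((p.1 + p.2.1 : ℕ) : ℝ) := by
    rw [abs_le]
    push_cast
    have h3 : (0 : ℝ) ≤ p.1 := Nat.cast_nonneg _
    have h4 : (0 : ℝ) ≤ p.2.1 := Nat.cast_nonneg _
    constructor <;> linarith
  calc |(p.1 : ℝ) - p.2.1| / |(p.2.2 : ℝ) + 1| ≤ |(p.1 : ℝ) - p.2.1| :=
        div_le_self (abs_nonneg _) h1
    _ ≤ _ := h2

/-- The inverse of a positive code. -/
def inv (p : QCode) : QCode := (p.2.2 + 1, 0, p.1 - p.2.1 - 1)

lemma val_inv {p : QCode} (hp : 0 < p.val) : (inv p).val = (p.val)⁻¹ := by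
  have hd : (0 : ℝ) < (p.2.2 : ℝ) + 1 := by positivity
  have hlt : p.2.1 < p.1 := by
    have : (0 : ℝ) < (p.1 : ℝ) - p.2.1 := by
      by_contra hc
      have : (p.1 : ℝ) - p.2.1 ≤ 0 := not_lt.mp hc
      have h2 : p.val ≤ 0 := div_nonpos_of_nonpos_of_nonneg this hd.le
      linarith
    have h3 : (p.2.1 : ℝ) < p.1 := by linarith
    exact_mod_cast h3
  have e : (((p.1 - p.2.1 - 1 : ℕ)) : ℝ) + 1 = (p.1 : ℝ) - p.2.1 := by
    have h1 : 1 ≤ p.1 - p.2.1 := by omega
    rw [Nat.cast_sub h1, Nat.cast_sub hlt.le]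
    push_cast
    ring
  simp only [inv, QCode.val]
  rw [e]
  push_cast
  rw [inv_div]
  simp

lemma primInv : Primrec inv :=
  Primrec.pair (Primrec.nat_add.comp (prim3 Primrec.id) (Primrec.const 1))
    (Primrec.pair (Primrec.const 0)
      (Primrec.nat_sub.comp (Primrec.nat_sub.comp (prim1 Primrec.id) (prim2 Primrec.id))
        (Primrec.const 1)))

end QCode

lemma half_pow_nonneg (k : ℕ) : (0 : ℝ) ≤ (1 / 2 : ℝ) ^ k := by positivity

lemma half_pow_le_one (k : ℕ) : (1 / 2 : ℝ) ^ k ≤ 1 :=
  pow_le_one₀ (by norm_num) (by norm_num)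

lemma half_pow_succ (k : ℕ) : (1 / 2 : ℝ) ^ (k + 1) + (1 / 2 : ℝ) ^ (k + 1) = (1 / 2 : ℝ) ^ k := by
  rw [pow_succ]
  ring

/-- `n * 2^(-(k + n)) ≤ 2^(-k)`. -/
lemma mul_half_pow_le (n k : ℕ) : (n : ℝ) * (1 / 2 : ℝ) ^ (k + n) ≤ (1 / 2 : ℝ) ^ k := by
  have h1 : (n : ℝ) ≤ 2 ^ n := by exact_mod_cast Nat.lt_two_pow_self.le
  rw [pow_add]
  have h2 : (2 : ℝ) ^ n * (1 / 2 : ℝ) ^ n = 1 := by
    rw [← mul_pow]
    norm_num
  have h3 := half_pow_nonneg k
  have h4 := half_pow_nonneg n
  calc (n : ℝ) * ((1 / 2 : ℝ) ^ k * (1 / 2 : ℝ) ^ n)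
      ≤ (2 : ℝ) ^ n * ((1 / 2 : ℝ) ^ k * (1 / 2 : ℝ) ^ n) :=
        mul_le_mul_of_nonneg_right h1 (by positivity)
    _ = (1 / 2 : ℝ) ^ k * ((2 : ℝ) ^ n * (1 / 2 : ℝ) ^ n) := by ring
    _ = _ := by rw [h2, mul_one]

namespace CompR

variable {α β : Type*} [Primcodable α] [Primcodable β]

lemma of_exact {h : α → QCode} (hh : Computable h) : CompR fun a => (h a).val :=
  ⟨fun a _ => h a, hh.comp Computable.fst, fun a k => by simp⟩

lemma const_val (c : QCode) : CompR fun _ : α => c.val := of_exact (Computable.const c)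

lemma comp {f : β → ℝ} (hf : CompR f) {h : α → β} (hh : Computable h) : CompR fun a => f (h a) := by
  obtain ⟨g, hg, hb⟩ := hf
  exact ⟨fun a k => g (h a) k, hg.comp (hh.comp Computable.fst) Computable.snd, fun a k => hb _ _⟩

lemma congr {f f' : α → ℝ} (hf : CompR f) (h : ∀ a, f a = f' a) : CompR f' := by
  have : f = f' := funext h
  rwa [← this]

lemma add {f f' : α → ℝ} (hf : CompR f) (hf' : CompR f') : CompR fun a => f a + f' a := by
  obtain ⟨g, hg, hb⟩ := hf
  obtain ⟨g', hg', hb'⟩ := hf'
  have hk : Computable fun p : α × ℕ => (p.1, p.2 + 1) :=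
    Computable.fst.pair (Primrec.succ.to_comp.comp Computable.snd)
  refine ⟨fun a k => QCode.add (g a (k + 1)) (g' a (k + 1)), ?_, fun a k => ?_⟩
  · exact (primAdd.to_comp).comp (hg.comp Computable.fst (Primrec.succ.to_comp.comp Computable.snd))
      (hg'.comp Computable.fst (Primrec.succ.to_comp.comp Computable.snd))
  · rw [val_add]
    have h1 := hb a (k + 1)
    have h2 := hb' a (k + 1)
    rw [← half_pow_succ]
    calc _ = |((g a (k + 1)).val - f a) + ((g' a (k + 1)).val - f' a)| := by ring_nf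
      _ ≤ _ := (abs_add_le _ _).trans (add_le_add h1 h2)

lemma neg {f : α → ℝ} (hf : CompR f) : CompR fun a => - f a := by
  obtain ⟨g, hg, hb⟩ := hf
  refine ⟨fun a k => QCode.neg (g a k), primNeg.to_comp.comp hg, fun a k => ?_⟩
  rw [val_neg]
  have := hb a k
  have e : -(g a k).val - -f a = -((g a k).val - f a) := by ring
  rwa [e, abs_neg]

lemma sub {f f' : α → ℝ} (hf : CompR f) (hf' : CompR f') : CompR fun a => f a - f' a := by
  simpa [sub_eq_add_neg] using hf.add hf'.neg

lemma mul {f f' : α → ℝ} (hf : CompR f) (hf' : CompR f') : CompR fun a => f a * f' a := by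
  obtain ⟨g, hg, hb⟩ := hf
  obtain ⟨g', hg', hb'⟩ := hf'
  -- the extra precision
  let B : α → ℕ := fun a => (g a 0).size + (g' a 0).size + 3
  have hB : Computable B := by
    have h0 : Computable fun a : α => g a 0 := hg.comp Computable.id (Computable.const 0)
    have h0' : Computable fun a : α => g' a 0 := hg'.comp Computable.id (Computable.const 0)
    exact (Primrec.nat_add.to_comp).comp
      ((Primrec.nat_add.to_comp).comp (primSize.to_comp.comp h0) (primSize.to_comp.comp h0'))
      (Computable.const 3)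
  refine ⟨fun a k => QCode.mul (g a (k + B a)) (g' a (k + B a)), ?_, fun a k => ?_⟩
  · have hK : Computable fun p : α × ℕ => p.2 + B p.1 :=
      (Primrec.nat_add.to_comp).comp Computable.snd (hB.comp Computable.fst)
    exact (primMul.to_comp).comp (hg.comp Computable.fst hK) (hg'.comp Computable.fst hK)
  · rw [val_mul]
    set K := k + B a with hK
    have h1 := hb a K
    have h2 := hb' a K
    have h3 : |f a| ≤ (g a 0).size + 1 := by
      have := hb a 0
      have h4 := abs_val_le_size (g a 0)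
      have h5 := abs_sub_abs_le_abs_sub (f a) (g a 0).val
      rw [abs_sub_comm] at h5
      simp only [pow_zero] at this
      linarith
    have h3' : |f' a| ≤ (g' a 0).size + 1 := by
      have := hb' a 0
      have h4 := abs_val_le_size (g' a 0)
      have h5 := abs_sub_abs_le_abs_sub (f' a) (g' a 0).val
      rw [abs_sub_comm] at h5
      simp only [pow_zero] at this
      linarith
    have h6 : |(g' a K).val| ≤ (g' a 0).size + 2 := by
      have h7 := abs_sub_abs_le_abs_sub (g' a K).val (f' a)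
      have h8 := half_pow_le_one K
      linarith
    have hs0 : (0 : ℝ) ≤ (g a 0).size := Nat.cast_nonneg _
    have hs0' : (0 : ℝ) ≤ (g' a 0).size := Nat.cast_nonneg _
    have hBc : ((B a : ℕ) : ℝ) = (g a 0).size + (g' a 0).size + 3 := by
      simp only [B]
      push_cast
      ring
    have e : (g a K).val * (g' a K).val - f a * f' a
        = ((g a K).val - f a) * (g' a K).val + f a * ((g' a K).val - f' a) := by ring
    rw [e]
    have hp := half_pow_nonneg K
    calc _ ≤ |((g a K).val - f a) * (g' a K).val| + |f a * ((g' a K).val - f' a)| := abs_add_le _ _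
      _ = |(g a K).val - f a| * |(g' a K).val| + |f a| * |(g' a K).val - f' a| := by
          rw [abs_mul, abs_mul]
      _ ≤ (1 / 2 : ℝ) ^ K * ((g' a 0).size + 2) + ((g a 0).size + 1) * (1 / 2 : ℝ) ^ K := by
          gcongr
      _ = ((B a : ℕ) : ℝ) * (1 / 2 : ℝ) ^ K := by rw [hBc]; ring
      _ ≤ _ := mul_half_pow_le (B a) k

/-- Choice by a computable Boolean. -/
lemma cond {c : α → Bool} (hc : Computable c) {f f' : α → ℝ} (hf : CompR f) (hf' : CompR f') :
    CompR fun a => if c a = true then f a else f' a := by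
  obtain ⟨g, hg, hb⟩ := hf
  obtain ⟨g', hg', hb'⟩ := hf'
  refine ⟨fun a k => bif c a then g a k else g' a k, ?_, fun a k => ?_⟩
  · exact Computable.cond (hc.comp Computable.fst) hg hg'
  · by_cases h : c a = true
    · simp only [h, cond_true, if_true]
      exact hb a k
    · have h' : c a = false := by simpa using h
      simp only [h', cond_false]
      simpa using hb' a k

/-- Choice by a primitive recursive predicate. -/
lemma ite {p : α → Prop} [DecidablePred p] (hp : PrimrecPred p) {f f' : α → ℝ} (hf : CompR f)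
    (hf' : CompR f') : CompR fun a => if p a then f a else f' a := by
  have := cond (c := fun a => decide (p a)) hp.decide.to_comp hf hf'
  simpa using this

/-- Choice by a computable equality. -/
lemma ite_eq {δ : Type*} [Primcodable δ] [DecidableEq δ] {x y : α → δ} (hx : Computable x)
    (hy : Computable y) {f f' : α → ℝ} (hf : CompR f) (hf' : CompR f') :
    CompR fun a => if x a = y a then f a else f' a := by
  have h : Computable fun a => decide (x a = y a) :=
    (Primrec.eq (α := δ)).decide.to_comp.comp hx hy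
  have := CompR.cond h hf hf'
  simpa using this

/-- Finite sums with a computable number of terms. -/
lemma sum {N : α → ℕ} (hN : Computable N) {T : α × ℕ → ℝ} (hT : CompR T) :
    CompR fun a => ∑ i ∈ Finset.range (N a), T (a, i) := by
  obtain ⟨g, hg, hb⟩ := hT
  -- the partial sums at a given precision
  let S : α × ℕ → ℕ → QCode := fun q n =>
    Nat.rec (ofNat 0) (fun i s => QCode.add s (g (q.1, i) (q.2 + N q.1))) n
  have hS : Computable fun q : α × ℕ => S q (N q.1) := by
    have h1 : Computable₂ fun (q : α × ℕ) (x : ℕ × QCode) =>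
        QCode.add x.2 (g (q.1, x.1) (q.2 + N q.1)) := by
      refine (primAdd.to_comp).comp (Computable.snd.comp Computable.snd) ?_
      refine hg.comp ?_ ?_
      · exact (Computable.fst.comp Computable.fst).pair (Computable.fst.comp Computable.snd)
      · exact (Primrec.nat_add.to_comp).comp (Computable.snd.comp Computable.fst)
          (hN.comp (Computable.fst.comp Computable.fst))
    exact Computable.nat_rec (hN.comp Computable.fst) (Computable.const (ofNat 0)) h1
  refine ⟨fun a k => S (a, k) (N a), hS, fun a k => ?_⟩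
  have key : ∀ n : ℕ, |(S (a, k) n).val - ∑ i ∈ Finset.range n, T (a, i)|
      ≤ (n : ℝ) * (1 / 2 : ℝ) ^ (k + N a) := by
    intro n
    induction n with
    | zero => simp [S]
    | succ n ih =>
      have e : S (a, k) (n + 1) = QCode.add (S (a, k) n) (g (a, n) (k + N a)) := rfl
      rw [e, val_add, Finset.sum_range_succ]
      have h2 := hb (a, n) (k + N a)
      calc _ = |((S (a, k) n).val - ∑ i ∈ Finset.range n, T (a, i))
            + ((g (a, n) (k + N a)).val - T (a, n))| := by ring_nf
        _ ≤ _ := abs_add_le _ _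
        _ ≤ (n : ℝ) * (1 / 2 : ℝ) ^ (k + N a) + (1 / 2 : ℝ) ^ (k + N a) := add_le_add ih h2
        _ = _ := by push_cast; ring
  exact (key (N a)).trans (mul_half_pow_le (N a) k)

/-- Finite sums over a computable list. -/
lemma list_sum {γ : Type*} [Primcodable γ] [Inhabited γ] {L : α → List γ} (hL : Computable L)
    {T : α × γ → ℝ} (hT : CompR T) :
    CompR fun a => ((L a).map fun b => T (a, b)).sum := by
  have h1 : Computable fun p : α × ℕ => (p.1, (L p.1).getD p.2 default) := by
    refine Computable.fst.pair ?_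
    exact ((Primrec.list_getD default).to_comp).comp (hL.comp Computable.fst) Computable.snd
  have h2 := sum (N := fun a => (L a).length) (Computable.list_length.comp hL) (hT.comp h1)
  refine h2.congr fun a => ?_
  have key : ∀ l : List γ, ∑ i ∈ Finset.range l.length, T (a, l.getD i default)
      = (l.map fun b => T (a, b)).sum := by
    intro l
    induction l with
    | nil => simp
    | cons b l ih =>
      rw [List.length_cons, Finset.sum_range_succ', List.map_cons, List.sum_cons, ← ih, add_comm]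
      simp
  exact key (L a)

/-- Effective limits. -/
lemma of_limit {f : α → ℝ} {F : α × ℕ → ℝ} (hF : CompR F)
    (h : ∀ a k, |F (a, k) - f a| ≤ (1 / 2 : ℝ) ^ k) : CompR f := by
  obtain ⟨g, hg, hb⟩ := hF
  refine ⟨fun a k => g (a, k + 1) (k + 1), ?_, fun a k => ?_⟩
  · have hs : Computable fun p : α × ℕ => p.2 + 1 := Primrec.succ.to_comp.comp Computable.snd
    exact hg.comp (Computable.fst.pair hs) hs
  · have h1 := hb (a, k + 1) (k + 1)
    have h2 := h a (k + 1)
    rw [← half_pow_succ]
    calc _ = |((g (a, k + 1) (k + 1)).val - F (a, k + 1)) + (F (a, k + 1) - f a)| := by ring_nf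
      _ ≤ _ := (abs_add_le _ _).trans (add_le_add h1 h2)

/-- Inverses of functions with a positive lower bound. -/
lemma inv_of_lower {f : α → ℝ} (hf : CompR f) {c : ℝ} (hc : 0 < c) (h : ∀ a, c ≤ f a) :
    CompR fun a => (f a)⁻¹ := by
  obtain ⟨g, hg, hb⟩ := hf
  -- a constant gain in the precision
  obtain ⟨K₀, hK₀⟩ : ∃ K₀ : ℕ, (1 / 2 : ℝ) ^ K₀ < min (c / 2) (c * c / 2) :=
    exists_pow_lt_of_lt_one (lt_min (by positivity) (by positivity)) (by norm_num)
  have h1 : (1 / 2 : ℝ) ^ K₀ < c / 2 := lt_of_lt_of_le hK₀ (min_le_left _ _)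
  have h2 : (1 / 2 : ℝ) ^ K₀ < c * c / 2 := lt_of_lt_of_le hK₀ (min_le_right _ _)
  refine ⟨fun a k => QCode.inv (g a (k + K₀)), ?_, fun a k => ?_⟩
  · exact primInv.to_comp.comp
      (hg.comp Computable.fst ((Primrec.nat_add.to_comp).comp Computable.snd (Computable.const K₀)))
  · have h3 := hb a (k + K₀)
    have h4 := h a
    have hfpos : 0 < f a := lt_of_lt_of_le hc h4
    have h5 : (1 / 2 : ℝ) ^ (k + K₀) ≤ (1 / 2 : ℝ) ^ K₀ :=
      pow_le_pow_of_le_one (by norm_num) (by norm_num) (by omega)
    have h6 : c / 2 ≤ (g a (k + K₀)).val := by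
      have := (abs_le.mp h3).1
      linarith
    have hgpos : 0 < (g a (k + K₀)).val := by linarith
    rw [val_inv hgpos]
    set x := (g a (k + K₀)).val with hx
    have e : x⁻¹ - (f a)⁻¹ = (f a - x) / (x * f a) := by
      field_simp
    rw [e, abs_div, abs_of_pos (mul_pos hgpos hfpos), abs_sub_comm]
    have h7 : c * c / 2 ≤ x * f a := by
      have : (c / 2) * c ≤ x * f a := mul_le_mul h6 h4 hc.le hgpos.le
      linarith
    have h8 : (0 : ℝ) < c * c / 2 := by positivity
    rw [div_le_iff₀ (mul_pos hgpos hfpos)]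
    have h9 : (1 / 2 : ℝ) ^ (k + K₀) = (1 / 2 : ℝ) ^ k * (1 / 2 : ℝ) ^ K₀ := pow_add _ _ _
    have h10 := half_pow_nonneg k
    calc |x - f a| ≤ (1 / 2 : ℝ) ^ k * (1 / 2 : ℝ) ^ K₀ := by rw [← h9]; exact h3
      _ ≤ (1 / 2 : ℝ) ^ k * (c * c / 2) := mul_le_mul_of_nonneg_left h2.le h10
      _ ≤ (1 / 2 : ℝ) ^ k * (x * f a) := mul_le_mul_of_nonneg_left h7 h10

end CompR

end Vale.Agent.Lib.P113
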