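import Vale.Agent.Lib.P113.Phases

/-!
# Primitive recursiveness of the data of the phases
-/

namespace Vale.Agent.Lib.P113

open QCode

section
variable {α : Type*} [Primcodable α]

lemma pNatAdd {f g : α → ℕ} (hf : Primrec f) (hg : Primrec g) : Primrec fun a => f a + g a :=
  Primrec.nat_add.comp hf hg

lemma pNatSub {f g : α → ℕ} (hf : Primrec f) (hg : Primrec g) : Primrec fun a => f a - g a :=
  Primrec.nat_sub.comp hf hg

lemma pNatMul {f g : α → ℕ} (hf : Primrec f) (hg : Primrec g) : Primrec fun a => f a * g a :=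
  Primrec.nat_mul.comp hf hg

lemma pNatDiv {f g : α → ℕ} (hf : Primrec f) (hg : Primrec g) : Primrec fun a => f a / g a :=
  Primrec.nat_div.comp hf hg

lemma pNatMod {f g : α → ℕ} (hf : Primrec f) (hg : Primrec g) : Primrec fun a => f a % g a :=
  Primrec.nat_mod.comp hf hg

lemma pNatPow {f g : α → ℕ} (hf : Primrec f) (hg : Primrec g) : Primrec fun a => f a ^ g a := by
  have h : Primrec₂ fun a b : ℕ => a ^ b := Primrec₂.unpaired'.1 Nat.Primrec.pow
  exact h.comp hf hg

lemma pEq {β : Type*} [Primcodable β] [DecidableEq β] {f g : α → β} (hf : Primrec f)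
    (hg : Primrec g) : PrimrecPred fun a => f a = g a :=
  Primrec.eq.comp hf hg

lemma pLt {f g : α → ℕ} (hf : Primrec f) (hg : Primrec g) : PrimrecPred fun a => f a < g a :=
  Primrec.nat_lt.comp hf hg

lemma pQAdd {f g : α → QCode} (hf : Primrec f) (hg : Primrec g) : Primrec fun a => add (f a) (g a) :=
  primAdd.comp hf hg

lemma pQSub {f g : α → QCode} (hf : Primrec f) (hg : Primrec g) : Primrec fun a => sub (f a) (g a) :=
  primSub.comp hf hg

lemma pQMul {f g : α → QCode} (hf : Primrec f) (hg : Primrec g) : Primrec fun a => mul (f a) (g a) :=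
  primMul.comp hf hg

lemma pQNeg {f : α → QCode} (hf : Primrec f) : Primrec fun a => neg (f a) :=
  primNeg.comp hf

lemma pQOfNat {f : α → ℕ} (hf : Primrec f) : Primrec fun a => ofNat (f a) :=
  primOfNat.comp hf

lemma pQInv {f : α → ℕ} (hf : Primrec f) : Primrec fun a => invSucc (f a) :=
  primInvSucc.comp hf

/-! ### Machines -/

lemma pQ {f : α → Machine} (hf : Primrec f) : Primrec fun a => (f a).Q :=
  Primrec.fst.comp hf

lemma pS {f : α → Machine} (hf : Primrec f) : Primrec fun a => (f a).S :=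
  Primrec.fst.comp (Primrec.snd.comp hf)

lemma pHalt {f : α → Machine} {q : α → ℕ} (hf : Primrec f) (hq : Primrec q) :
    Primrec fun a => (f a).isHalting (q a) :=
  (Primrec.list_getD false).comp (Primrec.fst.comp (Primrec.snd.comp (Primrec.snd.comp hf))) hq

lemma pNext {f : α → Machine} {q s : α → ℕ} (hf : Primrec f) (hq : Primrec q) (hs : Primrec s) :
    Primrec fun a => (f a).next (q a) (s a) := by
  have hr : Primrec fun a => (f a).2.2.2.getD (q a * ((f a).S + 1) + s a) (0, 0, true) :=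
    (Primrec.list_getD (0, 0, true)).comp (Primrec.snd.comp (Primrec.snd.comp (Primrec.snd.comp hf)))
      (pNatAdd (pNatMul hq (pNatAdd (pS hf) (Primrec.const 1))) hs)
  refine Primrec.pair ?_ (Primrec.pair ?_ ?_)
  · exact pNatMod (Primrec.fst.comp hr) (pNatAdd (pQ hf) (Primrec.const 1))
  · exact pNatMod (Primrec.fst.comp (Primrec.snd.comp hr)) (pNatAdd (pS hf) (Primrec.const 1))
  · exact Primrec.snd.comp (Primrec.snd.comp hr)

lemma pNumA {f : α → Machine} (hf : Primrec f) : Primrec fun a => numA (f a) :=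
  pNatAdd (pNatAdd (pS hf) (Primrec.const 1))
    (pNatMul (Primrec.const 2)
      (pNatMul (pNatAdd (pS hf) (Primrec.const 1)) (pNatAdd (pQ hf) (Primrec.const 1))))

lemma pNumD {f : α → Machine} (hf : Primrec f) : Primrec fun a => numD (f a) :=
  pNatAdd (pNumA hf) (pNatMul (Primrec.const 2) (pNatAdd (pQ hf) (Primrec.const 1)))

lemma pRec {m : α → Machine} {f q s : α → ℕ} (hm : Primrec m) (hf : Primrec f) (hq : Primrec q)
    (hs : Primrec s) : Primrec fun a => recDigit (m a) (f a) (q a) (s a) :=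
  pNatAdd (pNatAdd (pNatAdd (pS hm) (Primrec.const 1)) hf)
    (pNatMul (Primrec.const 2) (pNatAdd hs (pNatMul (pNatAdd (pS hm) (Primrec.const 1)) hq)))

lemma pCtrl {m : α → Machine} {f q : α → ℕ} (hm : Primrec m) (hf : Primrec f) (hq : Primrec q) :
    Primrec fun a => ctrlDigit (m a) (f a) (q a) :=
  pNatAdd (pNatAdd (pNumA hm) hf) (pNatMul (Primrec.const 2) hq)

lemma pBaseK {m : α → Machine} (hm : Primrec m) : Primrec fun a => baseK (m a) :=
  pNatMul (Primrec.const 8) (pNumD hm)

lemma pNumRows {m : α → Machine} (hm : Primrec m) : Primrec fun a => numRows (m a) :=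
  pNatMul (Primrec.const 2) (pNatMul (pNumA hm) (pNatAdd (pQ hm) (Primrec.const 1)))

lemma pEpsQ {m : α → Machine} (hm : Primrec m) : Primrec fun a => epsQ (m a) :=
  pQInv (pNatSub (pNatMul (Primrec.const 8) (pNatAdd (pNumRows hm) (Primrec.const 1))) (Primrec.const 1))

lemma pOneOverEps {m : α → Machine} (hm : Primrec m) : Primrec fun a => oneOverEps (m a) :=
  pQOfNat (pNatMul (Primrec.const 8) (pNatAdd (pNumRows hm) (Primrec.const 1)))

lemma pHQ {m : α → Machine} {i : α → ℕ} (hm : Primrec m) (hi : Primrec i) :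
    Primrec fun a => hQ (m a) (i a) :=
  pQMul (pQOfNat (pNatAdd hi (Primrec.const 1))) (pEpsQ hm)

lemma pBandP {m : α → Machine} {i : α → ℕ} (hm : Primrec m) (hi : Primrec i) :
    Primrec fun a => bandP (m a) (i a) :=
  Primrec.pair (Primrec.const 1) (Primrec.pair (pHQ hm hi) (Primrec.pair
    (pQAdd (pHQ hm hi) (pQInv (pNatSub (pNatMul (Primrec.const 16)
      (pNatAdd (pNumRows hm) (Primrec.const 1))) (Primrec.const 1))))
    (pNatSub (pNatMul (Primrec.const 64) (pNatAdd (pNumRows hm) (Primrec.const 1))) (Primrec.const 1))))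

lemma pBandQ {m : α → Machine} {i : α → ℕ} (hm : Primrec m) (hi : Primrec i) :
    Primrec fun a => bandQ (m a) (i a) :=
  Primrec.pair (Primrec.const 2) (Primrec.pair (pHQ hm hi) (Primrec.pair
    (pQAdd (pHQ hm hi) (pQInv (pNatSub (pNatMul (Primrec.const 16)
      (pNatAdd (pNumRows hm) (Primrec.const 1))) (Primrec.const 1))))
    (pNatSub (pNatMul (Primrec.const 64) (pNatAdd (pNumRows hm) (Primrec.const 1))) (Primrec.const 1))))

lemma pPowQ {K : α → ℕ} {u : α → List ℕ} (hK : Primrec K) (hu : Primrec u) :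
    Primrec fun a => powQ (K a) (u a) :=
  pQOfNat (pNatPow hK (Primrec.list_length.comp hu))

lemma pIpowQ {K : α → ℕ} {u : α → List ℕ} (hK : Primrec K) (hu : Primrec u) :
    Primrec fun a => ipowQ (K a) (u a) :=
  pQInv (pNatSub (pNatPow hK (Primrec.list_length.comp hu)) (Primrec.const 1))

lemma encQ_eq_foldr (K : ℕ) (l : List ℕ) :
    encQ K l = l.foldr (fun b s => mul (invSucc (K - 1)) (add (ofNat (2 * b)) s)) (0, 0, 0) := by
  induction l with
  | nil => rfl
  | cons a l ih => simp only [encQ, List.foldr_cons, ih]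

lemma pEncQ {K : α → ℕ} {u : α → List ℕ} (hK : Primrec K) (hu : Primrec u) :
    Primrec fun a => encQ (K a) (u a) := by
  have h : Primrec₂ fun (a : α) (p : ℕ × QCode) =>
      mul (invSucc (K a - 1)) (add (ofNat (2 * p.1)) p.2) :=
    pQMul (pQInv (pNatSub (hK.comp Primrec.fst) (Primrec.const 1)))
      (pQAdd (pQOfNat (pNatMul (Primrec.const 2) (Primrec.fst.comp Primrec.snd)))
        (Primrec.snd.comp Primrec.snd))
  have h2 := Primrec.list_foldr hu (Primrec.const ((0, 0, 0) : QCode)) h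
  refine h2.of_eq fun a => ?_
  rw [encQ_eq_foldr]

lemma pWordP {K : α → ℕ} {u : α → List ℕ} (hK : Primrec K) (hu : Primrec u) :
    Primrec fun a => wordP (K a) (u a) :=
  Primrec.pair (Primrec.const 1) (Primrec.pair (pEncQ hK hu) (Primrec.pair
    (pQAdd (pEncQ hK hu) (pQInv (pNatSub (pNatMul (Primrec.const 4)
      (pNatPow hK (Primrec.list_length.comp hu))) (Primrec.const 1))))
    (pNatSub (pNatMul (Primrec.const 8)
      (pNatPow hK (Primrec.list_length.comp hu))) (Primrec.const 1))))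

lemma pWordQ {K : α → ℕ} {u : α → List ℕ} (hK : Primrec K) (hu : Primrec u) :
    Primrec fun a => wordQ (K a) (u a) :=
  Primrec.pair (Primrec.const 2) (Primrec.pair (pEncQ hK hu) (Primrec.pair
    (pQAdd (pEncQ hK hu) (pQInv (pNatSub (pNatMul (Primrec.const 4)
      (pNatPow hK (Primrec.list_length.comp hu))) (Primrec.const 1))))
    (pNatSub (pNatMul (Primrec.const 8)
      (pNatPow hK (Primrec.list_length.comp hu))) (Primrec.const 1))))

lemma pCylC {K : α → ℕ} {ε h : α → QCode} {P B : α → List ℕ} (hK : Primrec K) (hε : Primrec ε)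
    (hh : Primrec h) (hP : Primrec P) (hB : Primrec B) :
    Primrec fun a => cylC (K a) (ε a) (h a) (P a) (B a) :=
  pQSub (pQSub hh (pQMul (pQMul hε (pPowQ hK hP)) (pEncQ hK hP)))
    (pQMul (pQMul hε (pPowQ hK hB)) (pEncQ hK hB))

lemma pCons {β : Type*} [Primcodable β] {x : α → β} {l : α → List β} (hx : Primrec x)
    (hl : Primrec l) : Primrec fun a => x a :: l a :=
  Primrec.list_cons.comp hx hl

lemma pNil {β : Type*} [Primcodable β] : Primrec fun _ : α => ([] : List β) :=
  Primrec.const []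

lemma pTerm {c : α → QCode} {F G H : α → Factor} (hc : Primrec c) (hF : Primrec F)
    (hG : Primrec G) (hH : Primrec H) : Primrec fun a => ((c a, F a, G a, H a) : Term) :=
  Primrec.pair hc (Primrec.pair hF (Primrec.pair hG hH))

lemma pOneF : Primrec fun _ : α => oneF := Primrec.const _
lemma pQAll : Primrec fun _ : α => qAll := Primrec.const _

lemma pCylTerms {K : α → ℕ} {ε h : α → QCode} {P B : α → List ℕ} (hK : Primrec K) (hε : Primrec ε)
    (hh : Primrec h) (hP : Primrec P) (hB : Primrec B) :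
    Primrec fun a => cylTerms (K a) (ε a) (h a) (P a) (B a) :=
  pCons (pTerm (pCylC hK hε hh hP hB) (pWordP hK hP) (pWordP hK hB) pOneF)
    (pCons (pTerm (pQMul hε (pPowQ hK hP)) (pWordQ hK hP) (pWordP hK hB) pOneF)
      (pCons (pTerm (pQMul hε (pPowQ hK hB)) (pWordP hK hP) (pWordQ hK hB) pOneF) pNil))

lemma pNegCylTerms {K : α → ℕ} {ε h : α → QCode} {P B : α → List ℕ} (hK : Primrec K)
    (hε : Primrec ε) (hh : Primrec h) (hP : Primrec P) (hB : Primrec B) :
    Primrec fun a => negCylTerms (K a) (ε a) (h a) (P a) (B a) :=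
  pCons (pTerm (pQNeg (pCylC hK hε hh hP hB)) (pWordP hK hP) (pWordP hK hB) pOneF)
    (pCons (pTerm (pQNeg (pQMul hε (pPowQ hK hP))) (pWordQ hK hP) (pWordP hK hB) pOneF)
      (pCons (pTerm (pQNeg (pQMul hε (pPowQ hK hB))) (pWordP hK hP) (pWordQ hK hB) pOneF) pNil))

lemma pShiftC {K : α → ℕ} {oe h : α → QCode} {P U B : α → List ℕ} (hK : Primrec K)
    (hoe : Primrec oe) (hh : Primrec h) (hP : Primrec P) (hU : Primrec U) (hB : Primrec B) :
    Primrec fun a => shiftC (K a) (oe a) (h a) (P a) (U a) (B a) :=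
  pQAdd (pQSub (pEncQ hK hU) (pEncQ hK hP))
    (pQMul (pQSub (pIpowQ hK hU) (pIpowQ hK hP))
      (pQSub (pQMul (pPowQ hK hB) (pEncQ hK hB)) (pQMul hh hoe)))

lemma pXTerms {K : α → ℕ} {oe h : α → QCode} {bP bQ : α → Factor} {P U B : α → List ℕ}
    (hK : Primrec K) (hoe : Primrec oe) (hh : Primrec h) (hbP : Primrec bP) (hbQ : Primrec bQ)
    (hP : Primrec P) (hU : Primrec U) (hB : Primrec B) :
    Primrec fun a => xTerms (K a) (oe a) (h a) (bP a) (bQ a) (P a) (U a) (B a) :=
  pCons (pTerm (pShiftC hK hoe hh hP hU hB) pOneF pOneF hbP)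
    (pCons (pTerm (pQMul (pQSub (pIpowQ hK hU) (pIpowQ hK hP)) hoe) pOneF pOneF hbQ)
      (pCons (pTerm (pQNeg (pQMul (pQSub (pIpowQ hK hU) (pIpowQ hK hP)) (pPowQ hK hB)))
        pOneF pQAll hbP) pNil))

lemma pYTerms {K : α → ℕ} {oe h : α → QCode} {bP bQ : α → Factor} {B V U : α → List ℕ}
    (hK : Primrec K) (hoe : Primrec oe) (hh : Primrec h) (hbP : Primrec bP) (hbQ : Primrec bQ)
    (hB : Primrec B) (hV : Primrec V) (hU : Primrec U) :
    Primrec fun a => yTerms (K a) (oe a) (h a) (bP a) (bQ a) (B a) (V a) (U a) :=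
  pCons (pTerm (pShiftC hK hoe hh hB hV hU) pOneF pOneF hbP)
    (pCons (pTerm (pQMul (pQSub (pIpowQ hK hV) (pIpowQ hK hB)) hoe) pOneF pOneF hbQ)
      (pCons (pTerm (pQNeg (pQMul (pQSub (pIpowQ hK hV) (pIpowQ hK hB)) (pPowQ hK hU)))
        pQAll pOneF hbP) pNil))

/-! ### The rows -/

lemma pRowP {m : α → Machine} {f q s : α → ℕ} (hm : Primrec m) (hf : Primrec f) (hq : Primrec q)
    (hs : Primrec s) : Primrec fun a => rowP (m a) (f a) (q a) (s a) :=
  Primrec.ite (pEq hf (Primrec.const 0)) (pCons (pCtrl hm hf hq) pNil)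
    (pCons (pCtrl hm hf hq) (pCons hs pNil))

lemma pRowB {f s : α → ℕ} (hf : Primrec f) (hs : Primrec s) :
    Primrec fun a => rowB (f a) (s a) :=
  Primrec.ite (pEq hf (Primrec.const 0)) (pCons hs pNil) pNil

lemma pRowU {m : α → Machine} {f q s : α → ℕ} (hm : Primrec m) (hf : Primrec f) (hq : Primrec q)
    (hs : Primrec s) : Primrec fun a => rowU (m a) (f a) (q a) (s a) := by
  have hn := pNext hm hq hs
  have h1 : Primrec fun a => ((m a).next (q a) (s a)).1 := Primrec.fst.comp hn
  have h2 : Primrec fun a => ((m a).next (q a) (s a)).2.1 := Primrec.fst.comp (Primrec.snd.comp hn)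
  have h3 : Primrec fun a => ((m a).next (q a) (s a)).2.2 := Primrec.snd.comp (Primrec.snd.comp hn)
  refine Primrec.ite (pLt (pS hm) hs)
    (Primrec.ite (pEq hf (Primrec.const 0))
      (pCons (pCtrl hm (Primrec.const 0) hq) (pCons hs pNil))
      (pCons (pCtrl hm (Primrec.const 1) hq) pNil))
    (Primrec.ite (pEq h3 (Primrec.const true))
      (pCons (pCtrl hm (Primrec.const 0) h1) (pCons h2 (pCons (pRec hm hf hq hs) pNil)))
      (pCons (pCtrl hm (Primrec.const 1) h1) pNil))

lemma pRowV {m : α → Machine} {f q s : α → ℕ} (hm : Primrec m) (hf : Primrec f) (hq : Primrec q)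
    (hs : Primrec s) : Primrec fun a => rowV (m a) (f a) (q a) (s a) := by
  have hn := pNext hm hq hs
  have h2 : Primrec fun a => ((m a).next (q a) (s a)).2.1 := Primrec.fst.comp (Primrec.snd.comp hn)
  have h3 : Primrec fun a => ((m a).next (q a) (s a)).2.2 := Primrec.snd.comp (Primrec.snd.comp hn)
  refine Primrec.ite (pLt (pS hm) hs)
    (Primrec.ite (pEq hf (Primrec.const 0)) pNil (pCons hs pNil))
    (Primrec.ite (pEq h3 (Primrec.const true)) pNil
      (pCons h2 (pCons (pRec hm hf hq hs) pNil)))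

lemma pRowF {i : α → ℕ} (hi : Primrec i) : Primrec fun a => rowF (i a) :=
  pNatMod hi (Primrec.const 2)

lemma pRowD {m : α → Machine} {i : α → ℕ} (hm : Primrec m) (hi : Primrec i) :
    Primrec fun a => rowD (m a) (i a) :=
  pNatMod (pNatDiv hi (Primrec.const 2)) (pNumA hm)

lemma pRowS {m : α → Machine} {i : α → ℕ} (hm : Primrec m) (hi : Primrec i) :
    Primrec fun a => rowS (m a) (i a) :=
  pNatDiv (pNatDiv hi (Primrec.const 2)) (pNumA hm)

lemma pWP {m : α → Machine} {i : α → ℕ} (hm : Primrec m) (hi : Primrec i) :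
    Primrec fun a => wP (m a) (i a) :=
  pRowP hm (pRowF hi) (pRowS hm hi) (pRowD hm hi)

lemma pWB {m : α → Machine} {i : α → ℕ} (hm : Primrec m) (hi : Primrec i) :
    Primrec fun a => wB (m a) (i a) :=
  pRowB (pRowF hi) (pRowD hm hi)

lemma pWU {m : α → Machine} {i : α → ℕ} (hm : Primrec m) (hi : Primrec i) :
    Primrec fun a => wU (m a) (i a) :=
  pRowU hm (pRowF hi) (pRowS hm hi) (pRowD hm hi)

lemma pWV {m : α → Machine} {i : α → ℕ} (hm : Primrec m) (hi : Primrec i) :
    Primrec fun a => wV (m a) (i a) :=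
  pRowV hm (pRowF hi) (pRowS hm hi) (pRowD hm hi)

/-! ### The phases -/

lemma pRangeRows {m : α → Machine} (hm : Primrec m) :
    Primrec fun a => List.range (numRows (m a)) :=
  Primrec.list_range.comp (pNumRows hm)

lemma pLiftAll {m : α → Machine} (hm : Primrec m) : Primrec fun a => liftAll (m a) := by
  have m' : Primrec fun p : α × ℕ => m p.1 := hm.comp Primrec.fst
  have i' : Primrec fun p : α × ℕ => p.2 := Primrec.snd
  exact Primrec.list_flatMap (pRangeRows hm)
    (pCylTerms (pBaseK m') (pEpsQ m') (pHQ m' i') (pWP m' i') (pWB m' i'))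

lemma pDropAll {m : α → Machine} (hm : Primrec m) : Primrec fun a => dropAll (m a) := by
  have m' : Primrec fun p : α × ℕ => m p.1 := hm.comp Primrec.fst
  have i' : Primrec fun p : α × ℕ => p.2 := Primrec.snd
  exact Primrec.list_flatMap (pRangeRows hm)
    (pNegCylTerms (pBaseK m') (pEpsQ m') (pHQ m' i') (pWU m' i') (pWV m' i'))

lemma pXAll {m : α → Machine} (hm : Primrec m) : Primrec fun a => xAll (m a) := by
  have m' : Primrec fun p : α × ℕ => m p.1 := hm.comp Primrec.fst
  have i' : Primrec fun p : α × ℕ => p.2 := Primrec.snd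
  exact Primrec.list_flatMap (pRangeRows hm)
    (pXTerms (pBaseK m') (pOneOverEps m') (pHQ m' i') (pBandP m' i') (pBandQ m' i')
      (pWP m' i') (pWU m' i') (pWB m' i'))

lemma pYAll {m : α → Machine} (hm : Primrec m) : Primrec fun a => yAll (m a) := by
  have m' : Primrec fun p : α × ℕ => m p.1 := hm.comp Primrec.fst
  have i' : Primrec fun p : α × ℕ => p.2 := Primrec.snd
  exact Primrec.list_flatMap (pRangeRows hm)
    (pYTerms (pBaseK m') (pOneOverEps m') (pHQ m' i') (pBandP m' i') (pBandQ m' i')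
      (pWB m' i') (pWV m' i') (pWU m' i'))

lemma pHaltAll {m : α → Machine} (hm : Primrec m) : Primrec fun a => haltAll (m a) := by
  have m' : Primrec fun p : α × ℕ => m p.1 := hm.comp Primrec.fst
  have i' : Primrec fun p : α × ℕ => p.2 := Primrec.snd
  have hT : ∀ f : ℕ, Primrec fun p : α × ℕ =>
      ((threeEighths, wordP (baseK (m p.1)) [ctrlDigit (m p.1) f p.2], oneF, oneF) : Term) := fun f =>
    pTerm (Primrec.const _) (pWordP (pBaseK m') (pCons (pCtrl m' (Primrec.const f) i') pNil))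
      pOneF pOneF
  have hb : Primrec₂ fun (a : α) (q : ℕ) =>
      if (m a).isHalting q then
        ([ (threeEighths, wordP (baseK (m a)) [ctrlDigit (m a) 0 q], oneF, oneF),
          (threeEighths, wordP (baseK (m a)) [ctrlDigit (m a) 1 q], oneF, oneF) ] : List Term)
      else [] :=
    Primrec.ite (pEq (pHalt m' i') (Primrec.const true))
      (pCons (hT 0) (pCons (hT 1) pNil)) pNil
  exact Primrec.list_flatMap (Primrec.list_range.comp (pNatAdd (pQ hm) (Primrec.const 1))) hb

lemma pPeriodPhase {m : α → Machine} {r : α → ℕ} (hm : Primrec m) (hr : Primrec r) :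
    Primrec fun a => periodPhase (m a) (r a) := by
  have hr5 : Primrec fun a => r a % 5 := pNatMod hr (Primrec.const 5)
  refine Primrec.ite (pEq hr5 (Primrec.const 0)) (Primrec.pair (Primrec.const 2) (pHaltAll hm)) ?_
  refine Primrec.ite (pEq hr5 (Primrec.const 1)) (Primrec.pair (Primrec.const 2) (pLiftAll hm)) ?_
  refine Primrec.ite (pEq hr5 (Primrec.const 2)) (Primrec.pair (Primrec.const 0) (pXAll hm)) ?_
  refine Primrec.ite (pEq hr5 (Primrec.const 3)) (Primrec.pair (Primrec.const 1) (pYAll hm)) ?_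
  exact Primrec.pair (Primrec.const 2) (pDropAll hm)

/-- The phase depends primitively recursively on all data. -/
lemma pPhase {m : α → Machine} {w : α → List ℕ} {n : α → ℕ} (hm : Primrec m) (hw : Primrec w)
    (hn : Primrec n) : Primrec fun a => phase (m a) (w a) (n a) := by
  refine Primrec.ite (pEq hn (Primrec.const 0)) (Primrec.pair (Primrec.const 0) ?_) ?_
  · exact pCons (pTerm (pEncQ (pBaseK hm) (pCons (pCtrl hm (Primrec.const 0) (Primrec.const 0)) pNil))
      pOneF pOneF pOneF) pNil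
  · refine Primrec.ite (pEq hn (Primrec.const 1)) (Primrec.pair (Primrec.const 1) ?_) ?_
    · exact pCons (pTerm (pEncQ (pBaseK hm) hw) pOneF pOneF pOneF) pNil
    · exact pPeriodPhase hm (pNatSub hn (Primrec.const 2))

end

end Vale.Agent.Lib.P113
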