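import Vale.Agent.Lib.P113.Orbit

/-!
# The orbit of the encoded configurations under the flow: detection of halting
-/

namespace Vale.Agent.Lib.P113

open QCode

noncomputable section

variable {M : Machine}

lemma add_e0 (a b c v : ℝ) : (![a, b, c] : R3) + v • e 0 = ![a + v, b, c] := by
  funext i
  fin_cases i <;> simp [e]

lemma add_e1 (a b c v : ℝ) : (![a, b, c] : R3) + v • e 1 = ![a, b + v, c] := by
  funext i
  fin_cases i <;> simp [e]

lemma add_e2 (a b c v : ℝ) : (![a, b, c] : R3) + v • e 2 = ![a, b, c + v] := by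
  funext i
  fin_cases i <;> simp [e]

lemma shearOf_natCast (M : Machine) (w : List ℕ) (n : ℕ) :
    shearOf M w (n : ℤ) = mkShear (phase M w n) (phase_ok M w n) := by
  unfold shearOf
  rw [if_neg (by omega)]
  simp

lemma pos_succ (M : Machine) (w : List ℕ) (a : R3) (n : ℕ) :
    pos (shearOf M w) a (n + 1) = pos (shearOf M w) a n
      + sumI (phase M w n).2 0 (pos (shearOf M w) a n) • e (phase M w n).1 := by
  show pos (shearOf M w) a n + vec (shearOf M w n) (pos (shearOf M w) a n) = _
  rw [shearOf_natCast]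
  rfl

/-- The point encoding a configuration. -/
def pt (M : Machine) (d : SConfig) : R3 :=
  ![enc (baseK M) (stackX M d), enc (baseK M) d.R, 0]

lemma Digits.mono {D D' : ℕ} (h : D ≤ D') {l : List ℕ} (hl : Digits D l) : Digits D' l :=
  fun a ha => lt_of_lt_of_le (hl a ha) h

lemma Digits.drop {D : ℕ} {l : List ℕ} (hl : Digits D l) (n : ℕ) : Digits D (l.drop n) :=
  fun a ha => hl a (List.mem_of_mem_drop ha)

lemma stackX_digits {d : SConfig} (h : SValid M d) : Digits (numD M) (stackX M d) := by
  intro a ha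
  simp only [stackX, List.mem_cons] at ha
  rcases ha with rfl | ha
  · exact ctrl_lt h.f_le h.q_le
  · exact lt_of_lt_of_le (h.L_dig a ha) numA_le_numD

lemma stackY_digits {d : SConfig} (h : SValid M d) : Digits (numD M) d.R :=
  h.R_dig.mono numA_le_numD

/-- Evaluation of the halting phase. -/
lemma haltAll_eval {d : SConfig} (h : SValid M d) (y z : ℝ) :
    sumI (haltAll M) 0 ![enc (baseK M) (stackX M d), y, z]
      = if M.isHalting d.q = true then 3 / 8 else 0 := by
  have g := baseK_good M
  have hX := stackX_digits h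
  have hf : ∀ f q, f ≤ 1 → q ≤ M.Q → (factorFun (wordP (baseK M) [ctrlDigit M f q])
      (enc (baseK M) (stackX M d)) = if (f = d.f ∧ q = d.q) then 1 else 0) := by
    intro f q hf hq
    rw [wordP_enc g (ctrl_digits M hf hq) hX]
    congr 1
    simp only [matchW, stackX, List.headD_cons, and_true, eq_iff_iff]
    constructor
    · intro e
      obtain ⟨h1, h2⟩ := ctrl_inj h.f_le hf e
      exact ⟨h1.symm, h2.symm⟩
    · rintro ⟨rfl, rfl⟩
      rfl
  have hval : (threeEighths).val = 3 / 8 := by
    simp only [threeEighths, QCode.val]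
    norm_num
  unfold haltAll
  rw [sumI_flatMap_range]
  have hq1 : d.q ∈ Finset.range (M.Q + 1) := Finset.mem_range.mpr (Nat.lt_succ_of_le h.q_le)
  rw [Finset.sum_eq_single d.q]
  · by_cases hh : M.isHalting d.q = true
    · simp only [hh, if_true, sumI_cons, sumI_nil, termI_zero, factorFun_oneF,
        Matrix.cons_val_zero, hf 0 d.q (by omega) h.q_le, hf 1 d.q (by omega) h.q_le, hval]
      have hfd := h.f_le
      by_cases h0 : d.f = 0
      · simp [h0]
      · have h1 : d.f = 1 := by omega
        simp [h1]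
    · simp [hh, sumI_nil]
  · intro q hq hne
    have hq' : q ≤ M.Q := Nat.lt_succ_iff.mp (Finset.mem_range.mp hq)
    by_cases hh : M.isHalting q = true
    · simp only [hh, if_true, sumI_cons, sumI_nil, termI_zero, factorFun_oneF,
        Matrix.cons_val_zero, hf 0 q (by omega) hq', hf 1 q (by omega) hq']
      simp [hne]
    · simp [hh, sumI_nil]
  · intro hnot
    exact absurd hq1 hnot

/-- The row index of a configuration with the words of its row. -/
lemma wP_idx {d : SConfig} (h : SValid M d) : wP M (d.idx M) = rowP M d.f d.q (readA d) := by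
  simp only [wP, SConfig.idx]
  rw [rowF_idx h.f_le, rowS_idx h.f_le (readA_lt h), rowD_idx h.f_le (readA_lt h)]

lemma wB_idx {d : SConfig} (h : SValid M d) : wB M (d.idx M) = rowB d.f (readA d) := by
  simp only [wB, SConfig.idx]
  rw [rowF_idx h.f_le, rowD_idx h.f_le (readA_lt h)]

lemma wU_idx {d : SConfig} (h : SValid M d) : wU M (d.idx M) = rowU M d.f d.q (readA d) := by
  simp only [wU, SConfig.idx]
  rw [rowF_idx h.f_le, rowS_idx h.f_le (readA_lt h), rowD_idx h.f_le (readA_lt h)]

lemma wV_idx {d : SConfig} (h : SValid M d) : wV M (d.idx M) = rowV M d.f d.q (readA d) := by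
  simp only [wV, SConfig.idx]
  rw [rowF_idx h.f_le, rowS_idx h.f_le (readA_lt h), rowD_idx h.f_le (readA_lt h)]

/-- The tail of the `x`-stack below the word of the row. -/
def tailX (M : Machine) (d : SConfig) : ℝ :=
  enc (baseK M) ((stackX M d).drop (wP M (d.idx M)).length)

/-- The tail of the `y`-stack below the word of the row. -/
def tailY (M : Machine) (d : SConfig) : ℝ :=
  enc (baseK M) (d.R.drop (wB M (d.idx M)).length)

/-- The height of the lift of a configuration. -/
def liftH (M : Machine) (d : SConfig) : ℝ :=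
  (hQ M (d.idx M)).val + (epsQ M).val * (tailX M d + tailY M d)

lemma matchP {d : SConfig} (h : SValid M d) : matchW (wP M (d.idx M)) (stackX M d) :=
  ((row_select_source h (d.idx M)).mpr rfl).1

lemma matchB {d : SConfig} (h : SValid M d) : matchW (wB M (d.idx M)) d.R :=
  ((row_select_source h (d.idx M)).mpr rfl).2

lemma enc_X {d : SConfig} (h : SValid M d) :
    enc (baseK M) (stackX M d) = enc (baseK M) (wP M (d.idx M))
      + tailX M d / (baseK M : ℝ) ^ (wP M (d.idx M)).length :=
  enc_of_match (baseK_good M).K_pos (matchP h)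

lemma enc_Y {d : SConfig} (h : SValid M d) :
    enc (baseK M) d.R = enc (baseK M) (wB M (d.idx M))
      + tailY M d / (baseK M : ℝ) ^ (wB M (d.idx M)).length :=
  enc_of_match (baseK_good M).K_pos (matchB h)

lemma enc_append {K : ℕ} (hK : 0 < K) (u l : List ℕ) :
    enc K (u ++ l) = enc K u + enc K l / (K : ℝ) ^ u.length := by
  have h := enc_of_match hK (matchW_append u l)
  rwa [List.drop_left] at h

lemma enc_X' {d : SConfig} (h : SValid M d) :
    enc (baseK M) (stackX M (snext M d)) = enc (baseK M) (wU M (d.idx M))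
      + tailX M d / (baseK M : ℝ) ^ (wU M (d.idx M)).length := by
  rw [snext_stackX h.f_le, ← wU_idx h, ← wP_idx h, enc_append (baseK_good M).K_pos]
  rfl

lemma enc_Y' {d : SConfig} (h : SValid M d) :
    enc (baseK M) (snext M d).R = enc (baseK M) (wV M (d.idx M))
      + tailY M d / (baseK M : ℝ) ^ (wV M (d.idx M)).length := by
  rw [snext_stackY h.f_le, ← wV_idx h, ← wB_idx h, enc_append (baseK_good M).K_pos]
  rfl

lemma tailX_mem {d : SConfig} (h : SValid M d) : 0 ≤ tailX M d ∧ tailX M d < 1 / 4 :=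
  ⟨enc_nonneg (baseK_good M) _, enc_lt (baseK_good M) ((stackX_digits h).drop _)⟩

lemma tailY_mem {d : SConfig} (h : SValid M d) : 0 ≤ tailY M d ∧ tailY M d < 1 / 4 :=
  ⟨enc_nonneg (baseK_good M) _, enc_lt (baseK_good M) ((stackY_digits h).drop _)⟩

lemma K_pow_ne (M : Machine) (n : ℕ) : ((baseK M : ℝ)) ^ n ≠ 0 :=
  (pow_pos_real (baseK_good M).K_pos n).ne'

/-- Evaluation of the lifting phase at the point of a configuration. -/
lemma liftAll_eval {d : SConfig} (h : SValid M d) (z : ℝ) :
    sumI (liftAll M) 0 ![enc (baseK M) (stackX M d), enc (baseK M) d.R, z] = liftH M d := by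
  have g := baseK_good M
  have hi := d.idx_lt h
  unfold liftAll
  rw [sumI_flatMap_range, Finset.sum_eq_single (d.idx M)]
  · rw [cyl_eval g (epsQ M) (hQ M _) (wP_digits M hi) (wB_digits M _) (stackX_digits h)
      (stackY_digits h), if_pos (matchP h), if_pos (matchB h), val_cylC, enc_X h, enc_Y h]
    simp only [one_mul, liftH]
    have := lift_alg (h := (hQ M (d.idx M)).val) (ε := (epsQ M).val)
      (vP := enc (baseK M) (wP M (d.idx M))) (vB := enc (baseK M) (wB M (d.idx M)))
      (ξ := tailX M d) (η := tailY M d) (K_pow_ne M (wP M (d.idx M)).length)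
      (K_pow_ne M (wB M (d.idx M)).length)
    linarith
  · intro i hi' hne
    have hi'' := Finset.mem_range.mp hi'
    rw [cyl_eval g (epsQ M) (hQ M _) (wP_digits M hi'') (wB_digits M _) (stackX_digits h)
      (stackY_digits h)]
    have hn := (row_select_source h i).not.mpr hne
    by_cases h1 : matchW (wP M i) (stackX M d)
    · have h2 : ¬ matchW (wB M i) d.R := fun h2 => hn ⟨h1, h2⟩
      rw [if_neg h2]
      ring
    · rw [if_neg h1]
      ring
  · intro hnot
    exact absurd (Finset.mem_range.mpr hi) hnot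

/-- Evaluation of the dropping phase at the point of a configuration. -/
lemma dropAll_eval {d : SConfig} (h : SValid M d) (z : ℝ) :
    sumI (dropAll M) 0 ![enc (baseK M) (stackX M (snext M d)), enc (baseK M) (snext M d).R, z]
      = - liftH M d := by
  have g := baseK_good M
  have hi := d.idx_lt h
  have hd' := h.snext
  have hsel := row_select_image h
  have hU : matchW (wU M (d.idx M)) (stackX M (snext M d)) := ((hsel (d.idx M)).mpr rfl).1
  have hV : matchW (wV M (d.idx M)) (snext M d).R := ((hsel (d.idx M)).mpr rfl).2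
  unfold dropAll
  rw [sumI_flatMap_range, Finset.sum_eq_single (d.idx M)]
  · rw [negCyl_eval g (epsQ M) (hQ M _) (wU_digits M hi) (wV_digits M hi) (stackX_digits hd')
      (stackY_digits hd'), if_pos hU, if_pos hV, val_cylC, enc_X' h, enc_Y' h]
    simp only [one_mul, liftH]
    have := lift_alg (h := (hQ M (d.idx M)).val) (ε := (epsQ M).val)
      (vP := enc (baseK M) (wU M (d.idx M))) (vB := enc (baseK M) (wV M (d.idx M)))
      (ξ := tailX M d) (η := tailY M d) (K_pow_ne M (wU M (d.idx M)).length)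
      (K_pow_ne M (wV M (d.idx M)).length)
    linarith
  · intro i hi' hne
    have hi'' := Finset.mem_range.mp hi'
    rw [negCyl_eval g (epsQ M) (hQ M _) (wU_digits M hi'') (wV_digits M hi'') (stackX_digits hd')
      (stackY_digits hd')]
    have hn := (hsel i).not.mpr hne
    by_cases h1 : matchW (wU M i) (stackX M (snext M d))
    · have h2 : ¬ matchW (wV M i) (snext M d).R := fun h2 => hn ⟨h1, h2⟩
      rw [if_neg h2]
      ring
    · rw [if_neg h1]
      ring
  · intro hnot
    exact absurd (Finset.mem_range.mpr hi) hnot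

/-- The height of the lift lies in the low part of the circle. -/
lemma liftH_mem {d : SConfig} (h : SValid M d) : 0 ≤ liftH M d ∧ liftH M d < 1 / 8 := by
  have h1 := tailX_mem h
  have h2 := tailY_mem h
  have hi : ((d.idx M : ℕ) : ℝ) + 1 ≤ numRows M := by exact_mod_cast d.idx_lt h
  have hN := numRows_cast_pos M
  have hi0 : (0 : ℝ) ≤ (d.idx M : ℕ) := Nat.cast_nonneg _
  unfold liftH
  rw [val_hQ, val_epsQ]
  set n : ℝ := (numRows M : ℝ) + 1 with hn
  set t := tailX M d + tailY M d with ht
  have ht0 : 0 ≤ t := by rw [ht]; linarith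
  have ht1 : t < 1 / 2 := by rw [ht]; linarith
  have hε : (0 : ℝ) < 1 / (8 * n) := by positivity
  constructor
  · positivity
  · have e1 : ((d.idx M : ℕ) + 1 : ℝ) * (1 / (8 * n)) + 1 / (8 * n) * t
        = ((d.idx M : ℕ) + 1 + t) * (1 / (8 * n)) := by ring
    rw [e1]
    have e2 : (1 : ℝ) / 8 = n * (1 / (8 * n)) := by
      field_simp
    rw [e2]
    apply mul_lt_mul_of_pos_right _ hε
    linarith

lemma band_at_lift {d : SConfig} (h : SValid M d) (i : ℕ) :
    factorFun (bandP M i) (liftH M d) = if i = d.idx M then 1 else 0 := by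
  have h1 := tailX_mem h
  have h2 := tailY_mem h
  exact band_select M (d.idx_lt h) (by linarith) (by linarith)

/-- Evaluation of the `x`-shift phase. -/
lemma xAll_eval {d : SConfig} (h : SValid M d) :
    enc (baseK M) (stackX M d)
      + sumI (xAll M) 0 ![enc (baseK M) (stackX M d), enc (baseK M) d.R, liftH M d]
      = enc (baseK M) (stackX M (snext M d)) := by
  have g := baseK_good M
  have hK := g.K_pos
  have hi := d.idx_lt h
  have hz := liftH_mem h
  have hy0 := enc_nonneg g d.R
  have hy1 := enc_lt g (stackY_digits h)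
  unfold xAll
  rw [sumI_flatMap_range, Finset.sum_eq_single (d.idx M)]
  · rw [x_eval M _ _ _ _ hy0 hy1.le (by linarith) (by linarith), band_at_lift h, if_pos rfl,
      one_mul, val_shiftC hK, enc_X' h, enc_X h, enc_Y h, liftH]
    simp only [val_mul, val_sub, val_ipowQ hK, val_powQ, val_oneOverEps]
    have := shift_alg (h := (hQ M (d.idx M)).val) (ε := (epsQ M).val)
      (oe := 8 * ((numRows M : ℝ) + 1))
      (vP := enc (baseK M) (wP M (d.idx M))) (vU := enc (baseK M) (wU M (d.idx M)))
      (vB := enc (baseK M) (wB M (d.idx M)))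
      (ξ := tailX M d) (η := tailY M d) (K_pow_ne M (wP M (d.idx M)).length)
      (K_pow_ne M (wU M (d.idx M)).length) (K_pow_ne M (wB M (d.idx M)).length)
      (by
        have := numRows_cast_pos M
        rw [val_epsQ]
        field_simp)
    linarith
  · intro i hi' hne
    rw [x_eval M _ _ _ _ hy0 hy1.le (by linarith) (by linarith), band_at_lift h, if_neg hne,
      zero_mul]
  · intro hnot
    exact absurd (Finset.mem_range.mpr hi) hnot

/-- Evaluation of the `y`-shift phase. -/
lemma yAll_eval {d : SConfig} (h : SValid M d) :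
    enc (baseK M) d.R
      + sumI (yAll M) 0 ![enc (baseK M) (stackX M (snext M d)), enc (baseK M) d.R, liftH M d]
      = enc (baseK M) (snext M d).R := by
  have g := baseK_good M
  have hK := g.K_pos
  have hi := d.idx_lt h
  have hz := liftH_mem h
  have hx0 := enc_nonneg g (stackX M (snext M d))
  have hx1 := enc_lt g (stackX_digits h.snext)
  unfold yAll
  rw [sumI_flatMap_range, Finset.sum_eq_single (d.idx M)]
  · rw [y_eval M _ _ _ _ hx0 hx1.le (by linarith) (by linarith), band_at_lift h, if_pos rfl,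
      one_mul, val_shiftC hK, enc_Y' h, enc_Y h, enc_X' h, liftH]
    simp only [val_mul, val_sub, val_ipowQ hK, val_powQ, val_oneOverEps]
    have := shift_alg (h := (hQ M (d.idx M)).val) (ε := (epsQ M).val)
      (oe := 8 * ((numRows M : ℝ) + 1))
      (vP := enc (baseK M) (wB M (d.idx M))) (vU := enc (baseK M) (wV M (d.idx M)))
      (vB := enc (baseK M) (wU M (d.idx M)))
      (ξ := tailY M d) (η := tailX M d) (K_pow_ne M (wB M (d.idx M)).length)
      (K_pow_ne M (wV M (d.idx M)).length) (K_pow_ne M (wU M (d.idx M)).length)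
      (by
        have := numRows_cast_pos M
        rw [val_epsQ]
        field_simp)
    rw [add_comm (tailX M d) (tailY M d)]
    linarith
  · intro i hi' hne
    rw [y_eval M _ _ _ _ hx0 hx1.le (by linarith) (by linarith), band_at_lift h, if_neg hne,
      zero_mul]
  · intro hnot
    exact absurd (Finset.mem_range.mpr hi) hnot

/-! ### The phases, in order -/

lemma phase_of_ge_two (w : List ℕ) {n : ℕ} (hn : 2 ≤ n) : phase M w n = periodPhase M (n - 2) := by
  unfold phase
  rw [if_neg (by omega), if_neg (by omega)]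

lemma phase_r0 (w : List ℕ) (j : ℕ) : phase M w (2 + 5 * j) = (2, haltAll M) := by
  rw [phase_of_ge_two w (by omega)]
  unfold periodPhase
  rw [if_pos (by omega)]

lemma phase_r1 (w : List ℕ) (j : ℕ) : phase M w (2 + 5 * j + 1) = (2, liftAll M) := by
  rw [phase_of_ge_two w (by omega)]
  unfold periodPhase
  rw [if_neg (by omega), if_pos (by omega)]

lemma phase_r2 (w : List ℕ) (j : ℕ) : phase M w (2 + 5 * j + 2) = (0, xAll M) := by
  rw [phase_of_ge_two w (by omega)]
  unfold periodPhase
  rw [if_neg (by omega), if_neg (by omega), if_pos (by omega)]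

lemma phase_r3 (w : List ℕ) (j : ℕ) : phase M w (2 + 5 * j + 3) = (1, yAll M) := by
  rw [phase_of_ge_two w (by omega)]
  unfold periodPhase
  rw [if_neg (by omega), if_neg (by omega), if_neg (by omega), if_pos (by omega)]

lemma phase_r4 (w : List ℕ) (j : ℕ) : phase M w (2 + 5 * j + 4) = (2, dropAll M) := by
  rw [phase_of_ge_two w (by omega)]
  unfold periodPhase
  rw [if_neg (by omega), if_neg (by omega), if_neg (by omega), if_neg (by omega)]

/-- The positions from the origin. -/
abbrev orb (M : Machine) (w : List ℕ) (n : ℕ) : R3 := pos (shearOf M w) 0 n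

lemma orb_zero (w : List ℕ) : orb M w 0 = ![0, 0, 0] := by
  funext i
  fin_cases i <;> rfl

lemma orb_one (w : List ℕ) : orb M w 1 = ![enc (baseK M) [ctrlDigit M 0 0], 0, 0] := by
  have h := pos_succ M w 0 0
  simp only [phase, if_true] at h
  show pos (shearOf M w) 0 1 = _
  rw [h]
  show orb M w 0 + _ = _
  rw [orb_zero, sumI_cons, sumI_nil, termI_zero, add_e0]
  simp [factorFun_oneF, enc]

lemma orb_two (w : List ℕ) :
    orb M w 2 = ![enc (baseK M) [ctrlDigit M 0 0], enc (baseK M) w, 0] := by
  have h := pos_succ M w 0 1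
  simp only [phase, one_ne_zero, if_true, if_false] at h
  show pos (shearOf M w) 0 (1 + 1) = _
  rw [h]
  show orb M w 1 + _ = _
  rw [orb_one, sumI_cons, sumI_nil, termI_zero, add_e1]
  simp [factorFun_oneF, enc]

/-- The point of the initial configuration is reached at time `2`. -/
lemma orb_two_pt (w : List ℕ) : orb M w 2 = pt M (sinit w) := by
  rw [orb_two]
  rfl

lemma sinit_valid {w : List ℕ} (hw : M.ValidWord w) : SValid M (sinit w) where
  f_le := by simp [sinit]
  q_le := by simp [sinit]
  L_dig := by simp [sinit, Digits]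
  R_dig := fun a ha => lt_of_le_of_lt (hw a ha) numA_gt_S

/-- The phases of one period, without halting. -/
theorem orb_period {w : List ℕ} {j : ℕ} {d : SConfig} (h : SValid M d)
    (hn : ¬ M.isHalting d.q = true) (hp : orb M w (2 + 5 * j) = pt M d) :
    orb M w (2 + 5 * j + 1) = pt M d ∧
    orb M w (2 + 5 * j + 2) = ![enc (baseK M) (stackX M d), enc (baseK M) d.R, liftH M d] ∧
    orb M w (2 + 5 * j + 3)
      = ![enc (baseK M) (stackX M (snext M d)), enc (baseK M) d.R, liftH M d] ∧
    orb M w (2 + 5 * j + 4)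
      = ![enc (baseK M) (stackX M (snext M d)), enc (baseK M) (snext M d).R, liftH M d] ∧
    orb M w (2 + 5 * (j + 1)) = pt M (snext M d) := by
  have h1 : orb M w (2 + 5 * j + 1) = pt M d := by
    have := pos_succ M w 0 (2 + 5 * j)
    rw [phase_r0] at this
    show pos (shearOf M w) 0 _ = _
    rw [this]
    show orb M w (2 + 5 * j) + sumI _ 0 (orb M w (2 + 5 * j)) • _ = _
    rw [hp]
    unfold pt
    rw [haltAll_eval h, if_neg hn, add_e2]
    simp
  have h2 : orb M w (2 + 5 * j + 2)
      = ![enc (baseK M) (stackX M d), enc (baseK M) d.R, liftH M d] := by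
    have := pos_succ M w 0 (2 + 5 * j + 1)
    rw [phase_r1] at this
    show pos (shearOf M w) 0 _ = _
    rw [this]
    show orb M w (2 + 5 * j + 1) + sumI _ 0 (orb M w (2 + 5 * j + 1)) • _ = _
    rw [h1]
    unfold pt
    rw [liftAll_eval h, add_e2]
    simp
  have h3 : orb M w (2 + 5 * j + 3)
      = ![enc (baseK M) (stackX M (snext M d)), enc (baseK M) d.R, liftH M d] := by
    have := pos_succ M w 0 (2 + 5 * j + 2)
    rw [phase_r2] at this
    show pos (shearOf M w) 0 _ = _
    rw [this]
    show orb M w (2 + 5 * j + 2) + sumI _ 0 (orb M w (2 + 5 * j + 2)) • _ = _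
    rw [h2, add_e0, xAll_eval h]
  have h4 : orb M w (2 + 5 * j + 4)
      = ![enc (baseK M) (stackX M (snext M d)), enc (baseK M) (snext M d).R, liftH M d] := by
    have := pos_succ M w 0 (2 + 5 * j + 3)
    rw [phase_r3] at this
    show pos (shearOf M w) 0 _ = _
    rw [this]
    show orb M w (2 + 5 * j + 3) + sumI _ 0 (orb M w (2 + 5 * j + 3)) • _ = _
    rw [h3, add_e1, yAll_eval h]
  have h5 : orb M w (2 + 5 * (j + 1)) = pt M (snext M d) := by
    have := pos_succ M w 0 (2 + 5 * j + 4)
    rw [phase_r4] at this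
    have e5 : 2 + 5 * (j + 1) = 2 + 5 * j + 4 + 1 := by ring
    rw [e5]
    show pos (shearOf M w) 0 _ = _
    rw [this]
    show orb M w (2 + 5 * j + 4) + sumI _ 0 (orb M w (2 + 5 * j + 4)) • _ = _
    rw [h4, add_e2, dropAll_eval h]
    unfold pt
    simp
  exact ⟨h1, h2, h3, h4, h5⟩

/-- The halting phase lifts the point to height `3/8`. -/
theorem orb_halt {w : List ℕ} {j : ℕ} {d : SConfig} (h : SValid M d)
    (hn : M.isHalting d.q = true) (hp : orb M w (2 + 5 * j) = pt M d) :
    orb M w (2 + 5 * j + 1) 2 = 3 / 8 := by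
  have := pos_succ M w 0 (2 + 5 * j)
  rw [phase_r0] at this
  show pos (shearOf M w) 0 _ _ = _
  rw [this]
  show (orb M w (2 + 5 * j) + sumI _ 0 (orb M w (2 + 5 * j)) • _) _ = _
  rw [hp]
  unfold pt
  rw [haltAll_eval h, if_pos hn, add_e2]
  simp

/-- The observable open set: height in `(1/4, 1/2)` modulo `1`. -/
def detSet : Set R3 := {x | ∃ n : ℤ, 1 / 4 < x 2 - n ∧ x 2 - n < 1 / 2}

lemma detSet_open : IsOpen detSet := by
  have : detSet = ⋃ n : ℤ, {x : R3 | 1 / 4 < x 2 - n ∧ x 2 - n < 1 / 2} := by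
    ext x
    simp [detSet]
  rw [this]
  refine isOpen_iUnion fun n => ?_
  have hc : Continuous fun x : R3 => x 2 - (n : ℝ) := (continuous_apply 2).sub continuous_const
  exact (isOpen_lt continuous_const hc).inter (isOpen_lt hc continuous_const)

lemma detSet_periodic : SpacePeriodic (· ∈ detSet) := by
  intro i x
  apply propext
  constructor
  · rintro ⟨n, h1, h2⟩
    fin_cases i
    · exact ⟨n, by simpa [e] using h1, by simpa [e] using h2⟩
    · exact ⟨n, by simpa [e] using h1, by simpa [e] using h2⟩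
    · refine ⟨n - 1, ?_, ?_⟩
      · have : (x + e 2) 2 = x 2 + 1 := by simp [e]
        simp only [Fin.reduceFinMk] at h1 h2
        rw [this] at h1 h2
        push_cast
        linarith
      · have : (x + e 2) 2 = x 2 + 1 := by simp [e]
        simp only [Fin.reduceFinMk] at h1 h2
        rw [this] at h1 h2
        push_cast
        linarith
  · rintro ⟨n, h1, h2⟩
    fin_cases i
    · exact ⟨n, by simpa [e] using h1, by simpa [e] using h2⟩
    · exact ⟨n, by simpa [e] using h1, by simpa [e] using h2⟩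
    · refine ⟨n + 1, ?_, ?_⟩
      · have : (x + e 2) 2 = x 2 + 1 := by simp [e]
        simp only [Fin.reduceFinMk]
        rw [this]
        push_cast
        linarith
      · have : (x + e 2) 2 = x 2 + 1 := by simp [e]
        simp only [Fin.reduceFinMk]
        rw [this]
        push_cast
        linarith

lemma not_mem_detSet {x : R3} (h0 : 0 ≤ x 2) (h1 : x 2 ≤ 1 / 8) : x ∉ detSet := by
  rintro ⟨n, h2, h3⟩
  have hn1 : (n : ℝ) < 1 := by linarith
  have hn2 : (-1 : ℝ) < n := by linarith
  have hn1' : n < 1 := by exact_mod_cast hn1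
  have hn2' : -1 < n := by exact_mod_cast hn2
  have hn0 : n = 0 := by omega
  subst hn0
  norm_num at h2 h3
  linarith

lemma mem_detSet {x : R3} (h : x 2 = 3 / 8) : x ∈ detSet :=
  ⟨0, by rw [h]; norm_num, by rw [h]; norm_num⟩

/-- Without halting up to `m`, the orbit is at the encoded configurations. -/
lemma orb_configs {w : List ℕ} (hw : M.ValidWord w) (m : ℕ)
    (hm : ∀ i < m, ¬ M.isHalting ((snext M)^[i] (sinit w)).q = true) :
    orb M w (2 + 5 * m) = pt M ((snext M)^[m] (sinit w)) ∧
      SValid M ((snext M)^[m] (sinit w)) := by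
  induction m with
  | zero => exact ⟨orb_two_pt w, sinit_valid hw⟩
  | succ m ih =>
    obtain ⟨h1, h2⟩ := ih fun i hi => hm i (by omega)
    have h3 := (orb_period h2 (hm m (by omega)) h1).2.2.2.2
    rw [Function.iterate_succ_apply']
    exact ⟨h3, h2.snext⟩

/-- Height bound along a whole non-halting orbit. -/
lemma orb_low {w : List ℕ} (hw : M.ValidWord w)
    (hm : ∀ i, ¬ M.isHalting ((snext M)^[i] (sinit w)).q = true) (n : ℕ) :
    0 ≤ orb M w n 2 ∧ orb M w n 2 ≤ 1 / 8 := by
  by_cases hn : n < 2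
  · have : n = 0 ∨ n = 1 := by omega
    rcases this with rfl | rfl
    · rw [orb_zero]
      show (0 : ℝ) ≤ 0 ∧ (0 : ℝ) ≤ 1 / 8
      norm_num
    · rw [orb_one]
      show (0 : ℝ) ≤ 0 ∧ (0 : ℝ) ≤ 1 / 8
      norm_num
  · obtain ⟨j, r, hr, rfl⟩ : ∃ j r, r < 5 ∧ n = 2 + 5 * j + r :=
      ⟨(n - 2) / 5, (n - 2) % 5, Nat.mod_lt _ (by norm_num), by omega⟩
    obtain ⟨h1, h2⟩ := orb_configs hw j fun i _ => hm i
    obtain ⟨h3, h4, h5, h6, -⟩ := orb_period h2 (hm j) h1
    obtain ⟨h7, h8⟩ := liftH_mem h2
    have h8' := h8.le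
    have hpt : ∀ d : SConfig, pt M d 2 = 0 := fun d => rfl
    have : r = 0 ∨ r = 1 ∨ r = 2 ∨ r = 3 ∨ r = 4 := by omega
    rcases this with rfl | rfl | rfl | rfl | rfl
    · show 0 ≤ orb M w (2 + 5 * j) 2 ∧ orb M w (2 + 5 * j) 2 ≤ 1 / 8
      rw [h1, hpt]; norm_num
    · rw [h3, hpt]; norm_num
    · rw [h4]; exact ⟨h7, h8'⟩
    · rw [h5]; exact ⟨h7, h8'⟩
    · rw [h6]; exact ⟨h7, h8'⟩

/-- Detection of halting by the explicit trajectory. -/
theorem traj_detects {w : List ℕ} (hw : M.ValidWord w) :
    (∃ t, 0 ≤ t ∧ traj (shearOf M w) 0 t ∈ detSet) ↔ M.Halts w := by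
  rw [halts_iff M hw]
  constructor
  · rintro ⟨t, ht, hO⟩
    by_contra hno
    have hno' : ∀ i, ¬ M.isHalting ((snext M)^[i] (sinit w)).q = true := not_exists.mp hno
    have hn1 : ((⌊t⌋₊ : ℕ) : ℝ) ≤ t := Nat.floor_le ht
    have hn2 : t ≤ ((⌊t⌋₊ : ℕ) : ℝ) + 1 := (Nat.lt_floor_add_one t).le
    obtain ⟨θ, h0, h1, h2⟩ := traj_coord (shearOf M w) 0 ⌊t⌋₊ hn1 hn2 2
    have h3 := orb_low hw hno' ⌊t⌋₊
    have h4 := orb_low hw hno' (⌊t⌋₊ + 1)
    refine not_mem_detSet ?_ ?_ hO
    · rw [h2]
      have := mul_nonneg (sub_nonneg.mpr h1) h3.1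
      have := mul_nonneg h0 h4.1
      linarith
    · rw [h2]
      have h5 : (1 - θ) * orb M w ⌊t⌋₊ 2 ≤ (1 - θ) * (1 / 8) :=
        mul_le_mul_of_nonneg_left h3.2 (sub_nonneg.mpr h1)
      have h6 : θ * orb M w (⌊t⌋₊ + 1) 2 ≤ θ * (1 / 8) := mul_le_mul_of_nonneg_left h4.2 h0
      show (1 - θ) * orb M w ⌊t⌋₊ 2 + θ * orb M w (⌊t⌋₊ + 1) 2 ≤ _
      linarith
  · intro hex
    classical
    have hfind := Nat.find_spec hex
    have hmin := fun i (hi : i < Nat.find hex) => Nat.find_min hex hi
    obtain ⟨h1, h2⟩ := orb_configs hw (Nat.find hex) hmin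
    have h3 := orb_halt h2 hfind h1
    refine ⟨((2 + 5 * Nat.find hex + 1 : ℕ) : ℝ), Nat.cast_nonneg _, ?_⟩
    rw [traj_natCast]
    exact mem_detSet h3

end

end Vale.Agent.Lib.P113
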