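import Vale.Agent.Lib.P113.CompBase
import Vale.Agent.Lib.P113.CompPhase
import Vale.Agent.Lib.P113.Detect

/-!
# The force is uniformly computable
-/

namespace Vale.Agent.Lib.P113

open QCode

noncomputable section

/-- A code of the reduction of a rational number to `[-1/2, 1/2]`. -/
def fracCode (c : QCode) : QCode :=
  (c.1 + c.2.1 * c.2.2, ((2 * (c.1 + c.2.1 * c.2.2) + c.2.2 + 1) / (2 * (c.2.2 + 1))) * (c.2.2 + 1),
    c.2.2)

lemma val_fracCode (c : QCode) : (fracCode c).val = c.val - round c.val := by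
  obtain ⟨a, b, d⟩ := c
  simp only [fracCode, QCode.val]
  have hd : (0 : ℝ) < (d : ℝ) + 1 := by positivity
  set A : ℕ := a + b * d with hA
  set n : ℕ := (2 * A + d + 1) / (2 * (d + 1)) with hn
  have e1 : ((a : ℝ) - b) / ((d : ℝ) + 1) + b = (A : ℝ) / ((d : ℝ) + 1) := by
    rw [hA]
    push_cast
    field_simp
    ring
  have hround : round ((A : ℝ) / ((d : ℝ) + 1)) = n := by
    rw [round_eq]
    have e2 : (A : ℝ) / ((d : ℝ) + 1) + 1 / 2 = ((2 * A + d + 1 : ℕ) : ℝ) / ((2 * (d + 1) : ℕ) : ℝ) := by
      push_cast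
      field_simp
      ring
    rw [e2]
    have h3 : ((⌊((2 * A + d + 1 : ℕ) : ℝ) / ((2 * (d + 1) : ℕ) : ℝ)⌋₊ : ℕ) : ℤ)
        = ⌊((2 * A + d + 1 : ℕ) : ℝ) / ((2 * (d + 1) : ℕ) : ℝ)⌋ :=
      Int.natCast_floor_eq_floor (by positivity)
    rw [← h3, Nat.floor_div_eq_div]
  have e3 : round (((a : ℝ) - b) / ((d : ℝ) + 1)) = (n : ℤ) - b := by
    have h4 := round_add_natCast (((a : ℝ) - b) / ((d : ℝ) + 1)) b
    rw [e1, hround] at h4
    omega
  rw [e3]
  push_cast
  have e4 : ((a : ℝ) - b) / ((d : ℝ) + 1) = (A : ℝ) / ((d : ℝ) + 1) - b := by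
    rw [← e1]; ring
  rw [e4]
  field_simp
  ring

lemma primFracCode : Primrec fracCode := by
  have h1 := prim1 (f := fun c : QCode => c) Primrec.id
  have h2 := prim2 (f := fun c : QCode => c) Primrec.id
  have h3 := prim3 (f := fun c : QCode => c) Primrec.id
  have hA : Primrec fun c : QCode => c.1 + c.2.1 * c.2.2 := pNatAdd h1 (pNatMul h2 h3)
  exact Primrec.pair hA (Primrec.pair
    (pNatMul (pNatDiv (pNatAdd (pNatAdd (pNatMul (Primrec.const 2) hA) h3) (Primrec.const 1))
      (pNatMul (Primrec.const 2) (pNatAdd h3 (Primrec.const 1)))) (pNatAdd h3 (Primrec.const 1))) h3)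

/-- The integer part of a nonnegative code. -/
def floorCode (c : QCode) : ℕ := (c.1 - c.2.1) / (c.2.2 + 1)

lemma primFloorCode : Primrec floorCode :=
  pNatDiv (pNatSub (prim1 Primrec.id) (prim2 Primrec.id))
    (pNatAdd (prim3 Primrec.id) (Primrec.const 1))

lemma floor_of_nonneg {c : QCode} (h : c.2.1 ≤ c.1) : ⌊c.val⌋ = (floorCode c : ℤ) := by
  obtain ⟨a, b, d⟩ := c
  simp only [floorCode, QCode.val] at *
  have e : ((a : ℝ) - b) / ((d : ℝ) + 1) = ((a - b : ℕ) : ℝ) / ((d + 1 : ℕ) : ℝ) := by
    rw [Nat.cast_sub h]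
    push_cast
    rfl
  rw [e]
  have h3 : ((⌊((a - b : ℕ) : ℝ) / ((d + 1 : ℕ) : ℝ)⌋₊ : ℕ) : ℤ)
      = ⌊((a - b : ℕ) : ℝ) / ((d + 1 : ℕ) : ℝ)⌋ :=
    Int.natCast_floor_eq_floor (by positivity)
  rw [← h3, Nat.floor_div_eq_div]

lemma floor_neg_of_lt {c : QCode} (h : c.1 < c.2.1) : ⌊c.val⌋ < 0 := by
  rw [Int.floor_lt]
  obtain ⟨a, b, d⟩ := c
  simp only [QCode.val] at *
  have h1 : (a : ℝ) < b := by exact_mod_cast h
  have hd : (0 : ℝ) < (d : ℝ) + 1 := by positivity
  push_cast
  exact div_neg_of_neg_of_pos (by linarith) hd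

/-- The affine substitution formula for the step function. -/
lemma stepS_affine (m : ℕ) (a b s : ℝ) :
    iteratedDeriv m (fun s => stepS (a * s + b)) s = a ^ m * iteratedDeriv m stepS (a * s + b) := by
  have h2 : ContDiff ℝ m (fun y => stepS (y + b)) :=
    (stepS_contDiff.of_le (by exact_mod_cast le_top)).comp (contDiff_id.add contDiff_const)
  have h3 := congrFun (iteratedDeriv_comp_const_mul h2 a) s
  have h4 := congrFun (iteratedDeriv_comp_add_const m stepS b) (a * s)
  exact h3.trans (by rw [h4])

lemma tauT_eq (n : ℕ) (s : ℝ) : tauT n s = 2 ^ n * iteratedDeriv n stepS (2 * s - 1 / 2) := by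
  have e : timeP = fun s => stepS (2 * s + (-(1 / 2))) := by
    funext s
    simp only [timeP]
    congr 1
  unfold tauT
  rw [e, stepS_affine]
  rfl

section
variable {α : Type*} [Primcodable α]

/-- Choice by a computable equality. -/
lemma compIteEq {β : Type*} [Primcodable β] [DecidableEq β] {x y : α → β} (hx : Computable x)
    (hy : Computable y) {f f' : α → ℝ} (hf : CompR f) (hf' : CompR f') :
    CompR fun a => if x a = y a then f a else f' a := by
  have h : Computable fun a => decide (x a = y a) :=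
    (Primrec.eq (α := β)).decide.to_comp.comp hx hy
  have := CompR.cond h hf hf'
  simpa using this

lemma compIteLt {x y : α → ℕ} (hx : Computable x)
    (hy : Computable y) {f f' : α → ℝ} (hf : CompR f) (hf' : CompR f') :
    CompR fun a => if x a < y a then f a else f' a := by
  have h : Computable fun a => decide (x a < y a) :=
    (Primrec.nat_lt).decide.to_comp.comp hx hy
  have := CompR.cond h hf hf'
  simpa using this

lemma compNatCast {x : α → ℕ} (hx : Computable x) : CompR fun a => ((x a : ℕ) : ℝ) := by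
  have := CompR.of_exact (primOfNat.to_comp.comp hx)
  simpa using this

variable (hS : CompR fun p : ℕ × QCode => iteratedDeriv p.1 stepS p.2.val)

include hS

lemma compStep {m : α → ℕ} {s : α → QCode} (hm : Computable m) (hs : Computable s) :
    CompR fun a => iteratedDeriv (m a) stepS (s a).val :=
  hS.comp (hm.pair hs)

lemma compTau {n : α → ℕ} {s : α → QCode} (hn : Computable n) (hs : Computable s) :
    CompR fun a => tauT (n a) (s a).val := by
  have h1 : Computable fun a => QCode.pow (ofNat 2) (n a) :=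
    primPow.to_comp.comp (Computable.const _) hn
  have h2 : Computable fun a => sub (mul (ofNat 2) (s a)) (invSucc 1) :=
    primSub.to_comp.comp (primMul.to_comp.comp (Computable.const _) hs) (Computable.const _)
  refine ((CompR.of_exact h1).mul (compStep hS hn h2)).congr fun a => ?_
  rw [tauT_eq]
  simp only [val_pow, val_ofNat, val_sub, val_mul, val_invSucc]
  norm_num

lemma compPlateauD {l r s : α → QCode} {w m : α → ℕ} (hl : Computable l) (hr : Computable r)
    (hs : Computable s) (hw : Computable w) (hm : Computable m) :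
    CompR fun a => plateauD (l a).val (r a).val (w a) (m a) (s a).val := by
  have hw1 : Computable fun a => ofNat (w a + 1) :=
    primOfNat.to_comp.comp (Primrec.succ.to_comp.comp hw)
  have h1 : Computable fun a => QCode.pow (ofNat (w a + 1)) (m a) := primPow.to_comp.comp hw1 hm
  have h2 : Computable fun a => QCode.pow (neg (ofNat (w a + 1))) (m a) :=
    primPow.to_comp.comp (primNeg.to_comp.comp hw1) hm
  have h3 : Computable fun a => add (mul (sub (s a) (l a)) (ofNat (w a + 1))) (ofNat 1) :=
    primAdd.to_comp.comp (primMul.to_comp.comp (primSub.to_comp.comp hs hl) hw1) (Computable.const _)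
  have h4 : Computable fun a => add (mul (sub (r a) (s a)) (ofNat (w a + 1))) (ofNat 1) :=
    primAdd.to_comp.comp (primMul.to_comp.comp (primSub.to_comp.comp hr hs) hw1) (Computable.const _)
  have h5 : CompR fun a => if m a = 0 then (1 : ℝ) else 0 := by
    have := compIteEq hm (Computable.const 0) (CompR.const_val (α := α) (ofNat 1))
      (CompR.const_val (ofNat 0))
    refine this.congr fun a => ?_
    simp
  refine (((CompR.of_exact h1).mul (compStep hS hm h3)).add
    ((CompR.of_exact h2).mul (compStep hS hm h4))).sub h5 |>.congr fun a => ?_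
  simp only [plateauD, val_pow, val_ofNat, val_neg, val_add, val_mul, val_sub]
  push_cast
  rfl

lemma compQlateauD {l r s : α → QCode} {w m : α → ℕ} (hl : Computable l) (hr : Computable r)
    (hs : Computable s) (hw : Computable w) (hm : Computable m) :
    CompR fun a => qlateauD (l a).val (r a).val (w a) (m a) (s a).val := by
  have hm1 : Computable fun a => m a - 1 := Primrec.nat_sub.to_comp.comp hm (Computable.const 1)
  have h0 : CompR fun a => if m a = 0 then (0 : ℝ)
      else (m a : ℝ) * plateauD (l a).val (r a).val (w a) (m a - 1) (s a).val := by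
    have := compIteEq hm (Computable.const 0) (CompR.const_val (α := α) (ofNat 0))
      ((compNatCast hm).mul (compPlateauD hS hl hr hs hw hm1))
    refine this.congr fun a => ?_
    simp
  exact ((CompR.of_exact hs).mul (compPlateauD hS hl hr hs hw hm)).add h0

lemma compFactorD {F : α → Factor} {m : α → ℕ} {s : α → QCode} (hF : Computable F)
    (hm : Computable m) (hs : Computable s) :
    CompR fun a => factorD (F a) (m a) (s a).val := by
  have hk : Computable fun a => (F a).1 := Computable.fst.comp hF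
  have hl : Computable fun a => (F a).2.1 := Computable.fst.comp (Computable.snd.comp hF)
  have hr : Computable fun a => (F a).2.2.1 :=
    Computable.fst.comp (Computable.snd.comp (Computable.snd.comp hF))
  have hw : Computable fun a => (F a).2.2.2 :=
    Computable.snd.comp (Computable.snd.comp (Computable.snd.comp hF))
  have hs' : Computable fun a => fracCode (s a) := primFracCode.to_comp.comp hs
  have h1 : CompR fun a => if m a = 0 then (1 : ℝ) else 0 := by
    have := compIteEq hm (Computable.const 0) (CompR.const_val (α := α) (ofNat 1))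
      (CompR.const_val (ofNat 0))
    refine this.congr fun a => ?_
    simp
  have := compIteEq hk (Computable.const 0) h1
    (compIteEq hk (Computable.const 1) (compPlateauD hS hl hr hs' hw hm)
      (compQlateauD hS hl hr hs' hw hm))
  refine this.congr fun a => ?_
  simp only [factorD, val_fracCode]

/-- The sum of the closed forms of the derivatives of a list of terms. -/
def sumD (L : List Term) (m₀ m₁ m₂ : ℕ) (x₀ x₁ x₂ : ℝ) : ℝ :=
  (L.map fun T => T.1.val * (factorD T.2.1 m₀ x₀ * factorD T.2.2.1 m₁ x₁ * factorD T.2.2.2 m₂ x₂)).sum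

lemma compSumD {L : α → List Term} {m₀ m₁ m₂ : α → ℕ} {x₀ x₁ x₂ : α → QCode}
    (hL : Computable L) (h0 : Computable m₀) (h1 : Computable m₁) (h2 : Computable m₂)
    (y0 : Computable x₀) (y1 : Computable x₁) (y2 : Computable x₂) :
    CompR fun a => sumD (L a) (m₀ a) (m₁ a) (m₂ a) (x₀ a).val (x₁ a).val (x₂ a).val := by
  have hT : Computable fun q : α × Term => q.2 := Computable.snd
  have hF0 : Computable fun q : α × Term => q.2.2.1 :=
    Computable.fst.comp (Computable.snd.comp hT)
  have hF1 : Computable fun q : α × Term => q.2.2.2.1 :=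
    Computable.fst.comp (Computable.snd.comp (Computable.snd.comp hT))
  have hF2 : Computable fun q : α × Term => q.2.2.2.2 :=
    Computable.snd.comp (Computable.snd.comp (Computable.snd.comp hT))
  have hc : Computable fun q : α × Term => q.2.1 := Computable.fst.comp hT
  have hfst : Computable fun q : α × Term => q.1 := Computable.fst
  have key : CompR fun q : α × Term => q.2.1.val * (factorD q.2.2.1 (m₀ q.1) (x₀ q.1).val
      * factorD q.2.2.2.1 (m₁ q.1) (x₁ q.1).val * factorD q.2.2.2.2 (m₂ q.1) (x₂ q.1).val) :=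
    (CompR.of_exact hc).mul
      (((compFactorD hS hF0 (h0.comp hfst) (y0.comp hfst)).mul
        (compFactorD hS hF1 (h1.comp hfst) (y1.comp hfst))).mul
        (compFactorD hS hF2 (h2.comp hfst) (y2.comp hfst)))
  exact CompR.list_sum hL key

end

lemma cPhase {α : Type*} [Primcodable α] {m : α → Machine} {w : α → List ℕ} {n : α → ℕ}
    (hm : Computable m) (hw : Computable w) (hn : Computable n) :
    Computable fun a => phase (m a) (w a) (n a) := by
  have hp : Primrec fun r : Machine × List ℕ × ℕ => phase r.1 r.2.1 r.2.2 :=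
    pPhase Primrec.fst (Primrec.fst.comp Primrec.snd) (Primrec.snd.comp Primrec.snd)
  have := hp.to_comp.comp (hm.pair (hw.pair hn))
  exact this

/-- The closed form of the `A`-coefficient of a phase. -/
lemma shearOf_A (M : Machine) (w : List ℕ) (k : ℕ) (m₀ m₁ m₂ : ℕ) (x₀ x₁ x₂ : ℝ) :
    (shearOf M w (k : ℤ)).A (orderVec m₀ m₁ m₂) ![x₀, x₁, x₂]
      = sumD (phase M w k).2 m₀ m₁ m₂ x₀ x₁ x₂ := by
  rw [shearOf_natCast]
  show sumI _ _ _ = _
  unfold sumI sumD
  congr 1
  apply List.map_congr_left
  intro T hT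
  rw [termI_eq (phase_ok M w k T hT).1]
  rfl

lemma shearOf_neg_A (M : Machine) (w : List ℕ) {k : ℤ} (hk : k < 0) (m : Fin 3 → ℕ) (x : R3) :
    (shearOf M w k).A m x = 0 := by
  unfold shearOf
  rw [if_pos hk]
  rfl

lemma e_apply (d j : Fin 3) : e d j = if j = d then 1 else 0 := by
  simp [e, Pi.single_apply]

lemma order_add0 (m₀ m₁ m₂ : ℕ) :
    (Pi.single 0 1 + Pi.single 0 1) + orderVec m₀ m₁ m₂ = orderVec (m₀ + 2) m₁ m₂ := by
  funext i
  fin_cases i <;> simp [orderVec] ; omega

lemma order_add1 (m₀ m₁ m₂ : ℕ) :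
    (Pi.single 1 1 + Pi.single 1 1) + orderVec m₀ m₁ m₂ = orderVec m₀ (m₁ + 2) m₂ := by
  funext i
  fin_cases i <;> simp [orderVec] ; omega

lemma order_add2 (m₀ m₁ m₂ : ℕ) :
    (Pi.single 2 1 + Pi.single 2 1) + orderVec m₀ m₁ m₂ = orderVec m₀ m₁ (m₂ + 2) := by
  funext i
  fin_cases i <;> simp [orderVec] ; omega

/-- The input of the force program, without the precision. -/
abbrev ForceArg := ℕ × ℕ × ℕ × ℕ × Fin 3 × QCode × QCode × QCode × QCode

/-- The closed form of the mixed derivatives of the force, for nonnegative times. -/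
def forceD (ν : ℝ) (q : (Machine × List ℕ) × ForceArg) : ℝ :=
  let M := q.1.1
  let w := q.1.2
  let n := q.2.1
  let m₀ := q.2.2.1
  let m₁ := q.2.2.2.1
  let m₂ := q.2.2.2.2.1
  let j := q.2.2.2.2.2.1
  let t := q.2.2.2.2.2.2.1
  let x₀ := q.2.2.2.2.2.2.2.1.val
  let x₁ := q.2.2.2.2.2.2.2.2.1.val
  let x₂ := q.2.2.2.2.2.2.2.2.2.val
  let P := phase M w (floorCode t)
  let s := (sub t (ofNat (floorCode t))).val
  let E : ℝ := if j = P.1 then 1 else 0
  if t.1 < t.2.1 then 0
  else tauT (n + 2) s * (E * sumD P.2 m₀ m₁ m₂ x₀ x₁ x₂)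
    - ν * (tauT (n + 1) s * (E * (sumD P.2 (m₀ + 2) m₁ m₂ x₀ x₁ x₂
      + sumD P.2 m₀ (m₁ + 2) m₂ x₀ x₁ x₂ + sumD P.2 m₀ m₁ (m₂ + 2) x₀ x₁ x₂)))

/-- The mixed derivatives of the force are given by the closed form. -/
theorem forceD_eq (ν : ℝ) (M : Machine) (w : List ℕ) (n m₀ m₁ m₂ : ℕ) (j : Fin 3)
    (t x₀ x₁ x₂ : QCode) :
    mixedDeriv n m₀ m₁ m₂ (fun s y => Frc (shearOf M w) ν s y j) t.val ![x₀.val, x₁.val, x₂.val]
      = forceD ν ((M, w), (n, m₀, m₁, m₂, j, t, x₀, x₁, x₂)) := by
  rw [Frc_mixedDeriv]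
  simp only [forceD]
  by_cases ht : t.1 < t.2.1
  · rw [if_pos ht]
    have hk := floor_neg_of_lt ht
    simp [shearOf_neg_A M w hk]
  · rw [if_neg ht]
    have hk := floor_of_nonneg (not_lt.mp ht)
    rw [hk, Fin.sum_univ_three, order_add0, order_add1, order_add2, shearOf_A, shearOf_A, shearOf_A,
      shearOf_A, shearOf_natCast, e_apply]
    simp only [mkShear, val_sub, val_ofNat]
    push_cast
    rfl

/-- The force is uniformly computable. -/
theorem compForceD (hS : CompR fun p : ℕ × QCode => iteratedDeriv p.1 stepS p.2.val) {ν : ℝ}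
    (hν : IsComputableReal ν) : CompR (forceD ν) := by
  have hq : Computable fun q : (Machine × List ℕ) × ForceArg => q := Computable.id
  have hM : Computable fun q : (Machine × List ℕ) × ForceArg => q.1.1 :=
    Computable.fst.comp Computable.fst
  have hw : Computable fun q : (Machine × List ℕ) × ForceArg => q.1.2 :=
    Computable.snd.comp Computable.fst
  have h2 : Computable fun q : (Machine × List ℕ) × ForceArg => q.2 := Computable.snd
  have hn : Computable fun q : (Machine × List ℕ) × ForceArg => q.2.1 := Computable.fst.comp h2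
  have h3 := Computable.snd.comp h2
  have hm₀ : Computable fun q : (Machine × List ℕ) × ForceArg => q.2.2.1 := Computable.fst.comp h3
  have h4 := Computable.snd.comp h3
  have hm₁ : Computable fun q : (Machine × List ℕ) × ForceArg => q.2.2.2.1 := Computable.fst.comp h4
  have h5 := Computable.snd.comp h4
  have hm₂ : Computable fun q : (Machine × List ℕ) × ForceArg => q.2.2.2.2.1 :=
    Computable.fst.comp h5
  have h6 := Computable.snd.comp h5
  have hj : Computable fun q : (Machine × List ℕ) × ForceArg => q.2.2.2.2.2.1 :=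
    Computable.fst.comp h6
  have h7 := Computable.snd.comp h6
  have ht : Computable fun q : (Machine × List ℕ) × ForceArg => q.2.2.2.2.2.2.1 :=
    Computable.fst.comp h7
  have h8 := Computable.snd.comp h7
  have hx₀ : Computable fun q : (Machine × List ℕ) × ForceArg => q.2.2.2.2.2.2.2.1 :=
    Computable.fst.comp h8
  have h9 := Computable.snd.comp h8
  have hx₁ : Computable fun q : (Machine × List ℕ) × ForceArg => q.2.2.2.2.2.2.2.2.1 :=
    Computable.fst.comp h9
  have hx₂ : Computable fun q : (Machine × List ℕ) × ForceArg => q.2.2.2.2.2.2.2.2.2 :=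
    Computable.snd.comp h9
  have hk : Computable fun q : (Machine × List ℕ) × ForceArg => floorCode q.2.2.2.2.2.2.1 :=
    primFloorCode.to_comp.comp ht
  have hP : Computable fun q : (Machine × List ℕ) × ForceArg =>
      phase q.1.1 q.1.2 (floorCode q.2.2.2.2.2.2.1) := cPhase hM hw hk
  have hL : Computable fun q : (Machine × List ℕ) × ForceArg =>
      (phase q.1.1 q.1.2 (floorCode q.2.2.2.2.2.2.1)).2 := Computable.snd.comp hP
  have hd : Computable fun q : (Machine × List ℕ) × ForceArg =>
      (phase q.1.1 q.1.2 (floorCode q.2.2.2.2.2.2.1)).1 := Computable.fst.comp hP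
  have hs : Computable fun q : (Machine × List ℕ) × ForceArg =>
      sub q.2.2.2.2.2.2.1 (ofNat (floorCode q.2.2.2.2.2.2.1)) :=
    primSub.to_comp.comp ht (primOfNat.to_comp.comp hk)
  have hE : CompR fun q : (Machine × List ℕ) × ForceArg =>
      if q.2.2.2.2.2.1 = (phase q.1.1 q.1.2 (floorCode q.2.2.2.2.2.2.1)).1 then (1 : ℝ) else 0 := by
    have := compIteEq hj hd (CompR.const_val (α := (Machine × List ℕ) × ForceArg) (ofNat 1))
      (CompR.const_val (ofNat 0))
    refine this.congr fun a => ?_
    simp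
  have hν' : CompR fun _ : (Machine × List ℕ) × ForceArg => ν := by
    obtain ⟨g, hg, hb⟩ := hν
    exact ⟨fun _ k => g k, hg.comp Computable.snd, fun _ k => hb k⟩
  have add2 {u : (Machine × List ℕ) × ForceArg → ℕ} (hu : Computable u) :
      Computable fun q => u q + 2 := Primrec.nat_add.to_comp.comp hu (Computable.const 2)
  have add1 {u : (Machine × List ℕ) × ForceArg → ℕ} (hu : Computable u) :
      Computable fun q => u q + 1 := Primrec.nat_add.to_comp.comp hu (Computable.const 1)
  have main := ((compTau hS (add2 hn) hs).mul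
      (hE.mul (compSumD hS hL hm₀ hm₁ hm₂ hx₀ hx₁ hx₂))).sub
    (hν'.mul ((compTau hS (add1 hn) hs).mul (hE.mul
      (((compSumD hS hL (add2 hm₀) hm₁ hm₂ hx₀ hx₁ hx₂).add
        (compSumD hS hL hm₀ (add2 hm₁) hm₂ hx₀ hx₁ hx₂)).add
        (compSumD hS hL hm₀ hm₁ (add2 hm₂) hx₀ hx₁ hx₂)))))
  have ht1 : Computable fun q : (Machine × List ℕ) × ForceArg => q.2.2.2.2.2.2.1.1 :=
    Computable.fst.comp ht
  have ht2 : Computable fun q : (Machine × List ℕ) × ForceArg => q.2.2.2.2.2.2.1.2.1 :=
    Computable.fst.comp (Computable.snd.comp ht)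
  have := compIteLt ht1 ht2 (CompR.const_val (α := (Machine × List ℕ) × ForceArg) (ofNat 0)) main
  refine this.congr fun a => ?_
  simp [forceD]

end

end Vale.Agent.Lib.P113
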