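import Mathlib

/-!
# Definitions for the statement of P113

The flat torus `(ℝ/ℤ)³` is represented in the usual way: functions and sets on the torus are
`ℤ³`-periodic functions and sets on `ℝ³ = Fin 3 → ℝ`, and trajectories are lifted to `ℝ³`.
-/

open scoped ContDiff
open Set

namespace Vale.Agent.Lib.P113

/-- Points of `ℝ³`. -/
abbrev R3 := Fin 3 → ℝ

/-- The standard basis vector `e_i` of `ℝ³`. -/
def e (i : Fin 3) : R3 := Pi.single i 1

/-- `ℤ³`-periodicity in space: the function descends to the torus. -/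
def SpacePeriodic {β : Type*} (g : R3 → β) : Prop :=
  ∀ (i : Fin 3) (x : R3), g (x + e i) = g x

/-- The spatial partial derivative `∂_i g`. -/
noncomputable def pd (i : Fin 3) (g : R3 → ℝ) (x : R3) : ℝ := fderiv ℝ g x (e i)

/-- The unit cube, a fundamental domain of the torus. -/
def cube : Set R3 := Icc 0 1

/-- `(u, p)` is a classical solution on `[0, T] × 𝕋³` of the forced Navier-Stokes system
`∂ₜu + (u·∇)u = -∇p + νΔu + f`, `div u = 0`, `u(0,·) = 0`, with `p` of spatial mean zero:
`u, ∂ₜu`, the spatial derivatives of `u` up to order two, `p` and `∇p` are continuous on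
`[0, T] × 𝕋³` and the equations hold pointwise. -/
structure IsClassicalSolution (ν : ℝ) (f : ℝ → R3 → R3) (T : ℝ)
    (u : ℝ → R3 → R3) (p : ℝ → R3 → ℝ) : Prop where
  periodic_u : ∀ t ∈ Icc 0 T, SpacePeriodic (u t)
  periodic_p : ∀ t ∈ Icc 0 T, SpacePeriodic (p t)
  contDiff_u : ∀ t ∈ Icc 0 T, ContDiff ℝ 2 (u t)
  contDiff_p : ∀ t ∈ Icc 0 T, ContDiff ℝ 1 (p t)
  cont_u : ContinuousOn (fun q : ℝ × R3 => u q.1 q.2) (Icc 0 T ×ˢ univ)
  cont_du : ContinuousOn (fun q : ℝ × R3 => fderiv ℝ (u q.1) q.2) (Icc 0 T ×ˢ univ)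
  cont_ddu : ContinuousOn (fun q : ℝ × R3 => fderiv ℝ (fderiv ℝ (u q.1)) q.2) (Icc 0 T ×ˢ univ)
  cont_p : ContinuousOn (fun q : ℝ × R3 => p q.1 q.2) (Icc 0 T ×ˢ univ)
  cont_dp : ContinuousOn (fun q : ℝ × R3 => fderiv ℝ (p q.1) q.2) (Icc 0 T ×ˢ univ)
  diff_time : ∀ t ∈ Icc 0 T, ∀ x, DifferentiableWithinAt ℝ (fun s => u s x) (Icc 0 T) t
  cont_dt : ContinuousOn (fun q : ℝ × R3 => derivWithin (fun s => u s q.2) (Icc 0 T) q.1)
    (Icc 0 T ×ˢ univ)
  momentum : ∀ t ∈ Icc 0 T, ∀ (x : R3) (j : Fin 3),
    derivWithin (fun s => u s x) (Icc 0 T) t j + ∑ i, u t x i * pd i (fun y => u t y j) x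
      = - pd j (p t) x + ν * ∑ i, pd i (pd i (fun y => u t y j)) x + f t x j
  incompressible : ∀ t ∈ Icc 0 T, ∀ x : R3, ∑ i, pd i (fun y => u t y i) x = 0
  initial : ∀ x, u 0 x = 0
  mean_zero : ∀ t ∈ Icc 0 T, ∫ x in cube, p t x = 0

/-- `X` is a trajectory (lifted to `ℝ³`) from `a` of the velocity field `u`:
`X(0) = a`, `Ẋ(t) = u(t, X(t))` for `t ≥ 0` (one-sided at `t = 0`). -/
def IsTrajectory (u : ℝ → R3 → R3) (a : R3) (X : ℝ → R3) : Prop :=
  X 0 = a ∧ ∀ t, 0 ≤ t → HasDerivWithinAt X (u t (X t)) (Ici 0) t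

/-! ### Turing machines -/

/-- A deterministic one-tape Turing machine, given as finite data `(Q, S, H, δ)`:
the states are `0, …, Q` (with `0` the start state), the symbols are `0, …, S` (with `0` the blank),
`q` is a halting state iff `H.getD q false`, and `δ` is the list of the transitions, the entry of
index `q * (S + 1) + a` being the action `(new state, written symbol, move right?)` for state `q`
reading `a` (results are read modulo the number of states, resp. symbols, and a missing entry
means `(0, 0, true)`, so that all data describe a machine and all machines arise). -/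
abbrev Machine := ℕ × ℕ × List Bool × List (ℕ × ℕ × Bool)

/-- The largest state of a machine. -/
def Machine.Q (M : Machine) : ℕ := M.1
/-- The largest symbol of a machine. -/
def Machine.S (M : Machine) : ℕ := M.2.1

/-- `q` is a halting state. -/
def Machine.isHalting (M : Machine) (q : ℕ) : Bool := M.2.2.1.getD q false

/-- The transition function: new state, written symbol, move right? -/
def Machine.next (M : Machine) (q a : ℕ) : ℕ × ℕ × Bool :=
  let r := M.2.2.2.getD (q * (M.S + 1) + a) (0, 0, true)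
  (r.1 % (M.Q + 1), r.2.1 % (M.S + 1), r.2.2)

/-- A configuration: state, two-sided tape, head position. -/
structure Config where
  state : ℕ
  tape : ℤ → ℕ
  head : ℤ

/-- One step of the machine. -/
def Machine.step (M : Machine) (c : Config) : Config :=
  let r := M.next c.state (c.tape c.head)
  ⟨r.1, Function.update c.tape c.head r.2.1, if r.2.2 then c.head + 1 else c.head - 1⟩

/-- The initial configuration on input `w`: state `0`, the word `w` on an otherwise blank
two-sided tape, the head at its first cell. -/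
def initConfig (w : List ℕ) : Config :=
  ⟨0, fun i => if 0 ≤ i then w.getD i.toNat 0 else 0, 0⟩

/-- `w` is a word over the alphabet of `M`. -/
def Machine.ValidWord (M : Machine) (w : List ℕ) : Prop := ∀ a ∈ w, a ≤ M.S

/-- `M` halts on `w`: it reaches a halting state after finitely many steps, possibly none. -/
def Machine.Halts (M : Machine) (w : List ℕ) : Prop :=
  ∃ n : ℕ, M.isHalting ((M.step^[n] (initConfig w)).state) = true

/-! ### Effectivity -/

/-- Codes of rational numbers: `(a, b, d)` denotes `(a - b) / (d + 1)`. -/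
abbrev QCode := ℕ × ℕ × ℕ

/-- The rational number denoted by a code, as a real number. -/
noncomputable def QCode.val (c : QCode) : ℝ := ((c.1 : ℝ) - (c.2.1 : ℝ)) / ((c.2.2 : ℝ) + 1)

/-- A real number is computable: a computable sequence of rationals converges to it at the
rate `2^(-k)`. -/
def IsComputableReal (x : ℝ) : Prop :=
  ∃ g : ℕ → QCode, Computable g ∧ ∀ k, |(g k).val - x| ≤ (1 / 2 : ℝ) ^ k

/-- The mixed derivative `∂ₜ^n ∂₀^(m₀) ∂₁^(m₁) ∂₂^(m₂) g` at `(t, x)`. -/
noncomputable def mixedDeriv (n m₀ m₁ m₂ : ℕ) (g : ℝ → R3 → ℝ) (t : ℝ) (x : R3) : ℝ :=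
  iteratedDeriv n (fun s =>
    iteratedDeriv m₀ (fun y₀ =>
      iteratedDeriv m₁ (fun y₁ =>
        iteratedDeriv m₂ (fun y₂ => g s ![y₀, y₁, y₂]) (x 2)) (x 1)) (x 0)) t

/-- The program `c` computes the force `f`: on input the orders `(n, m₀, m₁, m₂)`, a component `j`,
a rational point `(t, x₀, x₁, x₂)` (in codes) and an accuracy `k`, it halts with (the code of) a
rational number within `2^(-k)` of the mixed derivative of the component `f_j` at that point. -/
def ProgramComputesForce (c : Nat.Partrec.Code) (f : ℝ → R3 → R3) : Prop :=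
  ∀ (n m₀ m₁ m₂ : ℕ) (j : Fin 3) (t x₀ x₁ x₂ : QCode) (k : ℕ),
    ∃ r : QCode,
      c.eval (Encodable.encode (n, m₀, m₁, m₂, j, t, x₀, x₁, x₂, k)) = Part.some (Encodable.encode r) ∧
      |r.val - mixedDeriv n m₀ m₁ m₂ (fun s y => f s y j) t.val ![x₀.val, x₁.val, x₂.val]|
        ≤ (1 / 2 : ℝ) ^ k

/-- The statement of Q1 (positive answer) for the viscosity `ν`. -/
def HaltingDetection (ν : ℝ) : Prop :=
  ∃ (aStar : R3) (O : Set R3) (T₀ : ℝ)
    (compiler : Machine × List ℕ → Nat.Partrec.Code)
    (force : Machine → List ℕ → ℝ → R3 → R3),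
    -- `O` is an open subset of the torus
    IsOpen O ∧ SpacePeriodic (· ∈ O) ∧
    -- the compiler is an algorithm, total on all pairs
    Computable compiler ∧ 0 ≤ T₀ ∧
    -- `T₀` is independent of `(M, w)`; after `T₀` the force depends on `M` only
    (∀ (M : Machine) (w w' : List ℕ) (t : ℝ) (x : R3), T₀ ≤ t → force M w t x = force M w' t x) ∧
    ∀ (M : Machine) (w : List ℕ),
      -- the output program computes the force, which is smooth on the torus
      ProgramComputesForce (compiler (M, w)) (force M w) ∧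
      ContDiff ℝ ∞ (fun q : ℝ × R3 => force M w q.1 q.2) ∧
      (∀ t, SpacePeriodic (force M w t)) ∧
      -- the force is periodic in time after `T₀`
      (∃ τ : ℝ, 0 < τ ∧ ∀ (t : ℝ) (x : R3), T₀ ≤ t → force M w (t + τ) x = force M w t x) ∧
      -- a global smooth solution exists and is unique among classical solutions on each `[0, T]`
      ∃ (u : ℝ → R3 → R3) (p : ℝ → R3 → ℝ),
        ContDiff ℝ ∞ (fun q : ℝ × R3 => u q.1 q.2) ∧
        ContDiff ℝ ∞ (fun q : ℝ × R3 => p q.1 q.2) ∧
        (∀ T, 0 < T → IsClassicalSolution ν (force M w) T u p) ∧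
        (∀ T, 0 < T → ∀ v q, IsClassicalSolution ν (force M w) T v q →
          ∀ t ∈ Icc 0 T, ∀ x, v t x = u t x ∧ q t x = p t x) ∧
        -- the trajectory from `aStar` exists and detects halting
        (∃ X, IsTrajectory u aStar X) ∧
        (M.ValidWord w → ∀ X, IsTrajectory u aStar X →
          ((∃ t, 0 ≤ t ∧ X t ∈ O) ↔ M.Halts w))

end Vale.Agent.Lib.P113
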