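import Vale.Agent.Lib.P113.Step

/-!
# One-dimensional periodic factors: plateaus and their affine multiples
-/

open scoped ContDiff Topology
open Set Filter

namespace Vale.Agent.Lib.P113

noncomputable section

/-- The plateau: `1` on `[l, r]`, `0` outside `[l - δ, r + δ]`, with `δ = 1 / (w + 1)`. -/
def plateau (l r : ℝ) (w : ℕ) (s : ℝ) : ℝ :=
  stepS ((s - l) * (w + 1) + 1) + stepS ((r - s) * (w + 1) + 1) - 1

lemma plateau_contDiff (l r : ℝ) (w : ℕ) : ContDiff ℝ ∞ (plateau l r w) := by
  unfold plateau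
  refine ContDiff.sub (ContDiff.add ?_ ?_) contDiff_const
  · exact stepS_contDiff.comp (((contDiff_id.sub contDiff_const).mul contDiff_const).add contDiff_const)
  · exact stepS_contDiff.comp (((contDiff_const.sub contDiff_id).mul contDiff_const).add contDiff_const)

lemma plateau_eq_one {l r : ℝ} {w : ℕ} {s : ℝ} (h1 : l ≤ s) (h2 : s ≤ r) :
    plateau l r w s = 1 := by
  unfold plateau
  have hw : (0 : ℝ) ≤ (w : ℝ) + 1 := by positivity
  rw [stepS_of_one_le, stepS_of_one_le]
  · norm_num
  · nlinarith [mul_nonneg (sub_nonneg.mpr h2) hw]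
  · nlinarith [mul_nonneg (sub_nonneg.mpr h1) hw]

lemma plateau_eq_zero_left {l r : ℝ} {w : ℕ} {s : ℝ} (hlr : l ≤ r)
    (h : (s - l) * (w + 1) ≤ -1) : plateau l r w s = 0 := by
  unfold plateau
  have hw : (0 : ℝ) < (w : ℝ) + 1 := by positivity
  have hs : s ≤ l := by
    by_contra hc
    have hc := not_le.mp hc
    nlinarith [mul_pos (sub_pos.mpr hc) hw]
  rw [stepS_of_nonpos (by linarith), stepS_of_one_le]
  · norm_num
  · nlinarith [mul_nonneg (by linarith : (0 : ℝ) ≤ r - s) hw.le]

lemma plateau_eq_zero_right {l r : ℝ} {w : ℕ} {s : ℝ} (hlr : l ≤ r)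
    (h : (r - s) * (w + 1) ≤ -1) : plateau l r w s = 0 := by
  unfold plateau
  have hw : (0 : ℝ) < (w : ℝ) + 1 := by positivity
  have hs : r ≤ s := by
    by_contra hc
    have hc := not_le.mp hc
    nlinarith [mul_pos (sub_pos.mpr hc) hw]
  rw [stepS_of_nonpos (s := (r - s) * (w + 1) + 1) (by linarith), stepS_of_one_le]
  · norm_num
  · nlinarith [mul_nonneg (by linarith : (0 : ℝ) ≤ s - l) hw.le]

/-- Periodization of a function living in `(-3/8, 3/8)`. -/
def perio (g : ℝ → ℝ) (s : ℝ) : ℝ := g (s - round s)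

/-- `g` lives in `(-3/8, 3/8)`. -/
def Centered (g : ℝ → ℝ) : Prop := ∀ s, |s| ≥ 3 / 8 → g s = 0

lemma perio_add_one (g : ℝ → ℝ) (s : ℝ) : perio g (s + 1) = perio g s := by
  unfold perio
  rw [round_add_one]
  push_cast
  congr 1
  ring

lemma perio_local {g : ℝ → ℝ} (hg : Centered g) {s₀ s : ℝ} (hs : |s - s₀| < 1 / 8) :
    perio g s = g (s - round s₀) := by
  unfold perio
  set n : ℤ := round s₀ with hn
  set n' : ℤ := round s with hn'
  by_cases h : n' = n
  · rw [h]
  · have h0 : |s₀ - (n : ℝ)| ≤ 1 / 2 := by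
      rw [hn]; exact abs_sub_round s₀
    have h1 : |s - (n' : ℝ)| ≤ 1 / 2 := by
      rw [hn']; exact abs_sub_round s
    have hd : (1 : ℝ) ≤ |(n' : ℝ) - (n : ℝ)| := by
      have : (1 : ℤ) ≤ |n' - n| := Int.one_le_abs (sub_ne_zero.mpr h)
      exact_mod_cast this
    have h2 : |s - (n : ℝ)| ≥ 3 / 8 := by
      have e1 : (n' : ℝ) - n = (s - n) - (s - n') := by ring
      have e2 := abs_sub (s - (n : ℝ)) (s - (n' : ℝ))
      rw [← e1] at e2
      linarith
    have h3 : |s - (n' : ℝ)| ≥ 3 / 8 := by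
      have e1 : (n' : ℝ) - n = (s₀ - n) + (s - s₀) - (s - n') := by ring
      have e2 := abs_sub ((s₀ - (n : ℝ)) + (s - s₀)) (s - (n' : ℝ))
      have e3 := abs_add_le (s₀ - (n : ℝ)) (s - s₀)
      rw [← e1] at e2
      linarith
    rw [hg _ h2, hg _ h3]

lemma perio_eventuallyEq {g : ℝ → ℝ} (hg : Centered g) (s₀ : ℝ) :
    perio g =ᶠ[𝓝 s₀] fun s => g (s - round s₀) := by
  have : ∀ᶠ s in 𝓝 s₀, |s - s₀| < 1 / 8 := by
    have h : Metric.ball s₀ (1 / 8) ∈ 𝓝 s₀ := Metric.ball_mem_nhds _ (by norm_num)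
    filter_upwards [h] with s hs
    simpa [Real.dist_eq] using hs
  filter_upwards [this] with s hs
  exact perio_local hg hs

lemma perio_contDiff {g : ℝ → ℝ} (hg : Centered g) (hs : ContDiff ℝ ∞ g) :
    ContDiff ℝ ∞ (perio g) := by
  rw [contDiff_iff_contDiffAt]
  intro s₀
  have h1 : ContDiffAt ℝ ∞ (fun s => g (s - round s₀)) s₀ :=
    (hs.comp (contDiff_id.sub contDiff_const)).contDiffAt
  exact h1.congr_of_eventuallyEq (perio_eventuallyEq hg s₀)

lemma perio_iteratedDeriv {g : ℝ → ℝ} (hg : Centered g) (m : ℕ) (s₀ : ℝ) :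
    iteratedDeriv m (perio g) s₀ = iteratedDeriv m g (s₀ - round s₀) := by
  rw [(perio_eventuallyEq hg s₀).iteratedDeriv_eq m, iteratedDeriv_comp_sub_const]

/-- The plateau parameters are admissible. -/
def PlateauValid (l r : ℝ) (w : ℕ) : Prop :=
  l ≤ r ∧ -(3 / 8) ≤ l - 1 / ((w : ℝ) + 1) ∧ r + 1 / ((w : ℝ) + 1) ≤ 3 / 8

lemma plateau_centered {l r : ℝ} {w : ℕ} (h : PlateauValid l r w) : Centered (plateau l r w) := by
  obtain ⟨hlr, h1, h2⟩ := h
  intro s hs
  have hw : (0 : ℝ) < (w : ℝ) + 1 := by positivity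
  have hδ : (1 / ((w : ℝ) + 1)) * ((w : ℝ) + 1) = 1 := by field_simp
  rcases le_abs'.mp hs with hs | hs
  · apply plateau_eq_zero_left hlr
    have : s - l ≤ -(1 / ((w : ℝ) + 1)) := by linarith
    nlinarith [mul_le_mul_of_nonneg_right this hw.le]
  · apply plateau_eq_zero_right hlr
    have : r - s ≤ -(1 / ((w : ℝ) + 1)) := by linarith
    nlinarith [mul_le_mul_of_nonneg_right this hw.le]

lemma mulId_centered {g : ℝ → ℝ} (h : Centered g) : Centered (fun s => s * g s) := by
  intro s hs
  simp [h s hs]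

/-- `s * plateau`: equals `s` on the plateau. -/
def qlateau (l r : ℝ) (w : ℕ) (s : ℝ) : ℝ := s * plateau l r w s

lemma qlateau_contDiff (l r : ℝ) (w : ℕ) : ContDiff ℝ ∞ (qlateau l r w) :=
  contDiff_id.mul (plateau_contDiff l r w)

/-- The closed form of the derivatives of the plateau. -/
def plateauD (l r : ℝ) (w m : ℕ) (s : ℝ) : ℝ :=
  ((w : ℝ) + 1) ^ m * iteratedDeriv m stepS ((s - l) * (w + 1) + 1)
    + (-((w : ℝ) + 1)) ^ m * iteratedDeriv m stepS ((r - s) * (w + 1) + 1)
    - (if m = 0 then 1 else 0)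

lemma plateau_iteratedDeriv (l r : ℝ) (w m : ℕ) (s : ℝ) :
    iteratedDeriv m (plateau l r w) s = plateauD l r w m s := by
  have hS : ∀ n : ℕ, ContDiff ℝ n stepS := fun n => stepS_contDiff.of_le (by exact_mod_cast le_top)
  -- affine substitution formula
  have key : ∀ (a b : ℝ) (s : ℝ), iteratedDeriv m (fun s => stepS (a * s + b)) s
      = a ^ m * iteratedDeriv m stepS (a * s + b) := by
    intro a b s
    have h2 : ContDiff ℝ m (fun y => stepS (y + b)) :=
      (hS m).comp (contDiff_id.add contDiff_const)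
    have h3 := congrFun (iteratedDeriv_comp_const_mul h2 a) s
    have h4 := congrFun (iteratedDeriv_comp_add_const m stepS b) (a * s)
    exact h3.trans (by rw [h4])
  have e1 : (fun s : ℝ => stepS ((s - l) * (w + 1) + 1))
      = fun s => stepS (((w : ℝ) + 1) * s + (1 - l * (w + 1))) := by
    funext s; congr 1; ring
  have e2 : (fun s : ℝ => stepS ((r - s) * (w + 1) + 1))
      = fun s => stepS ((-((w : ℝ) + 1)) * s + (1 + r * (w + 1))) := by
    funext s; congr 1; ring
  have cd1 : ContDiffAt ℝ m (fun s : ℝ => stepS ((s - l) * (w + 1) + 1)) s :=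
    ((hS m).comp (((contDiff_id.sub contDiff_const).mul contDiff_const).add contDiff_const)).contDiffAt
  have cd2 : ContDiffAt ℝ m (fun s : ℝ => stepS ((r - s) * (w + 1) + 1)) s :=
    ((hS m).comp (((contDiff_const.sub contDiff_id).mul contDiff_const).add contDiff_const)).contDiffAt
  have hadd : plateau l r w = fun s => (fun s => stepS ((s - l) * (w + 1) + 1)) s
      + ((fun s => stepS ((r - s) * (w + 1) + 1)) s + (fun _ => (-1 : ℝ)) s) := by
    funext s
    simp only [plateau]
    ring
  rw [hadd, iteratedDeriv_fun_add cd1 (cd2.add contDiffAt_const),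
    iteratedDeriv_fun_add cd2 contDiffAt_const, e1, e2, key, key]
  unfold plateauD
  have e3 : ((w : ℝ) + 1) * s + (1 - l * (w + 1)) = (s - l) * (w + 1) + 1 := by ring
  have e4 : (-((w : ℝ) + 1)) * s + (1 + r * (w + 1)) = (r - s) * (w + 1) + 1 := by ring
  rw [e3, e4, iteratedDeriv_const]
  by_cases hm : m = 0
  · simp [hm]; ring
  · simp [hm]

/-- The closed form of the derivatives of `qlateau`. -/
def qlateauD (l r : ℝ) (w m : ℕ) (s : ℝ) : ℝ :=
  s * plateauD l r w m s + (if m = 0 then 0 else (m : ℝ) * plateauD l r w (m - 1) s)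

lemma qlateauD_zero (l r : ℝ) (w : ℕ) (s : ℝ) :
    qlateauD l r w 0 s = s * plateauD l r w 0 s := by
  simp [qlateauD]

lemma qlateauD_succ (l r : ℝ) (w n : ℕ) (s : ℝ) :
    qlateauD l r w (n + 1) s
      = s * plateauD l r w (n + 1) s + ((n : ℝ) + 1) * plateauD l r w n s := by
  simp [qlateauD]

lemma qlateau_iteratedDeriv (l r : ℝ) (w m : ℕ) (s : ℝ) :
    iteratedDeriv m (qlateau l r w) s = qlateauD l r w m s := by
  have hd : ∀ n s, HasDerivAt (plateauD l r w n) (plateauD l r w (n + 1) s) s := by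
    intro n s
    have e : ∀ n, plateauD l r w n = iteratedDeriv n (plateau l r w) := fun n =>
      funext fun s => (plateau_iteratedDeriv l r w n s).symm
    rw [e, e, iteratedDeriv_succ]
    apply DifferentiableAt.hasDerivAt
    exact ((plateau_contDiff l r w).differentiable_iteratedDeriv n
      (by exact_mod_cast WithTop.coe_lt_top _)) s
  induction m generalizing s with
  | zero =>
    rw [iteratedDeriv_zero, qlateauD_zero, ← plateau_iteratedDeriv, iteratedDeriv_zero]
    rfl
  | succ m ih =>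
    rw [iteratedDeriv_succ]
    have h : iteratedDeriv m (qlateau l r w) = qlateauD l r w m := funext fun s => ih s
    rw [h]
    apply HasDerivAt.deriv
    cases m with
    | zero =>
      have h1 : HasDerivAt (fun y => y * plateauD l r w 0 y)
          (1 * plateauD l r w 0 s + s * plateauD l r w (0 + 1) s) s :=
        (hasDerivAt_id' s).mul (hd 0 s)
      have e : qlateauD l r w 0 = fun s => s * plateauD l r w 0 s :=
        funext fun s => qlateauD_zero l r w s
      rw [e, qlateauD_succ]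
      refine h1.congr_deriv ?_
      push_cast
      ring
    | succ n =>
      have h1 : HasDerivAt (fun y => y * plateauD l r w (n + 1) y)
          (1 * plateauD l r w (n + 1) s + s * plateauD l r w (n + 1 + 1) s) s :=
        (hasDerivAt_id' s).mul (hd (n + 1) s)
      have h2 := (hd n s).const_mul ((n : ℝ) + 1)
      have e : qlateauD l r w (n + 1)
          = fun s => s * plateauD l r w (n + 1) s + ((n : ℝ) + 1) * plateauD l r w n s :=
        funext fun s => qlateauD_succ l r w n s
      rw [e, qlateauD_succ]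
      refine (h1.add h2).congr_deriv ?_
      push_cast
      ring

end

end Vale.Agent.Lib.P113
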