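import Vale.Agent.Lib.P113.QArith
import Vale.Agent.Lib.P113.Factor

/-!
# Encoding of digit stacks by rationals; plateaus on cylinders
-/

open scoped ContDiff Topology
open Set Filter

namespace Vale.Agent.Lib.P113

/-- The code of the rational number encoding a digit stack in base `K`:
`enc [] = 0`, `enc (a :: l) = (2 a + enc l) / K`. -/
def encQ (K : ℕ) : List ℕ → QCode
  | [] => (0, 0, 0)
  | a :: l => QCode.mul (QCode.invSucc (K - 1)) (QCode.add (QCode.ofNat (2 * a)) (encQ K l))

/-- `u` is a (zero-padded) beginning of the stack `l`. -/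
def matchW : List ℕ → List ℕ → Prop
  | [], _ => True
  | a :: u, l => l.headD 0 = a ∧ matchW u l.tail

instance decMatchW : ∀ (u l : List ℕ), Decidable (matchW u l)
  | [], _ => isTrue trivial
  | a :: u, l =>
    haveI := decMatchW u l.tail
    inferInstanceAs (Decidable (l.headD 0 = a ∧ matchW u l.tail))

noncomputable section

/-- The encoding of a digit stack. -/
def enc (K : ℕ) (l : List ℕ) : ℝ := (encQ K l).val

lemma enc_nil (K : ℕ) : enc K [] = 0 := by simp [enc, encQ, QCode.val]

lemma enc_cons {K : ℕ} (hK : 0 < K) (a : ℕ) (l : List ℕ) :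
    enc K (a :: l) = (2 * (a : ℝ) + enc K l) / K := by
  simp only [enc, encQ, QCode.val_mul, QCode.val_add, QCode.val_invSucc, QCode.val_ofNat]
  have : ((K - 1 : ℕ) : ℝ) + 1 = K := by
    rw [Nat.cast_sub hK]; push_cast; ring
  rw [this]
  push_cast
  ring

/-- All digits are below `D`. -/
def Digits (D : ℕ) (l : List ℕ) : Prop := ∀ a ∈ l, a < D

lemma Digits.tail {D : ℕ} {l : List ℕ} (h : Digits D l) : Digits D l.tail := by
  intro a ha
  exact h a (List.mem_of_mem_tail ha)

lemma Digits.headD {D : ℕ} {l : List ℕ} (h : Digits D l) (hD : 0 < D) : l.headD 0 < D := by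
  cases l with
  | nil => simpa using hD
  | cons a t => simpa using h a (by simp)

lemma enc_top {K : ℕ} (hK : 0 < K) (l : List ℕ) :
    enc K l = (2 * (l.headD 0 : ℝ) + enc K l.tail) / K := by
  cases l with
  | nil => simp [enc_nil]
  | cons a t => simpa using enc_cons hK a t

/-- The base is large enough for the digits. -/
structure GoodBase (K D : ℕ) : Prop where
  pos : 0 < D
  big : 8 * D ≤ K

lemma GoodBase.K_pos {K D : ℕ} (h : GoodBase K D) : 0 < K := by
  have := h.pos; have := h.big; omega

lemma GoodBase.K_real {K D : ℕ} (h : GoodBase K D) : (0 : ℝ) < K := by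
  exact_mod_cast h.K_pos

lemma GoodBase.K_ge {K D : ℕ} (h : GoodBase K D) : (8 : ℝ) * D ≤ K := by
  exact_mod_cast h.big

lemma enc_nonneg {K D : ℕ} (h : GoodBase K D) (l : List ℕ) : 0 ≤ enc K l := by
  induction l with
  | nil => simp [enc_nil]
  | cons a t ih =>
    rw [enc_cons h.K_pos]
    have := h.K_real
    positivity

/-- The width bound: a cylinder stays below `1/4`. -/
lemma enc_add_width {K D : ℕ} (h : GoodBase K D) {l : List ℕ} (hl : Digits D l) :
    enc K l + 1 / (4 * (K : ℝ) ^ l.length) ≤ 1 / 4 := by
  induction l with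
  | nil => simp [enc_nil]
  | cons a t ih =>
    rw [enc_cons h.K_pos]
    have ih' := ih fun b hb => hl b (List.mem_cons_of_mem _ hb)
    have hK := h.K_real
    have hK8 := h.K_ge
    have ha : (a : ℝ) + 1 ≤ D := by
      exact_mod_cast hl a (by simp)
    have hD : (0 : ℝ) < D := by exact_mod_cast h.pos
    simp only [List.length_cons, pow_succ]
    have e : 1 / (4 * ((K : ℝ) ^ t.length * K)) = (1 / (4 * (K : ℝ) ^ t.length)) / K := by
      field_simp
    rw [e, ← add_div, div_le_iff₀ hK]
    nlinarith

lemma enc_lt {K D : ℕ} (h : GoodBase K D) {l : List ℕ} (hl : Digits D l) : enc K l < 1 / 4 := by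
  have h1 := enc_add_width h hl
  have hK := h.K_real
  have : (0 : ℝ) < 1 / (4 * (K : ℝ) ^ l.length) := by positivity
  linarith

/-- The stack after a matched beginning: the decomposition of the encoding. -/
lemma enc_of_match {K : ℕ} (hK : 0 < K) {u l : List ℕ} (h : matchW u l) :
    enc K l = enc K u + enc K (l.drop u.length) / (K : ℝ) ^ u.length := by
  induction u generalizing l with
  | nil => simp [enc_nil]
  | cons a u ih =>
    obtain ⟨h1, h2⟩ := h
    have hK' : (K : ℝ) ≠ 0 := by exact_mod_cast hK.ne'
    rw [enc_top hK l, ih h2, enc_cons hK, h1]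
    simp only [List.length_cons, pow_succ]
    have e : l.drop (u.length + 1) = l.tail.drop u.length := List.drop_tail.symm
    rw [e]
    field_simp
    ring

/-- The separation of an unmatched cylinder. -/
lemma enc_of_not_match {K D : ℕ} (h : GoodBase K D) {u l : List ℕ} (hu : Digits D u)
    (hl : Digits D l) (hn : ¬ matchW u l) :
    (enc K l - enc K u) * (8 * (K : ℝ) ^ u.length) ≤ -1 ∨
      (enc K u + 1 / (4 * (K : ℝ) ^ u.length) - enc K l) * (8 * (K : ℝ) ^ u.length) ≤ -1 := by
  have hK := h.K_real
  induction u generalizing l with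
  | nil => exact absurd trivial hn
  | cons a u ih =>
    have hu' : Digits D u := fun b hb => hu b (List.mem_cons_of_mem _ hb)
    have hl' : Digits D l.tail := hl.tail
    have τ0 := enc_nonneg h l.tail
    have τ1 := enc_lt h hl'
    have τ'0 := enc_nonneg h u
    have τ'1 := enc_lt h hu'
    rw [enc_top h.K_pos l, enc_cons h.K_pos]
    simp only [List.length_cons, pow_succ]
    have hp : (1 : ℝ) ≤ (K : ℝ) ^ u.length := by
      apply one_le_pow₀
      have := h.big; have := h.pos
      exact_mod_cast (by omega : 1 ≤ K)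
    set τ := enc K l.tail
    set τ' := enc K u
    set p := (K : ℝ) ^ u.length with hpdef
    have hpp : 0 < p := by linarith
    by_cases hb : l.headD 0 = a
    · have hn' : ¬ matchW u l.tail := fun hm => hn ⟨hb, hm⟩
      rcases ih hu' hl' hn' with h1 | h1
      · left
        rw [hb]
        have : ((2 * (a : ℝ) + τ) / K - (2 * (a : ℝ) + τ') / K) * (8 * (p * K)) = (τ - τ') * (8 * p) := by
          field_simp
          ring
        rw [this]
        exact h1
      · right
        rw [hb]
        have : ((2 * (a : ℝ) + τ') / K + 1 / (4 * (p * K)) - (2 * (a : ℝ) + τ) / K) * (8 * (p * K))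
            = (τ' + 1 / (4 * p) - τ) * (8 * p) := by
          field_simp
          ring
        rw [this]
        exact h1
    · rcases lt_or_gt_of_ne hb with hlt | hgt
      · left
        have h2 : ((l.headD 0 : ℕ) : ℝ) + 1 ≤ a := by exact_mod_cast hlt
        have : ((2 * ((l.headD 0 : ℕ) : ℝ) + τ) / K - (2 * (a : ℝ) + τ') / K) * (8 * (p * K))
            = (2 * ((l.headD 0 : ℕ) : ℝ) + τ - (2 * (a : ℝ) + τ')) * (8 * p) := by
          field_simp
        rw [this]
        nlinarith
      · right
        have h2 : (a : ℝ) + 1 ≤ ((l.headD 0 : ℕ) : ℝ) := by exact_mod_cast hgt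
        have : ((2 * (a : ℝ) + τ') / K + 1 / (4 * (p * K)) - (2 * ((l.headD 0 : ℕ) : ℝ) + τ) / K) * (8 * (p * K))
            = (2 * (a : ℝ) + τ' - (2 * ((l.headD 0 : ℕ) : ℝ) + τ)) * (8 * p) + 2 := by
          field_simp
          ring
        rw [this]
        nlinarith

end

/-! ### Factors -/

/-- A one-dimensional factor: kind (`0`: the constant `1`, `1`: plateau, `2`: `s * plateau`),
left end, right end, and `w` such that the margin is `1 / (w + 1)`. -/
abbrev Factor := ℕ × QCode × QCode × ℕ

noncomputable section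

/-- The function of a factor. -/
def factorFun (F : Factor) : ℝ → ℝ :=
  if F.1 = 0 then fun _ => 1
  else if F.1 = 1 then perio (plateau F.2.1.val F.2.2.1.val F.2.2.2)
  else perio (qlateau F.2.1.val F.2.2.1.val F.2.2.2)

/-- Validity of a factor. -/
def FactorValid (F : Factor) : Prop :=
  F.1 = 0 ∨ PlateauValid F.2.1.val F.2.2.1.val F.2.2.2

lemma qlateau_centered {l r : ℝ} {w : ℕ} (h : PlateauValid l r w) : Centered (qlateau l r w) :=
  mulId_centered (plateau_centered h)

lemma factorFun_contDiff {F : Factor} (h : FactorValid F) : ContDiff ℝ ∞ (factorFun F) := by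
  unfold factorFun
  split_ifs with h0 h1
  · exact contDiff_const
  · rcases h with h | h
    · omega
    · exact perio_contDiff (plateau_centered h) (plateau_contDiff _ _ _)
  · rcases h with h | h
    · omega
    · exact perio_contDiff (qlateau_centered h) (qlateau_contDiff _ _ _)

lemma factorFun_add_one (F : Factor) (s : ℝ) : factorFun F (s + 1) = factorFun F s := by
  unfold factorFun
  split_ifs
  · rfl
  · exact perio_add_one _ _
  · exact perio_add_one _ _

/-- The closed form of the derivatives of a factor. -/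
def factorD (F : Factor) (m : ℕ) (s : ℝ) : ℝ :=
  if F.1 = 0 then (if m = 0 then 1 else 0)
  else if F.1 = 1 then plateauD F.2.1.val F.2.2.1.val F.2.2.2 m (s - round s)
  else qlateauD F.2.1.val F.2.2.1.val F.2.2.2 m (s - round s)

lemma factorFun_iteratedDeriv {F : Factor} (h : FactorValid F) (m : ℕ) (s : ℝ) :
    iteratedDeriv m (factorFun F) s = factorD F m s := by
  by_cases h0 : F.1 = 0
  · simp only [factorFun, factorD, if_pos h0]
    rw [iteratedDeriv_const]
  · have hv : PlateauValid F.2.1.val F.2.2.1.val F.2.2.2 := by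
      rcases h with h | h
      · exact absurd h h0
      · exact h
    by_cases h1 : F.1 = 1
    · simp only [factorFun, factorD, if_neg h0, if_pos h1]
      rw [perio_iteratedDeriv (plateau_centered hv), plateau_iteratedDeriv]
    · simp only [factorFun, factorD, if_neg h0, if_neg h1]
      rw [perio_iteratedDeriv (qlateau_centered hv), qlateau_iteratedDeriv]

lemma perio_of_small (g : ℝ → ℝ) {s : ℝ} (h1 : -(1 / 2) < s) (h2 : s < 1 / 2) : perio g s = g s := by
  unfold perio
  have : round s = 0 := by
    rw [round_eq, Int.floor_eq_iff]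
    constructor <;> push_cast <;> linarith
  simp [this]

/-- The value of a plateau factor on the small range. -/
lemma factorFun_one {F : Factor} (h : F.1 = 1) {s : ℝ} (h1 : -(1 / 2) < s) (h2 : s < 1 / 2) :
    factorFun F s = plateau F.2.1.val F.2.2.1.val F.2.2.2 s := by
  unfold factorFun
  rw [if_neg (by omega), if_pos h]
  exact perio_of_small _ h1 h2

lemma factorFun_two {F : Factor} (h : F.1 = 2) {s : ℝ} (h1 : -(1 / 2) < s) (h2 : s < 1 / 2) :
    factorFun F s = s * plateau F.2.1.val F.2.2.1.val F.2.2.2 s := by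
  unfold factorFun
  rw [if_neg (by omega), if_neg (by omega)]
  exact perio_of_small _ h1 h2

/-- The constant factor. -/
def oneF : Factor := (0, (0, 0, 0), (0, 0, 0), 0)

lemma factorFun_oneF (s : ℝ) : factorFun oneF s = 1 := by
  simp [factorFun, oneF]

end

/-- The plateau factor of the cylinder of `u`. -/
def wordP (K : ℕ) (u : List ℕ) : Factor :=
  (1, encQ K u, QCode.add (encQ K u) (QCode.invSucc (4 * K ^ u.length - 1)), 8 * K ^ u.length - 1)

/-- The `s * plateau` factor of the cylinder of `u`. -/
def wordQ (K : ℕ) (u : List ℕ) : Factor :=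
  (2, encQ K u, QCode.add (encQ K u) (QCode.invSucc (4 * K ^ u.length - 1)), 8 * K ^ u.length - 1)

noncomputable section

lemma pow_pos_real {K : ℕ} (hK : 0 < K) (n : ℕ) : (0 : ℝ) < (K : ℝ) ^ n := by
  have : (0 : ℝ) < K := by exact_mod_cast hK
  positivity

lemma cast_mul_pow_sub_one {K : ℕ} (hK : 0 < K) (c n : ℕ) (hc : 0 < c) :
    (((c * K ^ n - 1 : ℕ) : ℝ)) + 1 = (c : ℝ) * (K : ℝ) ^ n := by
  have : 1 ≤ c * K ^ n := Nat.succ_le_of_lt (Nat.mul_pos hc (pow_pos hK n))
  rw [Nat.cast_sub this]
  push_cast
  ring

lemma wordP_right {K : ℕ} (hK : 0 < K) (u : List ℕ) :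
    (wordP K u).2.2.1.val = enc K u + 1 / (4 * (K : ℝ) ^ u.length) := by
  simp only [wordP, QCode.val_add, QCode.val_invSucc]
  rw [cast_mul_pow_sub_one hK 4 _ (by norm_num)]
  rfl

lemma wordQ_right {K : ℕ} (hK : 0 < K) (u : List ℕ) :
    (wordQ K u).2.2.1.val = enc K u + 1 / (4 * (K : ℝ) ^ u.length) := by
  simp only [wordQ, QCode.val_add, QCode.val_invSucc]
  rw [cast_mul_pow_sub_one hK 4 _ (by norm_num)]
  rfl

lemma wordP_w {K : ℕ} (hK : 0 < K) (u : List ℕ) :
    (((wordP K u).2.2.2 : ℕ) : ℝ) + 1 = 8 * (K : ℝ) ^ u.length := by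
  simp only [wordP]
  rw [cast_mul_pow_sub_one hK 8 _ (by norm_num)]
  norm_num

lemma wordP_valid {K D : ℕ} (h : GoodBase K D) {u : List ℕ} (hu : Digits D u) :
    FactorValid (wordP K u) := by
  right
  have hK := h.K_pos
  have hp := pow_pos_real hK u.length
  have hp1 : (1 : ℝ) ≤ (K : ℝ) ^ u.length := by
    apply one_le_pow₀
    exact_mod_cast hK
  refine ⟨?_, ?_, ?_⟩
  · rw [wordP_right hK]
    show enc K u ≤ _
    have : (0 : ℝ) < 1 / (4 * (K : ℝ) ^ u.length) := by positivity
    linarith
  · rw [wordP_w hK]
    show _ ≤ enc K u - _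
    have h0 := enc_nonneg h u
    have : 1 / (8 * (K : ℝ) ^ u.length) ≤ 1 / 8 := by
      apply one_div_le_one_div_of_le (by norm_num)
      linarith
    linarith
  · rw [wordP_w hK, wordP_right hK]
    have h0 := enc_add_width h hu
    have : 1 / (8 * (K : ℝ) ^ u.length) ≤ 1 / 8 := by
      apply one_div_le_one_div_of_le (by norm_num)
      linarith
    linarith

lemma wordQ_valid {K D : ℕ} (h : GoodBase K D) {u : List ℕ} (hu : Digits D u) :
    FactorValid (wordQ K u) := by
  rcases wordP_valid h hu with h' | h'
  · exact absurd h' (by simp [wordP])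
  · exact Or.inr h'

/-- The plateau factor on a stack. -/
lemma wordP_enc {K D : ℕ} (h : GoodBase K D) {u l : List ℕ} (hu : Digits D u) (hl : Digits D l) :
    factorFun (wordP K u) (enc K l) = if matchW u l then 1 else 0 := by
  have hK := h.K_pos
  have h0 := enc_nonneg h l
  have h1 := enc_lt h hl
  rw [factorFun_one rfl (by linarith) (by linarith)]
  have hp := pow_pos_real hK u.length
  split_ifs with hm
  · apply plateau_eq_one
    · show enc K u ≤ enc K l
      rw [enc_of_match hK hm]
      have := enc_nonneg h (l.drop u.length)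
      have : 0 ≤ enc K (l.drop u.length) / (K : ℝ) ^ u.length := by positivity
      linarith
    · rw [wordP_right hK]
      rw [enc_of_match hK hm]
      have h3 : Digits D (l.drop u.length) := fun a ha => hl a (List.mem_of_mem_drop ha)
      have h4 := enc_lt h h3
      have : enc K (l.drop u.length) / (K : ℝ) ^ u.length ≤ 1 / (4 * (K : ℝ) ^ u.length) := by
        rw [div_le_div_iff₀ hp (by positivity)]
        nlinarith
      linarith
  · have hlr : (wordP K u).2.1.val ≤ (wordP K u).2.2.1.val := by
      rw [wordP_right hK]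
      show enc K u ≤ _
      have : (0 : ℝ) < 1 / (4 * (K : ℝ) ^ u.length) := by positivity
      linarith
    rcases enc_of_not_match h hu hl hm with h2 | h2
    · apply plateau_eq_zero_left hlr
      rw [wordP_w hK]
      exact h2
    · apply plateau_eq_zero_right hlr
      rw [wordP_w hK, wordP_right hK]
      exact h2

/-- The `s * plateau` factor on a stack. -/
lemma wordQ_enc {K D : ℕ} (h : GoodBase K D) {u l : List ℕ} (hu : Digits D u) (hl : Digits D l) :
    factorFun (wordQ K u) (enc K l) = enc K l * (if matchW u l then 1 else 0) := by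
  have h0 := enc_nonneg h l
  have h1 := enc_lt h hl
  rw [factorFun_two rfl (by linarith) (by linarith)]
  rw [← wordP_enc h hu hl, factorFun_one rfl (by linarith) (by linarith)]
  rfl

end

end Vale.Agent.Lib.P113
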