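import Vale.Agent.Lib.P113.Shear

/-!
# Time-sequenced shear flows: exact solutions of the forced Navier-Stokes system
-/

open scoped ContDiff Topology
open Set Filter

namespace Vale.Agent.Lib.P113

noncomputable section

/-- A shear field: `A 0` is a smooth periodic function independent of the coordinate `d`,
and `A m` stands for its derivative `∂^m A 0`. -/
structure ShearField where
  d : Fin 3
  A : (Fin 3 → ℕ) → R3 → ℝ
  sys : IsDSys A
  periodic : ∀ m, SpacePeriodic (A m)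
  indep : ∀ m (x : R3) (s : ℝ), A m (x + s • e d) = A m x

/-- The shear velocity field. -/
def vec (F : ShearField) (x : R3) : R3 := F.A 0 x • e F.d

/-- The Laplacian of `A 0`. -/
def lapA (F : ShearField) (x : R3) : ℝ := ∑ i, F.A (Pi.single i 1 + Pi.single i 1) x

/-- The Laplacian of the shear velocity field. -/
def lapVec (F : ShearField) (x : R3) : R3 := lapA F x • e F.d

lemma ShearField.A_d_zero (F : ShearField) (m : Fin 3 → ℕ) (x : R3) :
    F.A (m + Pi.single F.d 1) x = 0 := by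
  rw [← F.sys.2]
  have h1 : HasFDerivAt (F.A m) (fderiv ℝ (F.A m) x) (x + (0 : ℝ) • e F.d) := by
    simpa using ((F.sys.1 m).differentiable (by simp) x).hasFDerivAt
  have h2 : HasDerivAt (fun s : ℝ => x + s • e F.d) (e F.d) 0 := by
    simpa using ((hasDerivAt_id' (0 : ℝ)).smul_const (e F.d)).const_add x
  have h3 := h1.comp_hasDerivAt (0 : ℝ) h2
  have h4 : (F.A m ∘ fun s : ℝ => x + s • e F.d) = fun _ => F.A m x := by
    funext s
    exact F.indep m x s
  rw [h4] at h3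
  exact h3.unique (hasDerivAt_const _ _)

lemma vec_contDiff (F : ShearField) : ContDiff ℝ ∞ (vec F) :=
  (F.sys.1 0).smul contDiff_const

lemma lapVec_contDiff (F : ShearField) : ContDiff ℝ ∞ (lapVec F) := by
  have h : ContDiff ℝ ∞ (fun x => lapA F x) := by
    unfold lapA
    exact ContDiff.sum fun i _ => F.sys.1 _
  exact h.smul contDiff_const

lemma vec_periodic (F : ShearField) : SpacePeriodic (vec F) := by
  intro i x
  simp [vec, F.periodic 0 i x]

lemma lapVec_periodic (F : ShearField) : SpacePeriodic (lapVec F) := by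
  intro i x
  simp [lapVec, lapA, F.periodic _ i x]

variable (Φ : ℤ → ShearField) (ν : ℝ)

/-- The velocity field of the flow: in the phase `[k, k+1)` it is `τ₁(t - k) vec (Φ k)`. -/
def Vel (t : ℝ) (x : R3) : R3 := tauT 1 (t - ⌊t⌋) • vec (Φ ⌊t⌋) x

/-- The force. -/
def Frc (t : ℝ) (x : R3) : R3 :=
  tauT 2 (t - ⌊t⌋) • vec (Φ ⌊t⌋) x - ν • (tauT 1 (t - ⌊t⌋) • lapVec (Φ ⌊t⌋) x)

lemma Vel_local (k : ℤ) {t : ℝ} (h1 : (k : ℝ) - 1 / 4 < t) (h2 : t < k + 1) (x : R3) :
    Vel Φ t x = tauT 1 (t - k) • vec (Φ k) x :=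
  glue_eq one_ne_zero (fun j => vec (Φ j) x) k h1 h2

lemma Frc_local (k : ℤ) {t : ℝ} (h1 : (k : ℝ) - 1 / 4 < t) (h2 : t < k + 1) (x : R3) :
    Frc Φ ν t x = tauT 2 (t - k) • vec (Φ k) x - ν • (tauT 1 (t - k) • lapVec (Φ k) x) := by
  unfold Frc
  rw [glue_eq two_ne_zero (fun j => vec (Φ j) x) k h1 h2,
    glue_eq one_ne_zero (fun j => lapVec (Φ j) x) k h1 h2]

lemma floor_mem_local (t : ℝ) : ((⌊t⌋ : ℤ) : ℝ) - 1 / 4 < t ∧ t < ((⌊t⌋ : ℤ) : ℝ) + 1 := by
  have h1 := Int.floor_le t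
  have h2 := Int.lt_floor_add_one t
  constructor <;> linarith

lemma local_eventually (t : ℝ) : ∀ᶠ s in 𝓝 t, ((⌊t⌋ : ℤ) : ℝ) - 1 / 4 < s ∧ s < ((⌊t⌋ : ℤ) : ℝ) + 1 := by
  obtain ⟨h1, h2⟩ := floor_mem_local t
  filter_upwards [Ioo_mem_nhds h1 h2] with s hs using hs

lemma local_eventually_fst (q : ℝ × R3) :
    ∀ᶠ p in 𝓝 q, ((⌊q.1⌋ : ℤ) : ℝ) - 1 / 4 < p.1 ∧ p.1 < ((⌊q.1⌋ : ℤ) : ℝ) + 1 :=
  continuousAt_fst.eventually (local_eventually q.1)

/-- The velocity is smooth on space-time. -/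
lemma Vel_contDiff : ContDiff ℝ ∞ (fun q : ℝ × R3 => Vel Φ q.1 q.2) := by
  rw [contDiff_iff_contDiffAt]
  intro q
  set k := ⌊q.1⌋
  have h1 : ContDiff ℝ ∞ (fun p : ℝ × R3 => tauT 1 (p.1 - k) • vec (Φ k) p.2) :=
    ((tauT_contDiff 1).comp (contDiff_fst.sub contDiff_const)).smul
      ((vec_contDiff _).comp contDiff_snd)
  refine h1.contDiffAt.congr_of_eventuallyEq ?_
  filter_upwards [local_eventually_fst q] with p hp
  exact Vel_local Φ k hp.1 hp.2 p.2

/-- The force is smooth on space-time. -/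
lemma Frc_contDiff : ContDiff ℝ ∞ (fun q : ℝ × R3 => Frc Φ ν q.1 q.2) := by
  rw [contDiff_iff_contDiffAt]
  intro q
  set k := ⌊q.1⌋
  have h1 : ContDiff ℝ ∞ (fun p : ℝ × R3 =>
      tauT 2 (p.1 - k) • vec (Φ k) p.2 - ν • (tauT 1 (p.1 - k) • lapVec (Φ k) p.2)) := by
    refine ContDiff.sub ?_ (ContDiff.const_smul ν ?_)
    · exact ((tauT_contDiff 2).comp (contDiff_fst.sub contDiff_const)).smul
        ((vec_contDiff _).comp contDiff_snd)
    · exact ((tauT_contDiff 1).comp (contDiff_fst.sub contDiff_const)).smul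
        ((lapVec_contDiff _).comp contDiff_snd)
  refine h1.contDiffAt.congr_of_eventuallyEq ?_
  filter_upwards [local_eventually_fst q] with p hp
  exact Frc_local Φ ν k hp.1 hp.2 p.2

lemma Vel_periodic (t : ℝ) : SpacePeriodic (Vel Φ t) := by
  intro i x
  simp [Vel, vec_periodic _ i x]

lemma Frc_periodic (t : ℝ) : SpacePeriodic (Frc Φ ν t) := by
  intro i x
  simp [Frc, vec_periodic _ i x, lapVec_periodic _ i x]

/-- The time derivative of the velocity. -/
lemma Vel_hasDerivAt (t : ℝ) (x : R3) :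
    HasDerivAt (fun s => Vel Φ s x) (tauT 2 (t - ⌊t⌋) • vec (Φ ⌊t⌋) x) t := by
  have h1 : HasDerivAt (fun s => tauT 1 (s - ⌊t⌋) • vec (Φ ⌊t⌋) x)
      (tauT 2 (t - ⌊t⌋) • vec (Φ ⌊t⌋) x) t := by
    have := (tauT_hasDerivAt 1 (t - ⌊t⌋)).comp_sub_const t (⌊t⌋ : ℝ)
    exact this.smul_const _
  refine h1.congr_of_eventuallyEq ?_
  filter_upwards [local_eventually t] with s hs
  exact Vel_local Φ ⌊t⌋ hs.1 hs.2 x

/-- The component functions of the velocity at a fixed time. -/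
lemma Vel_comp (t : ℝ) (j : Fin 3) :
    (fun y => Vel Φ t y j) = fun y => (tauT 1 (t - ⌊t⌋) * e (Φ ⌊t⌋).d j) * (Φ ⌊t⌋).A 0 y := by
  funext y
  simp only [Vel, vec, Pi.smul_apply, smul_eq_mul]
  ring

lemma ShearField.pd_const_mul (F : ShearField) (c : ℝ) (m : Fin 3 → ℕ) (i : Fin 3) :
    pd i (fun y => c * F.A m y) = fun x => c * F.A (m + Pi.single i 1) x := by
  funext x
  have := (F.sys.const_mul c).2 m i x
  exact this

lemma pd_zero_fun (i : Fin 3) (x : R3) : pd i (fun _ => (0 : ℝ)) x = 0 := by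
  simp [pd]

/-- The explicit flow is a classical solution. -/
theorem Vel_classical {T : ℝ} (hT : 0 < T) :
    IsClassicalSolution ν (Frc Φ ν) T (Vel Φ) (fun _ _ => 0) := by
  have hU := Vel_contDiff Φ
  have hunc : ContDiff ℝ ∞ (Function.uncurry (fun (q : ℝ × R3) (y : R3) => Vel Φ q.1 y)) := by
    exact hU.comp ((contDiff_fst.comp contDiff_fst).prodMk contDiff_snd)
  have hdU : ContDiff ℝ ∞ (fun q : ℝ × R3 => fderiv ℝ (Vel Φ q.1) q.2) :=
    ContDiff.fderiv (m := ∞) (n := ∞) hunc contDiff_snd (by simp)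
  have hunc2 : ContDiff ℝ ∞ (Function.uncurry (fun (q : ℝ × R3) (y : R3) => fderiv ℝ (Vel Φ q.1) y)) := by
    exact hdU.comp ((contDiff_fst.comp contDiff_fst).prodMk contDiff_snd)
  have hddU : ContDiff ℝ ∞ (fun q : ℝ × R3 => fderiv ℝ (fderiv ℝ (Vel Φ q.1)) q.2) :=
    ContDiff.fderiv (m := ∞) (n := ∞) hunc2 contDiff_snd (by simp)
  have hslice : ∀ t, ContDiff ℝ ∞ (Vel Φ t) := fun t =>
    hU.comp (contDiff_const.prodMk contDiff_id)
  have hmem : ∀ t ∈ Icc 0 T, UniqueDiffWithinAt ℝ (Icc 0 T) t := fun t ht =>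
    uniqueDiffOn_Icc hT t ht
  have hdw : ∀ t ∈ Icc 0 T, ∀ x, derivWithin (fun s => Vel Φ s x) (Icc 0 T) t
      = tauT 2 (t - ⌊t⌋) • vec (Φ ⌊t⌋) x := fun t ht x =>
    (Vel_hasDerivAt Φ t x).hasDerivWithinAt.derivWithin (hmem t ht)
  have hdt_cont : Continuous (fun q : ℝ × R3 => fderiv ℝ (fun p : ℝ × R3 => Vel Φ p.1 p.2) q (1, 0)) :=
    (hU.continuous_fderiv (by simp)).clm_apply continuous_const
  have hdt_eq : ∀ q : ℝ × R3, fderiv ℝ (fun p : ℝ × R3 => Vel Φ p.1 p.2) q (1, 0)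
      = tauT 2 (q.1 - ⌊q.1⌋) • vec (Φ ⌊q.1⌋) q.2 := by
    intro q
    have h1 : HasFDerivAt (fun p : ℝ × R3 => Vel Φ p.1 p.2)
        (fderiv ℝ (fun p : ℝ × R3 => Vel Φ p.1 p.2) q) (q.1, q.2) :=
      (hU.differentiable (by simp) q).hasFDerivAt
    have h2 : HasDerivAt (fun s : ℝ => (s, q.2)) ((1 : ℝ), (0 : R3)) q.1 :=
      (hasDerivAt_id' q.1).prodMk (hasDerivAt_const _ _)
    have h3 := h1.comp_hasDerivAt q.1 h2
    exact h3.unique (Vel_hasDerivAt Φ q.1 q.2)
  refine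
    { periodic_u := fun t _ => Vel_periodic Φ t
      periodic_p := fun _ _ _ _ => rfl
      contDiff_u := fun t _ => (hslice t).of_le (WithTop.coe_le_coe.mpr (le_top : (2 : ℕ∞) ≤ ⊤))
      contDiff_p := fun _ _ => contDiff_const
      cont_u := hU.continuous.continuousOn
      cont_du := hdU.continuous.continuousOn
      cont_ddu := hddU.continuous.continuousOn
      cont_p := continuousOn_const
      cont_dp := by simpa using continuousOn_const
      diff_time := fun t _ x => (Vel_hasDerivAt Φ t x).differentiableAt.differentiableWithinAt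
      cont_dt := ?_
      momentum := ?_
      incompressible := ?_
      initial := ?_
      mean_zero := by simp }
  · refine hdt_cont.continuousOn.congr ?_
    rintro ⟨t, x⟩ ⟨ht, -⟩
    simp only at ht
    simp only
    rw [hdw t ht x, hdt_eq]
  · intro t ht x j
    set F := Φ ⌊t⌋ with hF
    have hpd : ∀ (i : Fin 3), pd i (fun y => Vel Φ t y j)
        = fun x => (tauT 1 (t - ⌊t⌋) * e F.d j) * F.A (0 + Pi.single i 1) x := by
      intro i
      rw [Vel_comp, ← hF, ShearField.pd_const_mul]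
    have h1 : ∑ i, Vel Φ t x i * pd i (fun y => Vel Φ t y j) x = 0 := by
      apply Finset.sum_eq_zero
      intro i _
      rw [hpd]
      by_cases hi : i = F.d
      · rw [hi]
        have h0 : F.A (Pi.single F.d 1) x = 0 := by simpa using F.A_d_zero 0 x
        simp [h0]
      · have : e F.d i = 0 := by simp [e, Ne.symm hi]
        simp [Vel, vec, ← hF, this]
    have h2 : ∑ i, pd i (pd i (fun y => Vel Φ t y j)) x
        = (tauT 1 (t - ⌊t⌋) * e F.d j) * lapA F x := by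
      rw [lapA, Finset.mul_sum]
      apply Finset.sum_congr rfl
      intro i _
      rw [hpd, ShearField.pd_const_mul]
      simp
    rw [h1, h2, hdw t ht x]
    have h3 : pd j (fun _ : R3 => (0 : ℝ)) x = 0 := pd_zero_fun j x
    simp only [Frc, vec, lapVec, ← hF, Pi.smul_apply, Pi.sub_apply, smul_eq_mul]
    rw [h3]
    ring
  · intro t _ x
    apply Finset.sum_eq_zero
    intro i _
    rw [Vel_comp]
    rw [ShearField.pd_const_mul]
    by_cases hi : i = (Φ ⌊t⌋).d
    · rw [hi]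
      have h0 : (Φ ⌊t⌋).A (Pi.single (Φ ⌊t⌋).d 1) x = 0 := by
        simpa using (Φ ⌊t⌋).A_d_zero 0 x
      simp [h0]
    · have : e (Φ ⌊t⌋).d i = 0 := by simp [e, Ne.symm hi]
      simp [this]
  · intro x
    have : tauT 1 0 = 0 := tauT_of_lt one_ne_zero (by norm_num)
    simp [Vel, this]

/-- The force is the mixed derivative computed by the formula below. -/
theorem Frc_mixedDeriv (n m₀ m₁ m₂ : ℕ) (j : Fin 3) (t x₀ x₁ x₂ : ℝ) :
    mixedDeriv n m₀ m₁ m₂ (fun s y => Frc Φ ν s y j) t ![x₀, x₁, x₂]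
      = tauT (n + 2) (t - ⌊t⌋) * (e (Φ ⌊t⌋).d j * (Φ ⌊t⌋).A (orderVec m₀ m₁ m₂) ![x₀, x₁, x₂])
        - ν * (tauT (n + 1) (t - ⌊t⌋) * (e (Φ ⌊t⌋).d j *
          ∑ i, (Φ ⌊t⌋).A ((Pi.single i 1 + Pi.single i 1) + orderVec m₀ m₁ m₂) ![x₀, x₁, x₂])) := by
  set k := ⌊t⌋ with hk
  set F := Φ k with hF
  set a := e F.d j with ha
  set Ca := F.A (orderVec m₀ m₁ m₂) ![x₀, x₁, x₂] with hCa
  set Cb := ∑ i, F.A ((Pi.single i 1 + Pi.single i 1) + orderVec m₀ m₁ m₂) ![x₀, x₁, x₂] with hCb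
  unfold mixedDeriv
  simp only [Matrix.cons_val_zero, Matrix.cons_val_one, Matrix.cons_val]
  have hgerm : (fun s => iteratedDeriv m₀ (fun y₀ => iteratedDeriv m₁ (fun y₁ =>
      iteratedDeriv m₂ (fun y₂ => Frc Φ ν s ![y₀, y₁, y₂] j) x₂) x₁) x₀)
      =ᶠ[𝓝 t] fun s => tauT 2 (s - k) * (a * Ca) - ν * (tauT 1 (s - k) * (a * Cb)) := by
    filter_upwards [local_eventually t] with s hs
    set c₂ := tauT 2 (s - k) with hc₂
    set c₁ := tauT 1 (s - k) with hc₁
    -- the system of derivatives of the component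
    let B : (Fin 3 → ℕ) → R3 → ℝ := fun m y =>
      (c₂ * a) * F.A m y + ∑ i, (-(ν * c₁ * a)) * F.A ((Pi.single i 1 + Pi.single i 1) + m) y
    have hB : IsDSys B :=
      (F.sys.const_mul _).add (IsDSys.sum Finset.univ fun i _ => (F.sys.shift _).const_mul _)
    have hfun : ∀ y : R3, Frc Φ ν s y j = B 0 y := by
      intro y
      rw [Frc_local Φ ν k hs.1 hs.2 y]
      simp only [B, vec, lapVec, lapA, Pi.sub_apply, Pi.smul_apply, smul_eq_mul, add_zero,
        ← Finset.mul_sum]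
      rw [← hF, ← ha]
      ring
    simp only [hfun]
    rw [hB.nested]
    simp only [B, ← Finset.mul_sum]
    rw [← hCa, ← hCb]
    ring
  rw [hgerm.iteratedDeriv_eq n]
  have hshift : ∀ m : ℕ, iteratedDeriv n (fun s => tauT m (s - k)) t = tauT (n + m) (t - k) := by
    intro m
    rw [iteratedDeriv_comp_sub_const]
    exact iteratedDeriv_tauT n m _
  have e1 : (fun s => tauT 2 (s - k) * (a * Ca) - ν * (tauT 1 (s - k) * (a * Cb)))
      = (fun s => tauT 2 (s - k) * (a * Ca)) - (fun s => tauT 1 (s - k) * (ν * (a * Cb))) := by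
    funext s
    simp only [Pi.sub_apply]
    ring
  have hc : ∀ m : ℕ, ContDiff ℝ ∞ (fun s => tauT m (s - k)) := fun m =>
    (tauT_contDiff m).comp (contDiff_id.sub contDiff_const)
  have hc' : ∀ (m : ℕ) (c : ℝ), ContDiffAt ℝ n (fun s => tauT m (s - k) * c) t := fun m c =>
    (((hc m).mul contDiff_const).of_le (by exact_mod_cast le_top)).contDiffAt
  rw [e1, iteratedDeriv_sub (hc' _ _) (hc' _ _), iteratedDeriv_mul_const_field,
    iteratedDeriv_mul_const_field, hshift, hshift]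
  ring

end

end Vale.Agent.Lib.P113
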