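import Vale.Agent.Lib.P113.Phases

/-!
# The orbit of the encoded configurations under the flow
-/

namespace Vale.Agent.Lib.P113

open QCode

noncomputable section

lemma sumI_nil (m : Fin 3 → ℕ) (x : R3) : sumI [] m x = 0 := by simp [sumI]

lemma sumI_cons (T : Term) (L : List Term) (m : Fin 3 → ℕ) (x : R3) :
    sumI (T :: L) m x = termI T m x + sumI L m x := by simp [sumI]

lemma sumI_append (L L' : List Term) (m : Fin 3 → ℕ) (x : R3) :
    sumI (L ++ L') m x = sumI L m x + sumI L' m x := by simp [sumI]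

lemma sumI_flatMap_range (n : ℕ) (g : ℕ → List Term) (m : Fin 3 → ℕ) (x : R3) :
    sumI ((List.range n).flatMap g) m x = ∑ i ∈ Finset.range n, sumI (g i) m x := by
  induction n with
  | zero => simp [sumI_nil]
  | succ n ih =>
    rw [List.range_succ, List.flatMap_append, sumI_append, ih, Finset.sum_range_succ]
    simp [sumI_nil]

@[simp] lemma val_powQ (K : ℕ) (u : List ℕ) : (powQ K u).val = (K : ℝ) ^ u.length := by
  simp [powQ]

lemma val_ipowQ {K : ℕ} (hK : 0 < K) (u : List ℕ) : (ipowQ K u).val = 1 / (K : ℝ) ^ u.length := by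
  have : 1 ≤ K ^ u.length := Nat.succ_le_of_lt (pow_pos hK _)
  simp only [ipowQ, val_invSucc]
  rw [Nat.cast_sub this]
  push_cast
  ring_nf

lemma val_cylC (K : ℕ) (ε h : QCode) (P B : List ℕ) :
    (cylC K ε h P B).val
      = h.val - ε.val * (K : ℝ) ^ P.length * enc K P - ε.val * (K : ℝ) ^ B.length * enc K B := by
  simp [cylC, enc]

lemma val_shiftC {K : ℕ} (hK : 0 < K) (oe h : QCode) (P U B : List ℕ) :
    (shiftC K oe h P U B).val = (enc K U - enc K P)
      + (1 / (K : ℝ) ^ U.length - 1 / (K : ℝ) ^ P.length)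
        * ((K : ℝ) ^ B.length * enc K B - h.val * oe.val) := by
  simp [shiftC, enc, val_ipowQ hK]

lemma factorFun_qAll {s : ℝ} (h0 : 0 ≤ s) (h1 : s ≤ 1 / 4) : factorFun qAll s = s := by
  rw [factorFun_two rfl (by linarith) (by linarith)]
  rw [plateau_eq_one]
  · ring
  · have e0 : (qAll.2.1).val = 0 := by
      simp [qAll, QCode.val]
    rw [e0]
    exact h0
  · have e1 : (qAll.2.2.1).val = 1 / 4 := by
      simp only [qAll, QCode.val]
      norm_num
    rw [e1]
    exact h1

/-- Evaluation of the cylinder terms on stacks. -/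
lemma cyl_eval {K D : ℕ} (g : GoodBase K D) (ε h : QCode) {P B X Y : List ℕ}
    (hP : Digits D P) (hB : Digits D B) (hX : Digits D X) (hY : Digits D Y) (z : ℝ) :
    sumI (cylTerms K ε h P B) 0 ![enc K X, enc K Y, z]
      = (if matchW P X then 1 else 0) * (if matchW B Y then 1 else 0) *
        ((cylC K ε h P B).val + ε.val * (K : ℝ) ^ P.length * enc K X
          + ε.val * (K : ℝ) ^ B.length * enc K Y) := by
  simp only [cylTerms, sumI_cons, sumI_nil, termI_zero, Matrix.cons_val_zero, Matrix.cons_val_one,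
    Matrix.cons_val, factorFun_oneF, wordP_enc g hP hX, wordP_enc g hB hY, wordQ_enc g hP hX,
    wordQ_enc g hB hY, val_mul, val_powQ]
  ring

lemma negCyl_eval {K D : ℕ} (g : GoodBase K D) (ε h : QCode) {P B X Y : List ℕ}
    (hP : Digits D P) (hB : Digits D B) (hX : Digits D X) (hY : Digits D Y) (z : ℝ) :
    sumI (negCylTerms K ε h P B) 0 ![enc K X, enc K Y, z]
      = - ((if matchW P X then 1 else 0) * (if matchW B Y then 1 else 0) *
        ((cylC K ε h P B).val + ε.val * (K : ℝ) ^ P.length * enc K X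
          + ε.val * (K : ℝ) ^ B.length * enc K Y)) := by
  simp only [negCylTerms, sumI_cons, sumI_nil, termI_zero, Matrix.cons_val_zero, Matrix.cons_val_one,
    Matrix.cons_val, factorFun_oneF, wordP_enc g hP hX, wordP_enc g hB hY, wordQ_enc g hP hX,
    wordQ_enc g hB hY, val_mul, val_powQ, val_neg]
  ring

/-- The plateau of a band against `s * plateau` of the same band. -/
lemma bandQ_eq (M : Machine) (i : ℕ) {s : ℝ} (h1 : -(1 / 2) < s) (h2 : s < 1 / 2) :
    factorFun (bandQ M i) s = s * factorFun (bandP M i) s := by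
  rw [factorFun_two rfl h1 h2, factorFun_one rfl h1 h2]
  rfl

/-- Evaluation of the shift terms on a stack, at height `z`. -/
lemma x_eval {K : ℕ} (M : Machine) (i : ℕ) (oe h : QCode) {y z : ℝ} (a : ℝ)
    (hy0 : 0 ≤ y) (hy1 : y ≤ 1 / 4)
    (hz1 : -(1 / 2) < z) (hz2 : z < 1 / 2) (P U B : List ℕ) :
    sumI (xTerms K oe h (bandP M i) (bandQ M i) P U B) 0 ![a, y, z]
      = factorFun (bandP M i) z * ((shiftC K oe h P U B).val
        + (mul (sub (ipowQ K U) (ipowQ K P)) oe).val * z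
        - (mul (sub (ipowQ K U) (ipowQ K P)) (powQ K B)).val * y) := by
  simp only [xTerms, sumI_cons, sumI_nil, termI_zero, Matrix.cons_val_zero, Matrix.cons_val_one,
    Matrix.cons_val, factorFun_oneF, bandQ_eq M i hz1 hz2, factorFun_qAll hy0 hy1, val_neg]
  ring

lemma y_eval {K : ℕ} (M : Machine) (i : ℕ) (oe h : QCode) {x z : ℝ} (b : ℝ)
    (hx0 : 0 ≤ x) (hx1 : x ≤ 1 / 4)
    (hz1 : -(1 / 2) < z) (hz2 : z < 1 / 2) (B V U : List ℕ) :
    sumI (yTerms K oe h (bandP M i) (bandQ M i) B V U) 0 ![x, b, z]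
      = factorFun (bandP M i) z * ((shiftC K oe h B V U).val
        + (mul (sub (ipowQ K V) (ipowQ K B)) oe).val * z
        - (mul (sub (ipowQ K V) (ipowQ K B)) (powQ K U)).val * x) := by
  simp only [yTerms, sumI_cons, sumI_nil, termI_zero, Matrix.cons_val_zero, Matrix.cons_val_one,
    Matrix.cons_val, factorFun_oneF, bandQ_eq M i hz1 hz2, factorFun_qAll hx0 hx1, val_neg]
  ring

/-- Band selection. -/
lemma band_select (M : Machine) {i₀ i : ℕ} (hi₀ : i₀ < numRows M) {t : ℝ} (ht0 : 0 ≤ t)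
    (ht1 : t < 1 / 2) :
    factorFun (bandP M i) ((hQ M i₀).val + (epsQ M).val * t) = if i = i₀ then 1 else 0 := by
  have hN := numRows_cast_pos M
  have hiN : (i₀ : ℝ) + 1 ≤ numRows M := by exact_mod_cast hi₀
  have hi0 : (0 : ℝ) ≤ i₀ := Nat.cast_nonneg i₀
  set n : ℝ := (numRows M : ℝ) + 1 with hn
  have hn1 : (1 : ℝ) ≤ n := by
    have : (0 : ℝ) ≤ numRows M := Nat.cast_nonneg _
    linarith
  set ε : ℝ := 1 / (8 * n) with hε
  have hε0 : 0 < ε := by positivity
  have hεn : ε * (64 * n) = 8 := by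
    rw [hε]; field_simp; norm_num
  have hε8 : ε * (8 * n) = 1 := by
    rw [hε]; field_simp
  have hz : (hQ M i₀).val + (epsQ M).val * t = ((i₀ : ℝ) + 1) * ε + ε * t := by
    rw [val_hQ, val_epsQ, ← hn]
  rw [hz]
  set z := ((i₀ : ℝ) + 1) * ε + ε * t with hzdef
  have hzpos : 0 ≤ z := by positivity
  have hz2 : z < 1 / 2 := by
    have h1 : ((i₀ : ℝ) + 1) * ε ≤ (n - 1) * ε := by
      apply mul_le_mul_of_nonneg_right _ hε0.le
      linarith
    have h2 : n * ε = 1 / 8 := by
      rw [hε]; field_simp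
    have h3 : ε * t ≤ ε * (1 / 2) := mul_le_mul_of_nonneg_left ht1.le hε0.le
    nlinarith
  rw [factorFun_one rfl (by linarith) hz2]
  simp only [bandP]
  have hr : (add (hQ M i) (invSucc (16 * (numRows M + 1) - 1))).val = ((i : ℝ) + 1) * ε + ε / 2 := by
    rw [band_r, ← hn]
    have : 1 / (16 * n) = ε / 2 := by
      rw [hε]; field_simp; norm_num
    rw [this]
  have hl : (hQ M i).val = ((i : ℝ) + 1) * ε := by
    rw [val_hQ, ← hn]
  rw [hr, hl]
  by_cases hii : i = i₀
  · subst hii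
    rw [if_pos rfl]
    apply plateau_eq_one
    · have : 0 ≤ ε * t := by positivity
      linarith
    · have h3 : ε * t ≤ ε * (1 / 2) := mul_le_mul_of_nonneg_left ht1.le hε0.le
      linarith
  · rw [if_neg hii]
    have hlr : ((i : ℝ) + 1) * ε ≤ ((i : ℝ) + 1) * ε + ε / 2 := by linarith
    have hw : ((64 * (numRows M + 1) - 1 : ℕ) : ℝ) + 1 = 64 * n := band_w M
    rcases Nat.lt_or_gt_of_ne hii with hlt | hgt
    · -- `i < i₀`: the right part
      apply plateau_eq_zero_right hlr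
      rw [hw]
      have hle : (i : ℝ) + 1 ≤ i₀ := by exact_mod_cast hlt
      have h4 : ((i : ℝ) + 1) * ε ≤ (i₀ : ℝ) * ε := mul_le_mul_of_nonneg_right hle hε0.le
      have h5 : 0 ≤ ε * t := by positivity
      have h6 : ((i : ℝ) + 1) * ε + ε / 2 - z ≤ - (ε / 2) := by
        rw [hzdef]
        nlinarith
      have h7 : (0 : ℝ) < 64 * n := by positivity
      calc (((i : ℝ) + 1) * ε + ε / 2 - z) * (64 * n) ≤ (-(ε / 2)) * (64 * n) :=
            mul_le_mul_of_nonneg_right h6 h7.le
        _ = -4 := by linarith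
        _ ≤ -1 := by norm_num
    · -- `i₀ < i`: the left part
      apply plateau_eq_zero_left hlr
      rw [hw]
      have hle : (i₀ : ℝ) + 1 ≤ i := by exact_mod_cast hgt
      have h4 : ((i₀ : ℝ) + 1) * ε ≤ (i : ℝ) * ε := mul_le_mul_of_nonneg_right hle hε0.le
      have h3 : ε * t ≤ ε * (1 / 2) := mul_le_mul_of_nonneg_left ht1.le hε0.le
      have h6 : z - ((i : ℝ) + 1) * ε ≤ - (ε / 2) := by
        rw [hzdef]
        nlinarith
      have h7 : (0 : ℝ) < 64 * n := by positivity
      calc (z - ((i : ℝ) + 1) * ε) * (64 * n) ≤ (-(ε / 2)) * (64 * n) :=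
            mul_le_mul_of_nonneg_right h6 h7.le
        _ = -4 := by linarith
        _ ≤ -1 := by norm_num

/-! ### Arithmetic of one row -/

lemma lift_alg {h ε vP vB pP pB ξ η : ℝ} (hp : pP ≠ 0) (hb : pB ≠ 0) :
    (h - ε * pP * vP - ε * pB * vB) + ε * pP * (vP + ξ / pP) + ε * pB * (vB + η / pB)
      = h + ε * (ξ + η) := by
  field_simp
  ring

lemma shift_alg {h ε oe vP vU vB pP pU pB ξ η : ℝ} (hp : pP ≠ 0) (hu : pU ≠ 0) (hb : pB ≠ 0)
    (hoe : oe * ε = 1) :
    (vP + ξ / pP) + (((vU - vP) + (1 / pU - 1 / pP) * (pB * vB - h * oe))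
        + ((1 / pU - 1 / pP) * oe) * (h + ε * (ξ + η))
        - ((1 / pU - 1 / pP) * pB) * (vB + η / pB))
      = vU + ξ / pU := by
  have e1 : ((1 / pU - 1 / pP) * oe) * (h + ε * (ξ + η))
      = (1 / pU - 1 / pP) * (oe * h + (oe * ε) * (ξ + η)) := by ring
  rw [e1, hoe]
  have e2 : ((1 / pU - 1 / pP) * pB) * (vB + η / pB)
      = (1 / pU - 1 / pP) * (pB * vB + η) := by
    field_simp
  rw [e2]
  field_simp
  ring

end

end Vale.Agent.Lib.P113
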