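import Vale.Agent.Lib.P113.Flow

/-!
# Trajectories of the time-sequenced shear flows
-/

open scoped ContDiff Topology
open Set Filter

namespace Vale.Agent.Lib.P113

noncomputable section

variable (Φ : ℤ → ShearField)

/-- The positions at integer times. -/
def pos (a : R3) : ℕ → R3
  | 0 => a
  | n + 1 => pos a n + vec (Φ n) (pos a n)

/-- The trajectory. -/
def traj (a : R3) (t : ℝ) : R3 :=
  pos Φ a ⌊t⌋₊ + timeP (t - ⌊t⌋₊) • vec (Φ ⌊t⌋₊) (pos Φ a ⌊t⌋₊)

lemma timeP_zero : timeP 0 = 0 := timeP_of_le (by norm_num)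
lemma timeP_one : timeP 1 = 1 := timeP_of_ge (by norm_num)

lemma traj_local (a : R3) (n : ℕ) {s : ℝ} (h0 : 0 ≤ s) (h1 : (n : ℝ) - 1 / 4 < s)
    (h2 : s < n + 1) :
    traj Φ a s = pos Φ a n + timeP (s - n) • vec (Φ n) (pos Φ a n) := by
  unfold traj
  by_cases h : (n : ℝ) ≤ s
  · have : ⌊s⌋₊ = n := (Nat.floor_eq_iff h0).mpr ⟨h, h2⟩
    rw [this]
  · have h := not_le.mp h
    cases n with
    | zero =>
      exfalso
      simp at h
      linarith
    | succ m =>
      push_cast at h h1 h2
      have : ⌊s⌋₊ = m := (Nat.floor_eq_iff h0).mpr ⟨by linarith, by linarith⟩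
      rw [this, timeP_of_ge (s := s - m) (by linarith), timeP_of_le (s := s - ((m + 1 : ℕ) : ℝ))
        (by push_cast; linarith)]
      simp [pos]

lemma traj_on (a : R3) (n : ℕ) {t : ℝ} (h1 : (n : ℝ) ≤ t) (h2 : t ≤ n + 1) :
    traj Φ a t = pos Φ a n + timeP (t - n) • vec (Φ n) (pos Φ a n) := by
  rcases lt_or_eq_of_le h2 with h2 | h2
  · exact traj_local Φ a n (le_trans (Nat.cast_nonneg n) h1) (by linarith) h2
  · have := traj_local Φ a (n + 1) (s := t) (by rw [h2]; positivity)
      (by push_cast; linarith) (by push_cast; linarith)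
    rw [this, h2]
    have e : ((n : ℝ) + 1 - ((n + 1 : ℕ) : ℝ)) = 0 := by push_cast; ring
    have e' : ((n : ℝ) + 1 - (n : ℝ)) = 1 := by ring
    rw [e, e', timeP_zero, timeP_one]
    simp [pos]

lemma vec_pos_add_smul (F : ShearField) (x : R3) (c : ℝ) :
    vec F (x + c • vec F x) = vec F x := by
  have : x + c • vec F x = x + (c * F.A 0 x) • e F.d := by
    simp [vec, smul_smul]
  unfold vec at *
  rw [this, F.indep]

/-- The explicit trajectory is a trajectory. -/
theorem traj_isTrajectory (a : R3) : IsTrajectory (Vel Φ) a (traj Φ a) := by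
  constructor
  · simp [traj, pos, timeP_zero]
  · intro t ht
    set n := ⌊t⌋₊ with hn
    have hn1 : (n : ℝ) ≤ t := Nat.floor_le ht
    have hn2 : t < n + 1 := Nat.lt_floor_add_one t
    have hfl : ⌊t⌋ = (n : ℤ) := by
      rw [hn]
      exact (Int.natCast_floor_eq_floor ht).symm
    have hval : Vel Φ t (traj Φ a t) = tauT 1 (t - n) • vec (Φ n) (pos Φ a n) := by
      rw [Vel, hfl, traj_local Φ a n ht (by linarith) hn2, vec_pos_add_smul]
      simp
    rw [hval]
    have h1 : HasDerivAt (fun s : ℝ => pos Φ a n + timeP (s - n) • vec (Φ n) (pos Φ a n))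
        (tauT 1 (t - n) • vec (Φ n) (pos Φ a n)) t := by
      have h2 : HasDerivAt timeP (tauT 1 (t - n)) (t - n) := by
        have := tauT_hasDerivAt 0 (t - n)
        have e0 : tauT 0 = timeP := by funext s; exact tauT_zero s
        rwa [e0] at this
      exact ((h2.comp_sub_const t (n : ℝ)).smul_const _).const_add _
    refine h1.hasDerivWithinAt.congr_of_eventuallyEq ?_ ?_
    · have h3 : ∀ᶠ s in 𝓝 t, (n : ℝ) - 1 / 4 < s ∧ s < n + 1 := by
        filter_upwards [Ioo_mem_nhds (by linarith : (n : ℝ) - 1 / 4 < t) hn2] with s hs using hs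
      filter_upwards [mem_nhdsWithin_of_mem_nhds h3, self_mem_nhdsWithin] with s hs hs0
      exact traj_local Φ a n hs0 hs.1 hs.2
    · exact traj_local Φ a n ht (by linarith) hn2

lemma ShearField.A_zero_of_coord {F : ShearField} {x y : R3} (h : ∀ i, i ≠ F.d → x i = y i) :
    F.A 0 x = F.A 0 y := by
  have : x = y + (x F.d - y F.d) • e F.d := by
    funext i
    by_cases hi : i = F.d
    · subst hi
      simp [e]
    · have : e F.d i = 0 := by simp [e, Ne.symm hi]
      simp [this, h i hi]
  rw [this, F.indep]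

lemma e_self (i : Fin 3) : e i i = 1 := by simp [e]

lemma e_ne {i j : Fin 3} (h : j ≠ i) : e i j = 0 := by simp [e, h]

/-- Every trajectory coincides with the explicit one. -/
theorem traj_unique {a : R3} {X : ℝ → R3} (hX : IsTrajectory (Vel Φ) a X) :
    ∀ t, 0 ≤ t → X t = traj Φ a t := by
  obtain ⟨hX0, hXd⟩ := hX
  have hcont : ContinuousOn X (Ici 0) := fun t ht => (hXd t ht).continuousWithinAt
  have hstep : ∀ n : ℕ, X n = pos Φ a n → ∀ t ∈ Icc (n : ℝ) (n + 1),
      X t = pos Φ a n + timeP (t - n) • vec (Φ n) (pos Φ a n) := by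
    intro n hn
    set F := Φ n with hF
    have hn0 : (0 : ℝ) ≤ n := Nat.cast_nonneg n
    have hcI : ContinuousOn X (Icc (n : ℝ) (n + 1)) :=
      hcont.mono fun t ht => le_trans hn0 ht.1
    have hder : ∀ t ∈ Ico (n : ℝ) (n + 1), HasDerivWithinAt X
        (tauT 1 (t - n) • vec F (X t)) (Ici t) t := by
      intro t ht
      have h0 : 0 ≤ t := le_trans hn0 ht.1
      have hfl : ⌊t⌋ = (n : ℤ) := by
        rw [Int.floor_eq_iff]
        push_cast
        exact ⟨ht.1, ht.2⟩
      have := (hXd t h0).mono (Ici_subset_Ici.mpr h0)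
      rw [Vel, hfl] at this
      simpa using this
    -- the other coordinates stay fixed
    have hother : ∀ i, i ≠ F.d → ∀ t ∈ Icc (n : ℝ) (n + 1), X t i = pos Φ a n i := by
      intro i hi t ht
      have hc : ContinuousOn (fun s => X s i) (Icc (n : ℝ) (n + 1)) :=
        (continuous_apply i).comp_continuousOn hcI
      have hd : ∀ s ∈ Ico (n : ℝ) (n + 1), HasDerivWithinAt (fun s => X s i) 0 (Ici s) s := by
        intro s hs
        have := (hasDerivWithinAt_pi.mp (hder s hs)) i
        simpa [vec, e_ne hi] using this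
      have := constant_of_has_deriv_right_zero hc hd t ht
      rw [this, hn]
    have hA : ∀ t ∈ Icc (n : ℝ) (n + 1), F.A 0 (X t) = F.A 0 (pos Φ a n) := fun t ht =>
      ShearField.A_zero_of_coord fun i hi => hother i hi t ht
    -- the moving coordinate
    have hmove : ∀ t ∈ Icc (n : ℝ) (n + 1),
        X t F.d - timeP (t - n) * F.A 0 (pos Φ a n) = pos Φ a n F.d := by
      intro t ht
      have hc : ContinuousOn (fun s => X s F.d - timeP (s - n) * F.A 0 (pos Φ a n))
          (Icc (n : ℝ) (n + 1)) := by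
        refine ContinuousOn.sub ((continuous_apply F.d).comp_continuousOn hcI) ?_
        exact (((timeP_contDiff.continuous).comp (continuous_id.sub continuous_const)).mul
          continuous_const).continuousOn
      have hd : ∀ s ∈ Ico (n : ℝ) (n + 1), HasDerivWithinAt
          (fun s => X s F.d - timeP (s - n) * F.A 0 (pos Φ a n)) 0 (Ici s) s := by
        intro s hs
        have h1 := (hasDerivWithinAt_pi.mp (hder s hs)) F.d
        have h2 : HasDerivAt timeP (tauT 1 (s - n)) (s - n) := by
          have := tauT_hasDerivAt 0 (s - n)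
          have e0 : tauT 0 = timeP := by funext s; exact tauT_zero s
          rwa [e0] at this
        have h3 := ((h2.comp_sub_const s (n : ℝ)).mul_const (F.A 0 (pos Φ a n))).hasDerivWithinAt
          (s := Ici s)
        have h4 : HasDerivWithinAt (fun s => X s F.d - timeP (s - n) * F.A 0 (pos Φ a n))
            ((tauT 1 (s - n) • vec F (X s)) F.d - tauT 1 (s - n) * F.A 0 (pos Φ a n)) (Ici s) s :=
          h1.sub h3
        refine h4.congr_deriv ?_
        simp only [vec, Pi.smul_apply, smul_eq_mul, e_self, mul_one]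
        rw [hA s ⟨hs.1, hs.2.le⟩]
        ring
      have := constant_of_has_deriv_right_zero hc hd t ht
      rw [this, sub_self, timeP_zero, zero_mul, sub_zero, hn]
    intro t ht
    funext i
    simp only [Pi.add_apply, Pi.smul_apply, vec, smul_eq_mul]
    by_cases hi : i = F.d
    · rw [hi, e_self, ← hmove t ht]
      ring
    · rw [e_ne hi, hother i hi t ht]
      ring
  have hint : ∀ n : ℕ, X n = pos Φ a n := by
    intro n
    induction n with
    | zero => simpa [pos] using hX0
    | succ n ih =>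
      have := hstep n ih ((n : ℝ) + 1) ⟨by linarith, le_refl _⟩
      push_cast
      rw [this]
      have e' : ((n : ℝ) + 1 - (n : ℝ)) = 1 := by ring
      rw [e', timeP_one]
      simp [pos]
  intro t ht
  set n := ⌊t⌋₊ with hn
  have hn1 : (n : ℝ) ≤ t := Nat.floor_le ht
  have hn2 : t < n + 1 := Nat.lt_floor_add_one t
  rw [hstep n (hint n) t ⟨hn1, hn2.le⟩]
  rfl

/-- Coordinates of the trajectory lie between the values at the neighbouring integer times. -/
lemma traj_coord (a : R3) (n : ℕ) {t : ℝ} (h1 : (n : ℝ) ≤ t) (h2 : t ≤ n + 1) (i : Fin 3) :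
    ∃ θ : ℝ, 0 ≤ θ ∧ θ ≤ 1 ∧ traj Φ a t i = (1 - θ) * pos Φ a n i + θ * pos Φ a (n + 1) i := by
  refine ⟨timeP (t - n), timeP_nonneg _, timeP_le_one _, ?_⟩
  rw [traj_on Φ a n h1 h2]
  simp only [Pi.add_apply, Pi.smul_apply, smul_eq_mul, pos]
  ring

/-- The trajectory at integer times. -/
lemma traj_natCast (a : R3) (n : ℕ) : traj Φ a n = pos Φ a n := by
  rw [traj_on Φ a n le_rfl (by linarith)]
  simp [timeP_zero]

end

end Vale.Agent.Lib.P113
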