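import Vale.Agent.Lib.P113.Encode
import Vale.Agent.Lib.P113.Traj

/-!
# Finite sums of tensor products of periodic factors
-/

open scoped ContDiff Topology
open Set Filter

namespace Vale.Agent.Lib.P113

/-- A tensor term: coefficient and three factors. -/
abbrev Term := QCode × Factor × Factor × Factor

noncomputable section

/-- The derivative of order `m` of a tensor term. -/
def termI (T : Term) (m : Fin 3 → ℕ) (x : R3) : ℝ :=
  T.1.val * (iteratedDeriv (m 0) (factorFun T.2.1) (x 0)
    * iteratedDeriv (m 1) (factorFun T.2.2.1) (x 1)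
    * iteratedDeriv (m 2) (factorFun T.2.2.2) (x 2))

/-- The derivative of order `m` of a finite sum of tensor terms. -/
def sumI (L : List Term) (m : Fin 3 → ℕ) (x : R3) : ℝ := (L.map fun T => termI T m x).sum

/-- Validity of a term. -/
def TermValid (T : Term) : Prop :=
  FactorValid T.2.1 ∧ FactorValid T.2.2.1 ∧ FactorValid T.2.2.2

lemma iter_contDiff {F : Factor} (h : FactorValid F) (n : ℕ) :
    ContDiff ℝ ∞ (iteratedDeriv n (factorFun F)) := by
  induction n with
  | zero => simpa using factorFun_contDiff h
  | succ n ih =>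
    have : iteratedDeriv (n + 1) (factorFun F) = deriv (iteratedDeriv n (factorFun F)) :=
      iteratedDeriv_succ
    rw [this]
    exact (contDiff_infty_iff_deriv.mp ih).2

lemma iter_hasDerivAt {F : Factor} (h : FactorValid F) (n : ℕ) (s : ℝ) :
    HasDerivAt (iteratedDeriv n (factorFun F)) (iteratedDeriv (n + 1) (factorFun F) s) s := by
  have : iteratedDeriv (n + 1) (factorFun F) = deriv (iteratedDeriv n (factorFun F)) :=
    iteratedDeriv_succ
  rw [this]
  exact ((iter_contDiff h n).differentiable (by simp) s).hasDerivAt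

lemma iter_add_one (F : Factor) (n : ℕ) (s : ℝ) :
    iteratedDeriv n (factorFun F) (s + 1) = iteratedDeriv n (factorFun F) s := by
  have h := congrFun (iteratedDeriv_comp_add_const n (factorFun F) 1) s
  have e : (fun z => factorFun F (z + 1)) = factorFun F := funext fun z => factorFun_add_one F z
  rw [e] at h
  exact h.symm

lemma termI_sys {T : Term} (hT : TermValid T) : IsDSys (termI T) := by
  obtain ⟨h0, h1, h2⟩ := hT
  refine ⟨fun m => ?_, fun m i x => ?_⟩
  · refine contDiff_const.mul (ContDiff.mul (ContDiff.mul ?_ ?_) ?_)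
    · exact (iter_contDiff h0 _).comp (contDiff_apply ℝ ℝ (0 : Fin 3))
    · exact (iter_contDiff h1 _).comp (contDiff_apply ℝ ℝ (1 : Fin 3))
    · exact (iter_contDiff h2 _).comp (contDiff_apply ℝ ℝ (2 : Fin 3))
  · have H0 := HasDerivAt.comp_hasFDerivAt x (f := fun y : R3 => y 0)
      (iter_hasDerivAt h0 (m 0) (x 0)) (hasFDerivAt_apply (𝕜 := ℝ) (0 : Fin 3) x)
    have H1 := HasDerivAt.comp_hasFDerivAt x (f := fun y : R3 => y 1)
      (iter_hasDerivAt h1 (m 1) (x 1)) (hasFDerivAt_apply (𝕜 := ℝ) (1 : Fin 3) x)
    have H2 := HasDerivAt.comp_hasFDerivAt x (f := fun y : R3 => y 2)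
      (iter_hasDerivAt h2 (m 2) (x 2)) (hasFDerivAt_apply (𝕜 := ℝ) (2 : Fin 3) x)
    have H := (((H0.mul H1).mul H2).const_mul T.1.val)
    have hF : fderiv ℝ (termI T m) x = _ := H.fderiv
    rw [hF]
    fin_cases i <;> simp [termI, e, -mul_eq_mul_left_iff, -mul_eq_mul_right_iff] <;> ring

lemma sumI_sys {L : List Term} (hL : ∀ T ∈ L, TermValid T) : IsDSys (sumI L) := by
  induction L with
  | nil =>
    refine ⟨fun m => ?_, fun m i x => ?_⟩
    · have : sumI [] m = fun _ => 0 := by funext y; simp [sumI]
      rw [this]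
      exact contDiff_const
    · have : sumI [] m = fun _ => 0 := by funext y; simp [sumI]
      rw [this]
      simp [sumI]
  | cons T L ih =>
    have h1 := termI_sys (hL T (by simp))
    have h2 := ih fun T' hT' => hL T' (List.mem_cons_of_mem _ hT')
    have e1 : sumI (T :: L) = fun m x => termI T m x + sumI L m x := by
      funext m x
      simp [sumI]
    rw [e1]
    exact h1.add h2

lemma termI_periodic (T : Term) (m : Fin 3 → ℕ) : SpacePeriodic (termI T m) := by
  intro i x
  unfold termI
  fin_cases i <;> simp [e, iter_add_one]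

lemma sumI_periodic (L : List Term) (m : Fin 3 → ℕ) : SpacePeriodic (sumI L m) := by
  intro i x
  simp only [sumI]
  congr 1
  apply List.map_congr_left
  intro T _
  exact termI_periodic T m i x

/-- The `d`-th factor of a term. -/
def Term.fac (T : Term) : Fin 3 → Factor := ![T.2.1, T.2.2.1, T.2.2.2]

lemma iter_kind_zero {F : Factor} (h : F.1 = 0) (n : ℕ) (s s' : ℝ) :
    iteratedDeriv n (factorFun F) s = iteratedDeriv n (factorFun F) s' := by
  have : factorFun F = fun _ => 1 := by
    unfold factorFun
    rw [if_pos h]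
  rw [this, iteratedDeriv_const, iteratedDeriv_const]

lemma termI_indep {T : Term} {d : Fin 3} (h : (T.fac d).1 = 0) (m : Fin 3 → ℕ) (x : R3) (s : ℝ) :
    termI T m (x + s • e d) = termI T m x := by
  unfold termI
  fin_cases d
  · have h' : T.2.1.1 = 0 := h
    simp only [Fin.zero_eta]
    rw [iter_kind_zero h' (m 0) _ (x 0)]
    simp [e]
  · have h' : T.2.2.1.1 = 0 := h
    simp only [Fin.mk_one]
    rw [iter_kind_zero h' (m 1) _ (x 1)]
    simp [e]
  · have h' : T.2.2.2.1 = 0 := h
    simp only [Fin.reduceFinMk]
    rw [iter_kind_zero h' (m 2) _ (x 2)]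
    simp [e]

/-- The data of a phase: the direction of the shear and the tensor terms. -/
abbrev PhaseData := Fin 3 × List Term

/-- Validity of the data of a phase. -/
def PhaseOK (P : PhaseData) : Prop :=
  ∀ T ∈ P.2, TermValid T ∧ (T.fac P.1).1 = 0

/-- The shear field of valid phase data. -/
def mkShear (P : PhaseData) (h : PhaseOK P) : ShearField where
  d := P.1
  A := sumI P.2
  sys := sumI_sys fun T hT => (h T hT).1
  periodic := sumI_periodic P.2
  indep := by
    intro m x s
    simp only [sumI]
    congr 1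
    apply List.map_congr_left
    intro T hT
    exact termI_indep (h T hT).2 m x s

/-- Closed form of a derivative of a term. -/
lemma termI_eq {T : Term} (hT : TermValid T) (m : Fin 3 → ℕ) (x : R3) :
    termI T m x = T.1.val * (factorD T.2.1 (m 0) (x 0) * factorD T.2.2.1 (m 1) (x 1)
      * factorD T.2.2.2 (m 2) (x 2)) := by
  unfold termI
  rw [factorFun_iteratedDeriv hT.1, factorFun_iteratedDeriv hT.2.1, factorFun_iteratedDeriv hT.2.2]

/-- A term at order zero. -/
lemma termI_zero (T : Term) (x : R3) :
    termI T 0 x = T.1.val * (factorFun T.2.1 (x 0) * factorFun T.2.2.1 (x 1) * factorFun T.2.2.2 (x 2)) := by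
  simp [termI]

end

end Vale.Agent.Lib.P113
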