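import Vale.Agent.Lib.P113.Rows
import Vale.Agent.Lib.P113.Terms

/-!
# The phases of the flow attached to a machine
-/

namespace Vale.Agent.Lib.P113

open QCode

/-- The base of the encoding. -/
def baseK (M : Machine) : ℕ := 8 * numD M

/-- The code of `ε = 1 / (8 (N + 1))`, `N` the number of rows. -/
def epsQ (M : Machine) : QCode := invSucc (8 * (numRows M + 1) - 1)

/-- The code of `1 / ε`. -/
def oneOverEps (M : Machine) : QCode := ofNat (8 * (numRows M + 1))

/-- The height of the row `i`. -/
def hQ (M : Machine) (i : ℕ) : QCode := mul (ofNat (i + 1)) (epsQ M)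

/-- The plateau on the `z`-band of the row `i`. -/
def bandP (M : Machine) (i : ℕ) : Factor :=
  (1, hQ M i, add (hQ M i) (invSucc (16 * (numRows M + 1) - 1)), 64 * (numRows M + 1) - 1)

/-- The function `s * plateau` on the `z`-band of the row `i`. -/
def bandQ (M : Machine) (i : ℕ) : Factor :=
  (2, hQ M i, add (hQ M i) (invSucc (16 * (numRows M + 1) - 1)), 64 * (numRows M + 1) - 1)

/-- The function `s` on the whole range `[0, 1/4]` of the stacks. -/
def qAll : Factor := (2, (0, 0, 0), (1, 0, 3), 7)

/-- The code of `K ^ |u|`. -/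
def powQ (K : ℕ) (u : List ℕ) : QCode := ofNat (K ^ u.length)

/-- The code of `K ^ (-|u|)`. -/
def ipowQ (K : ℕ) (u : List ℕ) : QCode := invSucc (K ^ u.length - 1)

/-- The coefficient of the constant term of a cylinder lift. -/
def cylC (K : ℕ) (ε h : QCode) (P B : List ℕ) : QCode :=
  sub (sub h (mul (mul ε (powQ K P)) (encQ K P))) (mul (mul ε (powQ K B)) (encQ K B))

/-- The terms lifting the cylinder `P × B`: the function
`(h + ε |P|-scaled tail + ε |B|-scaled tail)` on the cylinder. -/
def cylTerms (K : ℕ) (ε h : QCode) (P B : List ℕ) : List Term :=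
  [ (cylC K ε h P B, wordP K P, wordP K B, oneF),
    (mul ε (powQ K P), wordQ K P, wordP K B, oneF),
    (mul ε (powQ K B), wordP K P, wordQ K B, oneF) ]

/-- The same with opposite sign. -/
def negCylTerms (K : ℕ) (ε h : QCode) (P B : List ℕ) : List Term :=
  [ (neg (cylC K ε h P B), wordP K P, wordP K B, oneF),
    (neg (mul ε (powQ K P)), wordQ K P, wordP K B, oneF),
    (neg (mul ε (powQ K B)), wordP K P, wordQ K B, oneF) ]

/-- The coefficient of the shift terms. -/
def shiftC (K : ℕ) (oe h : QCode) (P U B : List ℕ) : QCode :=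
  add (sub (encQ K U) (encQ K P))
    (mul (sub (ipowQ K U) (ipowQ K P)) (sub (mul (powQ K B) (encQ K B)) (mul h oe)))

/-- The terms of the `x`-shift of the row: `P → U` on the `x`-stack, `B` read on `y`. -/
def xTerms (K : ℕ) (oe h : QCode) (bP bQ : Factor) (P U B : List ℕ) : List Term :=
  [ (shiftC K oe h P U B, oneF, oneF, bP),
    (mul (sub (ipowQ K U) (ipowQ K P)) oe, oneF, oneF, bQ),
    (neg (mul (sub (ipowQ K U) (ipowQ K P)) (powQ K B)), oneF, qAll, bP) ]

/-- The terms of the `y`-shift of the row: `B → V` on the `y`-stack, `U` read on `x`. -/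
def yTerms (K : ℕ) (oe h : QCode) (bP bQ : Factor) (B V U : List ℕ) : List Term :=
  [ (shiftC K oe h B V U, oneF, oneF, bP),
    (mul (sub (ipowQ K V) (ipowQ K B)) oe, oneF, oneF, bQ),
    (neg (mul (sub (ipowQ K V) (ipowQ K B)) (powQ K U)), qAll, oneF, bP) ]

/-- The words of the row of index `i`. -/
def wP (M : Machine) (i : ℕ) : List ℕ := rowP M (rowF i) (rowS M i) (rowD M i)
/-- The words of the row of index `i`. -/
def wB (M : Machine) (i : ℕ) : List ℕ := rowB (rowF i) (rowD M i)
/-- The words of the row of index `i`. -/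
def wU (M : Machine) (i : ℕ) : List ℕ := rowU M (rowF i) (rowS M i) (rowD M i)
/-- The words of the row of index `i`. -/
def wV (M : Machine) (i : ℕ) : List ℕ := rowV M (rowF i) (rowS M i) (rowD M i)

/-- The terms of the lifting phase. -/
def liftAll (M : Machine) : List Term :=
  (List.range (numRows M)).flatMap fun i =>
    cylTerms (baseK M) (epsQ M) (hQ M i) (wP M i) (wB M i)

/-- The terms of the `x`-shift phase. -/
def xAll (M : Machine) : List Term :=
  (List.range (numRows M)).flatMap fun i =>
    xTerms (baseK M) (oneOverEps M) (hQ M i) (bandP M i) (bandQ M i) (wP M i) (wU M i) (wB M i)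

/-- The terms of the `y`-shift phase. -/
def yAll (M : Machine) : List Term :=
  (List.range (numRows M)).flatMap fun i =>
    yTerms (baseK M) (oneOverEps M) (hQ M i) (bandP M i) (bandQ M i) (wB M i) (wV M i) (wU M i)

/-- The terms of the dropping phase. -/
def dropAll (M : Machine) : List Term :=
  (List.range (numRows M)).flatMap fun i =>
    negCylTerms (baseK M) (epsQ M) (hQ M i) (wU M i) (wV M i)

/-- The code of `3/8`. -/
def threeEighths : QCode := (3, 0, 7)

/-- The terms of the halting phase. -/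
def haltAll (M : Machine) : List Term :=
  (List.range (M.Q + 1)).flatMap fun q =>
    if M.isHalting q then
      [ (threeEighths, wordP (baseK M) [ctrlDigit M 0 q], oneF, oneF),
        (threeEighths, wordP (baseK M) [ctrlDigit M 1 q], oneF, oneF) ]
    else []

/-- The phases of one period. -/
def periodPhase (M : Machine) (r : ℕ) : PhaseData :=
  if r % 5 = 0 then (2, haltAll M)
  else if r % 5 = 1 then (2, liftAll M)
  else if r % 5 = 2 then (0, xAll M)
  else if r % 5 = 3 then (1, yAll M)
  else (2, dropAll M)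

/-- All the phases: two translations (moving `0` to the encoded initial configuration),
then the periodic phases. -/
def phase (M : Machine) (w : List ℕ) (n : ℕ) : PhaseData :=
  if n = 0 then (0, [(encQ (baseK M) [ctrlDigit M 0 0], oneF, oneF, oneF)])
  else if n = 1 then (1, [(encQ (baseK M) w, oneF, oneF, oneF)])
  else periodPhase M (n - 2)

/-! ### Validity of the phases -/

noncomputable section

lemma baseK_good (M : Machine) : GoodBase (baseK M) (numD M) :=
  ⟨numD_pos, le_rfl⟩

lemma oneF_valid : FactorValid oneF := Or.inl rfl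

lemma qAll_valid : FactorValid qAll := by
  right
  refine ⟨?_, ?_, ?_⟩ <;> simp [qAll, QCode.val] <;> norm_num

lemma numRows_cast_pos (M : Machine) : (0 : ℝ) < (numRows M : ℝ) + 1 := by positivity

lemma sub_one_cast (c n : ℕ) (hc : 0 < c) :
    (((c * (n + 1) - 1 : ℕ)) : ℝ) + 1 = (c : ℝ) * ((n : ℝ) + 1) := by
  have : 1 ≤ c * (n + 1) := Nat.succ_le_of_lt (Nat.mul_pos hc (Nat.succ_pos _))
  rw [Nat.cast_sub this]
  push_cast
  ring

@[simp] lemma val_epsQ (M : Machine) : (epsQ M).val = 1 / (8 * ((numRows M : ℝ) + 1)) := by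
  simp only [epsQ, val_invSucc]
  rw [sub_one_cast 8 _ (by norm_num)]
  norm_num

@[simp] lemma val_oneOverEps (M : Machine) : (oneOverEps M).val = 8 * ((numRows M : ℝ) + 1) := by
  simp [oneOverEps]

@[simp] lemma val_hQ (M : Machine) (i : ℕ) :
    (hQ M i).val = ((i : ℝ) + 1) * (1 / (8 * ((numRows M : ℝ) + 1))) := by
  simp [hQ]

lemma band_w (M : Machine) :
    (((64 * (numRows M + 1) - 1 : ℕ)) : ℝ) + 1 = 64 * ((numRows M : ℝ) + 1) := by
  rw [sub_one_cast 64 _ (by norm_num)]
  norm_num

lemma band_r (M : Machine) (i : ℕ) :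
    (add (hQ M i) (invSucc (16 * (numRows M + 1) - 1))).val
      = ((i : ℝ) + 1) * (1 / (8 * ((numRows M : ℝ) + 1))) + 1 / (16 * ((numRows M : ℝ) + 1)) := by
  simp only [val_add, val_hQ, val_invSucc]
  rw [sub_one_cast 16 _ (by norm_num)]
  norm_num

lemma bandP_valid (M : Machine) {i : ℕ} (hi : i < numRows M) : FactorValid (bandP M i) := by
  right
  have hN := numRows_cast_pos M
  have hiN : (i : ℝ) + 1 ≤ numRows M := by exact_mod_cast hi
  have hi0 : (0 : ℝ) ≤ i := Nat.cast_nonneg i
  set n : ℝ := (numRows M : ℝ) + 1 with hn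
  have hn1 : (1 : ℝ) ≤ n := by
    have : (0 : ℝ) ≤ numRows M := Nat.cast_nonneg _
    linarith
  have h1 : ((i : ℝ) + 1) * (1 / (8 * n)) ≤ (n - 1) / (8 * n) := by
    rw [mul_one_div]
    apply div_le_div_of_nonneg_right _ (by positivity)
    linarith
  have h2 : (n - 1) / (8 * n) = 1 / 8 - 1 / (8 * n) := by
    field_simp
  have h3 : (0 : ℝ) < 1 / (8 * n) := by positivity
  have h4 : 1 / (16 * n) = (1 / (8 * n)) / 2 := by
    field_simp
    norm_num
  have h5 : 1 / (64 * n) = (1 / (8 * n)) / 8 := by
    field_simp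
    norm_num
  have h6 : 0 ≤ ((i : ℝ) + 1) * (1 / (8 * n)) := by positivity
  have h7 : 1 / (8 * n) ≤ 1 / 8 := by
    apply one_div_le_one_div_of_le (by norm_num)
    linarith
  refine ⟨?_, ?_, ?_⟩
  · show (hQ M i).val ≤ _
    simp only [bandP, band_r, val_hQ]
    rw [← hn]
    have : (0 : ℝ) < 1 / (16 * n) := by positivity
    linarith
  · simp only [bandP, band_w, val_hQ]
    rw [← hn, h5]
    linarith
  · simp only [bandP, band_w, band_r]
    rw [← hn, h5, h4]
    linarith

lemma bandQ_valid (M : Machine) {i : ℕ} (hi : i < numRows M) : FactorValid (bandQ M i) := by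
  rcases bandP_valid M hi with h | h
  · exact absurd h (by simp [bandP])
  · exact Or.inr h

lemma wP_digits (M : Machine) {i : ℕ} (hi : i < numRows M) : Digits (numD M) (wP M i) :=
  rowP_digits (rowF_le i) (rowS_le hi) (rowD_lt i)

lemma wB_digits (M : Machine) (i : ℕ) : Digits (numD M) (wB M i) :=
  rowB_digits (rowD_lt i)

lemma wU_digits (M : Machine) {i : ℕ} (hi : i < numRows M) : Digits (numD M) (wU M i) :=
  rowU_digits (rowF_le i) (rowS_le hi) (rowD_lt i)

lemma wV_digits (M : Machine) {i : ℕ} (hi : i < numRows M) : Digits (numD M) (wV M i) :=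
  rowV_digits (rowF_le i) (rowS_le hi) (rowD_lt i)

lemma ctrl_digits (M : Machine) {f q : ℕ} (hf : f ≤ 1) (hq : q ≤ M.Q) :
    Digits (numD M) [ctrlDigit M f q] := by
  intro b hb
  simp only [List.mem_cons, List.not_mem_nil, or_false] at hb
  subst hb
  exact ctrl_lt hf hq

lemma mem_flatMap_range {α : Type*} {n : ℕ} {g : ℕ → List α} {T : α}
    (h : T ∈ (List.range n).flatMap g) : ∃ i, i < n ∧ T ∈ g i := by
  simp only [List.mem_flatMap, List.mem_range] at h
  exact h

lemma liftAll_ok (M : Machine) : PhaseOK (2, liftAll M) := by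
  intro T hT
  obtain ⟨i, hi, hT⟩ := mem_flatMap_range hT
  have g := baseK_good M
  have h1 := wordP_valid g (wP_digits M hi)
  have h2 := wordP_valid g (wB_digits M i)
  have h3 := wordQ_valid g (wP_digits M hi)
  have h4 := wordQ_valid g (wB_digits M i)
  simp only [cylTerms, List.mem_cons, List.not_mem_nil, or_false] at hT
  rcases hT with rfl | rfl | rfl <;> exact ⟨⟨by assumption, by assumption, oneF_valid⟩, rfl⟩

lemma dropAll_ok (M : Machine) : PhaseOK (2, dropAll M) := by
  intro T hT
  obtain ⟨i, hi, hT⟩ := mem_flatMap_range hT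
  have g := baseK_good M
  have h1 := wordP_valid g (wU_digits M hi)
  have h2 := wordP_valid g (wV_digits M hi)
  have h3 := wordQ_valid g (wU_digits M hi)
  have h4 := wordQ_valid g (wV_digits M hi)
  simp only [negCylTerms, List.mem_cons, List.not_mem_nil, or_false] at hT
  rcases hT with rfl | rfl | rfl <;> exact ⟨⟨by assumption, by assumption, oneF_valid⟩, rfl⟩

lemma xAll_ok (M : Machine) : PhaseOK (0, xAll M) := by
  intro T hT
  obtain ⟨i, hi, hT⟩ := mem_flatMap_range hT
  have h1 := bandP_valid M hi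
  have h2 := bandQ_valid M hi
  simp only [xTerms, List.mem_cons, List.not_mem_nil, or_false] at hT
  rcases hT with rfl | rfl | rfl
  · exact ⟨⟨oneF_valid, oneF_valid, h1⟩, rfl⟩
  · exact ⟨⟨oneF_valid, oneF_valid, h2⟩, rfl⟩
  · exact ⟨⟨oneF_valid, qAll_valid, h1⟩, rfl⟩

lemma yAll_ok (M : Machine) : PhaseOK (1, yAll M) := by
  intro T hT
  obtain ⟨i, hi, hT⟩ := mem_flatMap_range hT
  have h1 := bandP_valid M hi
  have h2 := bandQ_valid M hi
  simp only [yTerms, List.mem_cons, List.not_mem_nil, or_false] at hT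
  rcases hT with rfl | rfl | rfl
  · exact ⟨⟨oneF_valid, oneF_valid, h1⟩, rfl⟩
  · exact ⟨⟨oneF_valid, oneF_valid, h2⟩, rfl⟩
  · exact ⟨⟨qAll_valid, oneF_valid, h1⟩, rfl⟩

lemma haltAll_ok (M : Machine) : PhaseOK (2, haltAll M) := by
  intro T hT
  obtain ⟨q, hq, hT⟩ := mem_flatMap_range hT
  have hq' : q ≤ M.Q := by omega
  have g := baseK_good M
  have h1 := wordP_valid g (ctrl_digits M (f := 0) (by omega) hq')
  have h2 := wordP_valid g (ctrl_digits M (f := 1) (by omega) hq')
  by_cases hh : M.isHalting q = true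
  · simp only [hh, if_true, List.mem_cons, List.not_mem_nil, or_false] at hT
    rcases hT with rfl | rfl
    · exact ⟨⟨h1, oneF_valid, oneF_valid⟩, rfl⟩
    · exact ⟨⟨h2, oneF_valid, oneF_valid⟩, rfl⟩
  · simp [hh] at hT

lemma periodPhase_ok (M : Machine) (r : ℕ) : PhaseOK (periodPhase M r) := by
  unfold periodPhase
  split_ifs
  · exact haltAll_ok M
  · exact liftAll_ok M
  · exact xAll_ok M
  · exact yAll_ok M
  · exact dropAll_ok M

lemma phase_ok (M : Machine) (w : List ℕ) (n : ℕ) : PhaseOK (phase M w n) := by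
  unfold phase
  split_ifs
  · intro T hT
    simp only [List.mem_cons, List.not_mem_nil, or_false] at hT
    subst hT
    exact ⟨⟨oneF_valid, oneF_valid, oneF_valid⟩, rfl⟩
  · intro T hT
    simp only [List.mem_cons, List.not_mem_nil, or_false] at hT
    subst hT
    exact ⟨⟨oneF_valid, oneF_valid, oneF_valid⟩, rfl⟩
  · exact periodPhase_ok M _

/-- The trivial phase before time `0`. -/
lemma trivial_ok : PhaseOK ((0, []) : PhaseData) := by
  intro T hT
  simp at hT

/-- The shear field of the phase of integer index `k`. -/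
def shearOf (M : Machine) (w : List ℕ) (k : ℤ) : ShearField :=
  if k < 0 then mkShear (0, []) trivial_ok
  else mkShear (phase M w k.toNat) (phase_ok M w k.toNat)

end

end Vale.Agent.Lib.P113
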