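import Vale.Agent.Lib.P113.Defs

/-!
# Arithmetic on codes of rationals
-/

namespace Vale.Agent.Lib.P113

namespace QCode

/-- The code of a natural number. -/
def ofNat (n : ℕ) : QCode := (n, 0, 0)

/-- The code of `1 / (n + 1)`. -/
def invSucc (n : ℕ) : QCode := (1, 0, n)

/-- Addition of codes. -/
def add (p q : QCode) : QCode :=
  (p.1 * (q.2.2 + 1) + q.1 * (p.2.2 + 1), p.2.1 * (q.2.2 + 1) + q.2.1 * (p.2.2 + 1),
    (p.2.2 + 1) * (q.2.2 + 1) - 1)

/-- Negation of codes. -/
def neg (p : QCode) : QCode := (p.2.1, p.1, p.2.2)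

/-- Subtraction of codes. -/
def sub (p q : QCode) : QCode := add p (neg q)

/-- Multiplication of codes. -/
def mul (p q : QCode) : QCode :=
  (p.1 * q.1 + p.2.1 * q.2.1, p.1 * q.2.1 + p.2.1 * q.1, (p.2.2 + 1) * (q.2.2 + 1) - 1)

lemma cast_den (p q : QCode) :
    (((p.2.2 + 1) * (q.2.2 + 1) - 1 : ℕ) : ℝ) + 1 = ((p.2.2 : ℝ) + 1) * ((q.2.2 : ℝ) + 1) := by
  have h : 1 ≤ (p.2.2 + 1) * (q.2.2 + 1) := Nat.succ_le_of_lt (by positivity)
  rw [Nat.cast_sub h]
  push_cast
  ring

lemma den_pos (p : QCode) : ((p.2.2 : ℝ) + 1) ≠ 0 := by positivity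

@[simp] lemma val_ofNat (n : ℕ) : (ofNat n).val = n := by simp [ofNat, QCode.val]

@[simp] lemma val_invSucc (n : ℕ) : (invSucc n).val = 1 / ((n : ℝ) + 1) := by
  simp [invSucc, QCode.val]

@[simp] lemma val_add (p q : QCode) : (add p q).val = p.val + q.val := by
  have hp := den_pos p
  have hq := den_pos q
  simp only [add, QCode.val]
  rw [cast_den]
  push_cast
  field_simp
  ring

@[simp] lemma val_neg (p : QCode) : (neg p).val = - p.val := by
  simp only [neg, QCode.val]
  ring

@[simp] lemma val_sub (p q : QCode) : (sub p q).val = p.val - q.val := by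
  simp [sub, sub_eq_add_neg]

@[simp] lemma val_mul (p q : QCode) : (mul p q).val = p.val * q.val := by
  have hp := den_pos p
  have hq := den_pos q
  simp only [mul, QCode.val]
  rw [cast_den]
  push_cast
  field_simp
  ring

/-! ### Primitive recursiveness -/

section
variable {α : Type*} [Primcodable α] {f g : α → QCode}

lemma prim1 (hf : Primrec f) : Primrec fun a => (f a).1 := Primrec.fst.comp hf
lemma prim2 (hf : Primrec f) : Primrec fun a => (f a).2.1 := Primrec.fst.comp (Primrec.snd.comp hf)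
lemma prim3 (hf : Primrec f) : Primrec fun a => (f a).2.2 := Primrec.snd.comp (Primrec.snd.comp hf)

lemma primAdd : Primrec₂ add := by
  have hf1 := prim1 (f := fun p : QCode × QCode => p.1) Primrec.fst
  have hf2 := prim2 (f := fun p : QCode × QCode => p.1) Primrec.fst
  have hf3 := prim3 (f := fun p : QCode × QCode => p.1) Primrec.fst
  have hg1 := prim1 (f := fun p : QCode × QCode => p.2) Primrec.snd
  have hg2 := prim2 (f := fun p : QCode × QCode => p.2) Primrec.snd
  have hg3 := prim3 (f := fun p : QCode × QCode => p.2) Primrec.snd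
  have s3 := Primrec.nat_add.comp hf3 (Primrec.const 1)
  have t3 := Primrec.nat_add.comp hg3 (Primrec.const 1)
  refine Primrec.pair ?_ (Primrec.pair ?_ ?_)
  · exact Primrec.nat_add.comp (Primrec.nat_mul.comp hf1 t3) (Primrec.nat_mul.comp hg1 s3)
  · exact Primrec.nat_add.comp (Primrec.nat_mul.comp hf2 t3) (Primrec.nat_mul.comp hg2 s3)
  · exact Primrec.nat_sub.comp (Primrec.nat_mul.comp s3 t3) (Primrec.const 1)

lemma primNeg : Primrec neg :=
  Primrec.pair (prim2 Primrec.id) (Primrec.pair (prim1 Primrec.id) (prim3 Primrec.id))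

lemma primSub : Primrec₂ sub :=
  primAdd.comp Primrec.fst (primNeg.comp Primrec.snd)

lemma primMul : Primrec₂ mul := by
  have hf1 := prim1 (f := fun p : QCode × QCode => p.1) Primrec.fst
  have hf2 := prim2 (f := fun p : QCode × QCode => p.1) Primrec.fst
  have hf3 := prim3 (f := fun p : QCode × QCode => p.1) Primrec.fst
  have hg1 := prim1 (f := fun p : QCode × QCode => p.2) Primrec.snd
  have hg2 := prim2 (f := fun p : QCode × QCode => p.2) Primrec.snd
  have hg3 := prim3 (f := fun p : QCode × QCode => p.2) Primrec.snd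
  have s3 := Primrec.nat_add.comp hf3 (Primrec.const 1)
  have t3 := Primrec.nat_add.comp hg3 (Primrec.const 1)
  refine Primrec.pair ?_ (Primrec.pair ?_ ?_)
  · exact Primrec.nat_add.comp (Primrec.nat_mul.comp hf1 hg1) (Primrec.nat_mul.comp hf2 hg2)
  · exact Primrec.nat_add.comp (Primrec.nat_mul.comp hf1 hg2) (Primrec.nat_mul.comp hf2 hg1)
  · exact Primrec.nat_sub.comp (Primrec.nat_mul.comp s3 t3) (Primrec.const 1)

lemma primOfNat : Primrec ofNat :=
  Primrec.pair Primrec.id (Primrec.const (0, 0))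

lemma primInvSucc : Primrec invSucc :=
  Primrec.pair (Primrec.const 1) (Primrec.pair (Primrec.const 0) Primrec.id)

end

end QCode

end Vale.Agent.Lib.P113
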