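import Vale.Agent.Lib.P113.Sim
import Vale.Agent.Lib.P113.Encode

/-!
# The rows of the two-stack machine: rewriting rules on the digit stacks
-/

namespace Vale.Agent.Lib.P113

variable (M : Machine)

/-- The word replaced on the `x`-stack by the row `(f, q, a)`. -/
def rowP (f q a : ℕ) : List ℕ :=
  if f = 0 then [ctrlDigit M f q] else [ctrlDigit M f q, a]

/-- The word replaced on the `y`-stack by the row `(f, q, a)`. -/
def rowB (f a : ℕ) : List ℕ :=
  if f = 0 then [a] else []

/-- The new word on the `x`-stack. -/
def rowU (f q a : ℕ) : List ℕ :=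
  if M.S < a then (if f = 0 then [ctrlDigit M 0 q, a] else [ctrlDigit M 1 q])
  else if (M.next q a).2.2 then
    [ctrlDigit M 0 (M.next q a).1, (M.next q a).2.1, recDigit M f q a]
  else [ctrlDigit M 1 (M.next q a).1]

/-- The new word on the `y`-stack. -/
def rowV (f q a : ℕ) : List ℕ :=
  if M.S < a then (if f = 0 then [] else [a])
  else if (M.next q a).2.2 then []
  else [(M.next q a).2.1, recDigit M f q a]

/-- The `x`-stack of a configuration. -/
def stackX (d : SConfig) : List ℕ := ctrlDigit M d.f d.q :: d.L

/-- The digit read by a configuration. -/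
def readA (d : SConfig) : ℕ := if d.f = 0 then d.R.headD 0 else d.L.headD 0

/-- Validity of a configuration. -/
structure SValid (d : SConfig) : Prop where
  f_le : d.f ≤ 1
  q_le : d.q ≤ M.Q
  L_dig : Digits (numA M) d.L
  R_dig : Digits (numA M) d.R

variable {M}

lemma numA_gt_S : M.S < numA M := by
  unfold numA; omega

lemma numA_pos : 0 < numA M := by
  unfold numA; omega

lemma numA_le_numD : numA M ≤ numD M := by
  unfold numD; omega

lemma numD_pos : 0 < numD M := lt_of_lt_of_le numA_pos numA_le_numD

lemma rec_lt {f q s : ℕ} (hf : f ≤ 1) (hq : q ≤ M.Q) (hs : s ≤ M.S) :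
    recDigit M f q s < numA M := by
  unfold recDigit numA
  have h : (M.S + 1) * q + (M.S + 1) ≤ (M.S + 1) * (M.Q + 1) := by
    rw [Nat.mul_add (M.S + 1) M.Q 1, mul_one]
    have := Nat.mul_le_mul_left (M.S + 1) hq
    omega
  omega

lemma ctrl_lt {f q : ℕ} (hf : f ≤ 1) (hq : q ≤ M.Q) : ctrlDigit M f q < numD M := by
  unfold ctrlDigit numD
  omega

lemma ctrl_inj {f f' q q' : ℕ} (hf : f ≤ 1) (hf' : f' ≤ 1)
    (h : ctrlDigit M f q = ctrlDigit M f' q') : f = f' ∧ q = q' := by
  unfold ctrlDigit at h
  omega

lemma rec_inj {f f' q q' s s' : ℕ} (hf : f ≤ 1) (hf' : f' ≤ 1) (hs : s ≤ M.S) (hs' : s' ≤ M.S)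
    (h : recDigit M f q s = recDigit M f' q' s') : f = f' ∧ q = q' ∧ s = s' := by
  unfold recDigit at h
  have hf1 : f = f' := by omega
  have h2 : s + (M.S + 1) * q = s' + (M.S + 1) * q' := by omega
  have hpos : 0 < M.S + 1 := Nat.succ_pos _
  have h3 : s = s' := by
    have := congrArg (· % (M.S + 1)) h2
    simp only [Nat.add_mul_mod_self_left] at this
    rwa [Nat.mod_eq_of_lt (Nat.lt_succ_of_le hs), Nat.mod_eq_of_lt (Nat.lt_succ_of_le hs')] at this
  subst h3
  have h4 : (M.S + 1) * q = (M.S + 1) * q' := by omega
  exact ⟨hf1, Nat.eq_of_mul_eq_mul_left hpos h4, rfl⟩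

lemma matchW_append (u l : List ℕ) : matchW u (u ++ l) := by
  induction u with
  | nil => trivial
  | cons a u ih => exact ⟨rfl, ih⟩

/-- The stack rewriting performed by `snext`. -/
lemma snext_stackX {d : SConfig} (hf : d.f ≤ 1) :
    stackX M (snext M d)
      = rowU M d.f d.q (readA d) ++ (stackX M d).drop (rowP M d.f d.q (readA d)).length := by
  by_cases h0 : d.f = 0
  · by_cases ha : M.S < d.R.headD 0
    · rw [snext_R_skip M h0 ha]
      simp [stackX, rowU, rowP, readA, h0, ha, -List.headD_eq_head?_getD]
    · by_cases hr : (M.next d.q (d.R.headD 0)).2.2 = true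
      · rw [snext_R_right M h0 ha hr]
        simp [stackX, rowU, rowP, readA, h0, ha, hr, -List.headD_eq_head?_getD]
      · rw [snext_R_left M h0 ha hr]
        simp [stackX, rowU, rowP, readA, h0, ha, hr, -List.headD_eq_head?_getD]
  · have h1 : d.f = 1 := by omega
    by_cases ha : M.S < d.L.headD 0
    · rw [snext_L_skip M h0 ha]
      simp [stackX, rowU, rowP, readA, h1, ha, -List.headD_eq_head?_getD]
    · by_cases hr : (M.next d.q (d.L.headD 0)).2.2 = true
      · rw [snext_L_right M h0 ha hr]
        simp [stackX, rowU, rowP, readA, h1, ha, hr, -List.headD_eq_head?_getD]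
      · rw [snext_L_left M h0 ha hr]
        simp [stackX, rowU, rowP, readA, h1, ha, hr, -List.headD_eq_head?_getD]

lemma snext_stackY {d : SConfig} (hf : d.f ≤ 1) :
    (snext M d).R = rowV M d.f d.q (readA d) ++ d.R.drop (rowB d.f (readA d)).length := by
  by_cases h0 : d.f = 0
  · by_cases ha : M.S < d.R.headD 0
    · rw [snext_R_skip M h0 ha]
      simp [rowV, rowB, readA, h0, ha, -List.headD_eq_head?_getD]
    · by_cases hr : (M.next d.q (d.R.headD 0)).2.2 = true
      · rw [snext_R_right M h0 ha hr]
        simp [rowV, rowB, readA, h0, ha, hr, -List.headD_eq_head?_getD]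
      · rw [snext_R_left M h0 ha hr]
        simp [rowV, rowB, readA, h0, ha, hr, -List.headD_eq_head?_getD]
  · have h1 : d.f = 1 := by omega
    by_cases ha : M.S < d.L.headD 0
    · rw [snext_L_skip M h0 ha]
      simp [rowV, rowB, readA, h1, ha, -List.headD_eq_head?_getD]
    · by_cases hr : (M.next d.q (d.L.headD 0)).2.2 = true
      · rw [snext_L_right M h0 ha hr]
        simp [rowV, rowB, readA, h1, ha, hr, -List.headD_eq_head?_getD]
      · rw [snext_L_left M h0 ha hr]
        simp [rowV, rowB, readA, h1, ha, hr, -List.headD_eq_head?_getD]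

/-- Validity is preserved by the step. -/
lemma SValid.snext {d : SConfig} (h : SValid M d) : SValid M (snext M d) := by
  obtain ⟨hf, hq, hL, hR⟩ := h
  have hnq : ∀ q a, (M.next q a).1 ≤ M.Q := next_fst_le M
  have hns : ∀ q a, (M.next q a).2.1 ≤ M.S := next_snd_le M
  have hS := numA_gt_S (M := M)
  have hsA : ∀ q a, (M.next q a).2.1 < numA M := fun q a => lt_of_le_of_lt (hns q a) hS
  have htopR : d.R.headD 0 < numA M := hR.headD numA_pos
  have htopL : d.L.headD 0 < numA M := hL.headD numA_pos
  by_cases h0 : d.f = 0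
  · by_cases ha : M.S < d.R.headD 0
    · rw [snext_R_skip M h0 ha]
      refine ⟨by simp, hq, ?_, hR.tail⟩
      intro b hb
      simp only [List.mem_cons] at hb
      rcases hb with rfl | hb
      · exact htopR
      · exact hL b hb
    · have hrc : recDigit M 0 d.q (d.R.headD 0) < numA M :=
        rec_lt (by omega) hq (not_lt.mp ha)
      by_cases hr : (M.next d.q (d.R.headD 0)).2.2 = true
      · rw [snext_R_right M h0 ha hr]
        refine ⟨by simp, hnq _ _, ?_, hR.tail⟩
        intro b hb
        simp only [List.mem_cons] at hb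
        rcases hb with rfl | rfl | hb
        · exact hsA _ _
        · exact hrc
        · exact hL b hb
      · rw [snext_R_left M h0 ha hr]
        refine ⟨by simp, hnq _ _, hL, ?_⟩
        intro b hb
        simp only [List.mem_cons] at hb
        rcases hb with rfl | rfl | hb
        · exact hsA _ _
        · exact hrc
        · exact hR.tail b hb
  · by_cases ha : M.S < d.L.headD 0
    · rw [snext_L_skip M h0 ha]
      refine ⟨by simp, hq, hL.tail, ?_⟩
      intro b hb
      simp only [List.mem_cons] at hb
      rcases hb with rfl | hb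
      · exact htopL
      · exact hR b hb
    · have hrc : recDigit M 1 d.q (d.L.headD 0) < numA M :=
        rec_lt (by omega) hq (not_lt.mp ha)
      by_cases hr : (M.next d.q (d.L.headD 0)).2.2 = true
      · rw [snext_L_right M h0 ha hr]
        refine ⟨by simp, hnq _ _, ?_, hR⟩
        intro b hb
        simp only [List.mem_cons] at hb
        rcases hb with rfl | rfl | hb
        · exact hsA _ _
        · exact hrc
        · exact hL.tail b hb
      · rw [snext_L_left M h0 ha hr]
        refine ⟨by simp, hnq _ _, hL.tail, ?_⟩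
        intro b hb
        simp only [List.mem_cons] at hb
        rcases hb with rfl | rfl | hb
        · exact hsA _ _
        · exact hrc
        · exact hR b hb

/-- Digits of the words of the rows. -/
lemma rowP_digits {f q a : ℕ} (hf : f ≤ 1) (hq : q ≤ M.Q) (ha : a < numA M) :
    Digits (numD M) (rowP M f q a) := by
  have h1 := ctrl_lt (M := M) hf hq
  have h2 := lt_of_lt_of_le ha numA_le_numD
  unfold rowP
  split_ifs <;> intro b hb <;> simp only [List.mem_cons, List.not_mem_nil, or_false] at hb
  · subst hb; exact h1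
  · rcases hb with rfl | rfl
    · exact h1
    · exact h2

lemma rowB_digits {f a : ℕ} (ha : a < numA M) : Digits (numD M) (rowB f a) := by
  have h2 := lt_of_lt_of_le ha numA_le_numD
  unfold rowB
  split_ifs <;> intro b hb <;> simp only [List.mem_cons, List.not_mem_nil, or_false] at hb
  subst hb; exact h2

lemma rowU_digits {f q a : ℕ} (hf : f ≤ 1) (hq : q ≤ M.Q) (ha : a < numA M) :
    Digits (numD M) (rowU M f q a) := by
  have h2 := lt_of_lt_of_le ha numA_le_numD
  have hc0 := ctrl_lt (M := M) (f := 0) (q := q) (by omega) hq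
  have hc1 := ctrl_lt (M := M) (f := 1) (q := q) (by omega) hq
  have hc0' := ctrl_lt (M := M) (f := 0) (q := (M.next q a).1) (by omega) (next_fst_le M q a)
  have hc1' := ctrl_lt (M := M) (f := 1) (q := (M.next q a).1) (by omega) (next_fst_le M q a)
  have hs := lt_of_le_of_lt (next_snd_le M q a) (lt_of_lt_of_le (numA_gt_S (M := M)) numA_le_numD)
  unfold rowU
  split_ifs with h1 h3 h4 <;> intro b hb <;> simp only [List.mem_cons, List.not_mem_nil, or_false] at hb
  · rcases hb with rfl | rfl
    · exact hc0
    · exact h2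
  · subst hb; exact hc1
  · rcases hb with rfl | rfl | rfl
    · exact hc0'
    · exact hs
    · exact lt_of_lt_of_le (rec_lt hf hq (not_lt.mp h1)) numA_le_numD
  · subst hb; exact hc1'

lemma rowV_digits {f q a : ℕ} (hf : f ≤ 1) (hq : q ≤ M.Q) (ha : a < numA M) :
    Digits (numD M) (rowV M f q a) := by
  have h2 := lt_of_lt_of_le ha numA_le_numD
  have hs := lt_of_le_of_lt (next_snd_le M q a) (lt_of_lt_of_le (numA_gt_S (M := M)) numA_le_numD)
  unfold rowV
  split_ifs with h1 h3 h4 <;> intro b hb <;> simp only [List.mem_cons, List.not_mem_nil, or_false] at hb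
  · subst hb; exact h2
  · rcases hb with rfl | rfl
    · exact hs
    · exact lt_of_lt_of_le (rec_lt hf hq (not_lt.mp h1)) numA_le_numD

/-- The source of a row is matched only by the configurations of that row. -/
lemma row_source {d : SConfig} (hd : d.f ≤ 1) {f q a : ℕ} (hf : f ≤ 1) :
    (matchW (rowP M f q a) (stackX M d) ∧ matchW (rowB f a) d.R) ↔
      (f = d.f ∧ q = d.q ∧ a = readA d) := by
  by_cases h0 : f = 0
  · subst h0
    simp only [rowP, rowB, if_true, stackX, matchW, List.headD_cons, and_true]
    constructor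
    · rintro ⟨h1, h2⟩
      obtain ⟨h3, h4⟩ := ctrl_inj hd (by omega) h1
      refine ⟨h3.symm, h4.symm, ?_⟩
      simp [readA, ← h3, ← h2]
    · rintro ⟨h1, h2, h3⟩
      refine ⟨by rw [← h1, h2], ?_⟩
      rw [h3]
      simp [readA, ← h1]
  · have h1' : f = 1 := by omega
    subst h1'
    simp only [rowP, rowB, one_ne_zero, if_false, stackX, matchW, List.headD_cons, List.tail_cons,
      and_true]
    constructor
    · rintro ⟨h1, h2⟩
      obtain ⟨h3, h4⟩ := ctrl_inj hd (by omega) h1
      refine ⟨h3.symm, h4.symm, ?_⟩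
      have h5 : d.f ≠ 0 := by omega
      simp [readA, h5, ← h2]
    · rintro ⟨h1, h2, h3⟩
      refine ⟨by rw [← h1, h2], ?_⟩
      have h5 : d.f ≠ 0 := by omega
      rw [h3]
      simp [readA, h5]

/-- The image of a row is matched only by the image of that row. -/
lemma row_image {f q a f' q' a' : ℕ} (hf : f ≤ 1) (hf' : f' ≤ 1) (ha : a < numA M)
    {X Y : List ℕ} (hX : matchW (rowU M f q a) X) (hY : matchW (rowV M f q a) Y)
    (hX' : matchW (rowU M f' q' a') X) (hY' : matchW (rowV M f' q' a') Y) :
    f' = f ∧ q' = q ∧ a' = a := by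
  have hS : ∀ q a, (M.next q a).2.1 ≤ M.S := next_snd_le M
  have hR : ∀ f q a, M.S < recDigit M f q a := rec_gt M
  by_cases h1 : M.S < a <;> by_cases h1' : M.S < a'
  · -- skip, skip
    by_cases h0 : f = 0 <;> by_cases h0' : f' = 0
    · simp only [rowU, h1, h1', h0, h0', if_true, matchW, List.headD_cons] at hX hX'
      have h2 := hX.1
      have h3 := hX.2.1
      have h4 := hX'.1
      have h5 := hX'.2.1
      rw [h2] at h4
      obtain ⟨-, h6⟩ := ctrl_inj (by omega) (by omega) h4
      exact ⟨by omega, h6.symm, by omega⟩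
    · simp only [rowU, h1, h1', h0, h0', if_true, if_false, matchW] at hX hX'
      have h2 := hX.1
      have h3 := hX'.1
      rw [h2] at h3
      have := (ctrl_inj (M := M) (by omega) (by omega) h3).1
      omega
    · simp only [rowU, h1, h1', h0, h0', if_true, if_false, matchW] at hX hX'
      have h2 := hX.1
      have h3 := hX'.1
      rw [h2] at h3
      have := (ctrl_inj (M := M) (by omega) (by omega) h3).1
      omega
    · simp only [rowU, rowV, h1, h1', h0, h0', if_true, if_false, matchW] at hX hX' hY hY'
      have h2 := hX.1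
      have h3 := hX'.1
      rw [h2] at h3
      have h4 := (ctrl_inj (M := M) (by omega) (by omega) h3).2
      have h5 := hY.1
      have h6 := hY'.1
      rw [h5] at h6
      exact ⟨by omega, h4.symm, h6.symm⟩
  · -- skip, step
    exfalso
    by_cases h0 : f = 0 <;> by_cases hr : (M.next q' a').2.2 = true
    · simp only [rowU, h1, h1', h0, hr, if_true, if_false, matchW, List.headD_cons] at hX hX'
      have h2 := hX.2.1
      have h3 := hX'.2.1
      have := hS q' a'
      omega
    · simp only [rowU, h1, h1', h0, hr, if_true, if_false, matchW] at hX hX'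
      have h2 := hX.1
      have h3 := hX'.1
      rw [h2] at h3
      have := (ctrl_inj (M := M) (by omega) (by omega) h3).1
      omega
    · simp only [rowU, h1, h1', h0, hr, if_true, if_false, matchW] at hX hX'
      have h2 := hX.1
      have h3 := hX'.1
      rw [h2] at h3
      have := (ctrl_inj (M := M) (by omega) (by omega) h3).1
      omega
    · simp only [rowV, h1, h1', h0, hr, if_true, if_false, matchW] at hY hY'
      have h2 := hY.1
      have h3 := hY'.1
      have := hS q' a'
      omega
  · -- step, skip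
    exfalso
    by_cases h0 : f' = 0 <;> by_cases hr : (M.next q a).2.2 = true
    · simp only [rowU, h1, h1', h0, hr, if_true, if_false, matchW, List.headD_cons] at hX hX'
      have h2 := hX'.2.1
      have h3 := hX.2.1
      have := hS q a
      omega
    · simp only [rowU, h1, h1', h0, hr, if_true, if_false, matchW] at hX hX'
      have h2 := hX'.1
      have h3 := hX.1
      rw [h2] at h3
      have := (ctrl_inj (M := M) (by omega) (by omega) h3).1
      omega
    · simp only [rowU, h1, h1', h0, hr, if_true, if_false, matchW] at hX hX'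
      have h2 := hX'.1
      have h3 := hX.1
      rw [h2] at h3
      have := (ctrl_inj (M := M) (by omega) (by omega) h3).1
      omega
    · simp only [rowV, h1, h1', h0, hr, if_true, if_false, matchW] at hY hY'
      have h2 := hY'.1
      have h3 := hY.1
      have := hS q a
      omega
  · -- step, step
    have h1n := not_lt.mp h1
    have h1n' := not_lt.mp h1'
    by_cases hr : (M.next q a).2.2 = true <;> by_cases hr' : (M.next q' a').2.2 = true
    · simp only [rowU, h1, h1', hr, hr', if_true, if_false, matchW, List.tail_cons] at hX hX'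
      have h2 := hX.2.2.1
      have h3 := hX'.2.2.1
      rw [h2] at h3
      obtain ⟨h4, h5, h6⟩ := rec_inj hf hf' h1n h1n' h3
      exact ⟨h4.symm, h5.symm, h6.symm⟩
    · simp only [rowU, h1, h1', hr, hr', if_true, if_false, matchW] at hX hX'
      have h2 := hX.1
      have h3 := hX'.1
      rw [h2] at h3
      have := (ctrl_inj (M := M) (by omega) (by omega) h3).1
      omega
    · simp only [rowU, h1, h1', hr, hr', if_true, if_false, matchW] at hX hX'
      have h2 := hX.1
      have h3 := hX'.1
      rw [h2] at h3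
      have := (ctrl_inj (M := M) (by omega) (by omega) h3).1
      omega
    · simp only [rowV, h1, h1', hr, hr', if_true, if_false, matchW, List.tail_cons] at hY hY'
      have h2 := hY.2.1
      have h3 := hY'.2.1
      rw [h2] at h3
      obtain ⟨h4, h5, h6⟩ := rec_inj hf hf' h1n h1n' h3
      exact ⟨h4.symm, h5.symm, h6.symm⟩

/-! ### Indexing the rows -/

/-- The number of rows. -/
def numRows (M : Machine) : ℕ := 2 * (numA M * (M.Q + 1))

/-- The mode of the row of index `i`. -/
def rowF (i : ℕ) : ℕ := i % 2
/-- The digit of the row of index `i`. -/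
def rowD (M : Machine) (i : ℕ) : ℕ := (i / 2) % numA M
/-- The state of the row of index `i`. -/
def rowS (M : Machine) (i : ℕ) : ℕ := (i / 2) / numA M

/-- The index of the row `(f, q, a)`. -/
def rowIdx (M : Machine) (f q a : ℕ) : ℕ := f + 2 * (a + numA M * q)

lemma rowF_le (i : ℕ) : rowF i ≤ 1 := by
  unfold rowF; omega

lemma rowD_lt (i : ℕ) : rowD M i < numA M := Nat.mod_lt _ numA_pos

lemma rowS_le {i : ℕ} (hi : i < numRows M) : rowS M i ≤ M.Q := by
  unfold rowS
  have h1 : i / 2 < numA M * (M.Q + 1) := by
    unfold numRows at hi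
    omega
  have h2 : i / 2 / numA M < M.Q + 1 := Nat.div_lt_of_lt_mul h1
  omega

lemma rowIdx_decode (i : ℕ) : rowIdx M (rowF i) (rowS M i) (rowD M i) = i := by
  unfold rowIdx rowF rowS rowD
  have h1 : i / 2 % numA M + numA M * (i / 2 / numA M) = i / 2 := Nat.mod_add_div _ _
  rw [h1]
  omega

lemma rowIdx_lt {f q a : ℕ} (hf : f ≤ 1) (hq : q ≤ M.Q) (ha : a < numA M) :
    rowIdx M f q a < numRows M := by
  unfold rowIdx numRows
  have h : numA M * q + numA M ≤ numA M * (M.Q + 1) := by
    rw [Nat.mul_add (numA M) M.Q 1, mul_one]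
    have := Nat.mul_le_mul_left (numA M) hq
    omega
  omega

lemma rowF_idx {f q a : ℕ} (hf : f ≤ 1) : rowF (rowIdx M f q a) = f := by
  unfold rowF rowIdx
  omega

lemma half_idx {f q a : ℕ} (hf : f ≤ 1) : rowIdx M f q a / 2 = a + numA M * q := by
  unfold rowIdx
  omega

lemma rowD_idx {f q a : ℕ} (hf : f ≤ 1) (ha : a < numA M) : rowD M (rowIdx M f q a) = a := by
  unfold rowD
  rw [half_idx hf, Nat.add_mul_mod_self_left, Nat.mod_eq_of_lt ha]

lemma rowS_idx {f q a : ℕ} (hf : f ≤ 1) (ha : a < numA M) : rowS M (rowIdx M f q a) = q := by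
  unfold rowS
  rw [half_idx hf, Nat.add_mul_div_left _ _ numA_pos, Nat.div_eq_of_lt ha]
  omega

/-- The index of the row of a configuration. -/
def SConfig.idx (M : Machine) (d : SConfig) : ℕ := rowIdx M d.f d.q (readA d)

lemma readA_lt {d : SConfig} (h : SValid M d) : readA d < numA M := by
  unfold readA
  split_ifs
  · exact h.R_dig.headD numA_pos
  · exact h.L_dig.headD numA_pos

lemma SConfig.idx_lt {d : SConfig} (h : SValid M d) : d.idx M < numRows M :=
  rowIdx_lt h.f_le h.q_le (readA_lt h)

/-- Selection of the row by its source. -/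
lemma row_select_source {d : SConfig} (h : SValid M d) (i : ℕ) :
    (matchW (rowP M (rowF i) (rowS M i) (rowD M i)) (stackX M d) ∧
      matchW (rowB (rowF i) (rowD M i)) d.R) ↔ i = d.idx M := by
  rw [row_source h.f_le (rowF_le i)]
  constructor
  · rintro ⟨h1, h2, h3⟩
    rw [← rowIdx_decode (M := M) i, h1, h2, h3]
    rfl
  · rintro rfl
    exact ⟨rowF_idx h.f_le, rowS_idx h.f_le (readA_lt h), rowD_idx h.f_le (readA_lt h)⟩

/-- Selection of the row by its image. -/
lemma row_select_image {d : SConfig} (h : SValid M d) (i : ℕ) :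
    (matchW (rowU M (rowF i) (rowS M i) (rowD M i)) (stackX M (snext M d)) ∧
      matchW (rowV M (rowF i) (rowS M i) (rowD M i)) (snext M d).R) ↔ i = d.idx M := by
  have hU : matchW (rowU M d.f d.q (readA d)) (stackX M (snext M d)) := by
    rw [snext_stackX h.f_le]
    exact matchW_append _ _
  have hV : matchW (rowV M d.f d.q (readA d)) (snext M d).R := by
    rw [snext_stackY h.f_le]
    exact matchW_append _ _
  constructor
  · rintro ⟨h1, h2⟩
    obtain ⟨h3, h4, h5⟩ := row_image h.f_le (rowF_le i) (readA_lt h) hU hV h1 h2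
    rw [← rowIdx_decode (M := M) i, h3, h4, h5]
    rfl
  · rintro rfl
    have e1 := rowF_idx (M := M) (q := d.q) (a := readA d) h.f_le
    have e2 := rowS_idx (M := M) (q := d.q) (f := d.f) h.f_le (readA_lt h)
    have e3 := rowD_idx (M := M) (q := d.q) (f := d.f) h.f_le (readA_lt h)
    simp only [SConfig.idx]
    rw [e1, e2, e3]
    exact ⟨hU, hV⟩

end Vale.Agent.Lib.P113
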