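import Mathlib

/-!
# The smooth step function used in the construction
-/

open scoped ContDiff
open Set MeasureTheory intervalIntegral

namespace Vale.Agent.Lib.P113

noncomputable section

/-- The bump `exp(-1/s) exp(-1/(1-s))` on `(0,1)`, zero elsewhere. -/
def bumpB (s : ℝ) : ℝ := expNegInvGlue s * expNegInvGlue (1 - s)

lemma bumpB_contDiff : ContDiff ℝ ∞ bumpB :=
  expNegInvGlue.contDiff.mul (expNegInvGlue.contDiff.comp (contDiff_const.sub contDiff_id))

lemma bumpB_continuous : Continuous bumpB := bumpB_contDiff.continuous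

lemma bumpB_nonneg (s : ℝ) : 0 ≤ bumpB s :=
  mul_nonneg (expNegInvGlue.nonneg _) (expNegInvGlue.nonneg _)

lemma bumpB_of_nonpos {s : ℝ} (h : s ≤ 0) : bumpB s = 0 := by
  simp [bumpB, expNegInvGlue.zero_of_nonpos h]

lemma bumpB_of_one_le {s : ℝ} (h : 1 ≤ s) : bumpB s = 0 := by
  have : 1 - s ≤ 0 := by linarith
  simp [bumpB, expNegInvGlue.zero_of_nonpos this]

lemma bumpB_pos {s : ℝ} (h0 : 0 < s) (h1 : s < 1) : 0 < bumpB s :=
  mul_pos (expNegInvGlue.pos_of_pos h0) (expNegInvGlue.pos_of_pos (by linarith))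

/-- The primitive of the bump. -/
def primJ (s : ℝ) : ℝ := ∫ r in (0 : ℝ)..s, bumpB r

/-- The total mass of the bump. -/
def massI : ℝ := primJ 1

lemma massI_pos : 0 < massI := by
  unfold massI primJ
  refine intervalIntegral.intervalIntegral_pos_of_pos_on (bumpB_continuous.intervalIntegrable _ _) ?_ ?_
  · intro x hx
    exact bumpB_pos hx.1 hx.2
  · norm_num

lemma primJ_hasDerivAt (s : ℝ) : HasDerivAt primJ (bumpB s) s :=
  intervalIntegral.integral_hasDerivAt_right (bumpB_continuous.intervalIntegrable _ _)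
    (bumpB_continuous.stronglyMeasurableAtFilter _ _) bumpB_continuous.continuousAt

lemma primJ_deriv : deriv primJ = bumpB := funext fun s => (primJ_hasDerivAt s).deriv

lemma primJ_contDiff : ContDiff ℝ ∞ primJ := by
  rw [contDiff_infty_iff_deriv]
  refine ⟨fun s => (primJ_hasDerivAt s).differentiableAt, ?_⟩
  rw [primJ_deriv]
  exact bumpB_contDiff

lemma primJ_of_nonpos {s : ℝ} (h : s ≤ 0) : primJ s = 0 := by
  unfold primJ
  rw [intervalIntegral.integral_of_ge h]
  rw [neg_eq_zero]
  apply MeasureTheory.setIntegral_eq_zero_of_forall_eq_zero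
  intro x hx
  exact bumpB_of_nonpos hx.2

lemma primJ_of_one_le {s : ℝ} (h : 1 ≤ s) : primJ s = massI := by
  unfold massI primJ
  have hi : ∀ a b : ℝ, IntervalIntegrable bumpB volume a b :=
    fun a b => bumpB_continuous.intervalIntegrable a b
  rw [← intervalIntegral.integral_add_adjacent_intervals (hi 0 1) (hi 1 s)]
  have : ∫ r in (1 : ℝ)..s, bumpB r = 0 := by
    rw [intervalIntegral.integral_of_le h]
    apply MeasureTheory.setIntegral_eq_zero_of_forall_eq_zero
    intro x hx
    exact bumpB_of_one_le hx.1.le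
  rw [this, add_zero]

lemma primJ_mono : Monotone primJ := by
  apply monotone_of_deriv_nonneg (fun s => (primJ_hasDerivAt s).differentiableAt)
  intro s
  rw [primJ_deriv]
  exact bumpB_nonneg s

/-- The smooth step: `0` on `(-∞,0]`, `1` on `[1,∞)`. -/
def stepS (s : ℝ) : ℝ := primJ s / massI

lemma stepS_contDiff : ContDiff ℝ ∞ stepS := primJ_contDiff.div_const _

lemma stepS_of_nonpos {s : ℝ} (h : s ≤ 0) : stepS s = 0 := by
  simp [stepS, primJ_of_nonpos h]

lemma stepS_of_one_le {s : ℝ} (h : 1 ≤ s) : stepS s = 1 := by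
  simp [stepS, primJ_of_one_le h, massI_pos.ne']

lemma stepS_mono : Monotone stepS := fun a b h => by
  unfold stepS
  exact div_le_div_of_nonneg_right (primJ_mono h) massI_pos.le

lemma stepS_nonneg (s : ℝ) : 0 ≤ stepS s := by
  have h := stepS_mono (min_le_left s 0)
  rw [stepS_of_nonpos (min_le_right s 0)] at h
  exact h

lemma stepS_le_one (s : ℝ) : stepS s ≤ 1 := by
  have h := stepS_mono (le_max_left s 1)
  rwa [stepS_of_one_le (le_max_right s 1)] at h

lemma stepS_hasDerivAt (s : ℝ) : HasDerivAt stepS (bumpB s / massI) s :=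
  (primJ_hasDerivAt s).div_const _

/-- The time profile: `0` on `(-∞,1/4]`, `1` on `[3/4,∞)`. -/
def timeP (s : ℝ) : ℝ := stepS (2 * s - 1 / 2)

lemma timeP_contDiff : ContDiff ℝ ∞ timeP :=
  stepS_contDiff.comp ((contDiff_const.mul contDiff_id).sub contDiff_const)

lemma timeP_of_le {s : ℝ} (h : s ≤ 1 / 4) : timeP s = 0 :=
  stepS_of_nonpos (by linarith)

lemma timeP_of_ge {s : ℝ} (h : 3 / 4 ≤ s) : timeP s = 1 :=
  stepS_of_one_le (by linarith)

lemma timeP_nonneg (s : ℝ) : 0 ≤ timeP s := stepS_nonneg _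
lemma timeP_le_one (s : ℝ) : timeP s ≤ 1 := stepS_le_one _

end

end Vale.Agent.Lib.P113
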