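import Vale.Agent.Lib.P113.Defs
import Vale.Agent.Lib.P113.Step

/-!
# Shear fields and the associated explicit Navier-Stokes solutions
-/

open scoped ContDiff Topology
open Set Filter

namespace Vale.Agent.Lib.P113

noncomputable section

/-- Derivatives of the time profile. -/
def tauT (n : ℕ) (s : ℝ) : ℝ := iteratedDeriv n timeP s

lemma tauT_succ (n : ℕ) : deriv (tauT n) = tauT (n + 1) := by
  funext s
  show deriv (iteratedDeriv n timeP) s = iteratedDeriv (n + 1) timeP s
  rw [iteratedDeriv_succ]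

lemma tauT_contDiff (n : ℕ) : ContDiff ℝ ∞ (tauT n) := by
  induction n with
  | zero =>
    have : tauT 0 = timeP := by funext s; simp [tauT]
    rw [this]
    exact timeP_contDiff
  | succ n ih =>
    rw [← tauT_succ]
    exact (contDiff_infty_iff_deriv.mp ih).2

lemma tauT_hasDerivAt (n : ℕ) (s : ℝ) : HasDerivAt (tauT n) (tauT (n + 1) s) s := by
  rw [← tauT_succ]
  apply DifferentiableAt.hasDerivAt
  exact ((tauT_contDiff n).differentiable (by simp)) s

lemma tauT_zero (s : ℝ) : tauT 0 s = timeP s := by simp [tauT]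

lemma tauT_of_lt {n : ℕ} (hn : n ≠ 0) {s : ℝ} (h : s < 1 / 4) : tauT n s = 0 := by
  have h1 : timeP =ᶠ[𝓝 s] fun _ => 0 := by
    filter_upwards [Iio_mem_nhds h] with y hy
    exact timeP_of_le (le_of_lt hy)
  unfold tauT
  rw [h1.iteratedDeriv_eq n, iteratedDeriv_const]
  simp [hn]

lemma tauT_of_gt {n : ℕ} (hn : n ≠ 0) {s : ℝ} (h : 3 / 4 < s) : tauT n s = 0 := by
  have h1 : timeP =ᶠ[𝓝 s] fun _ => 1 := by
    filter_upwards [Ioi_mem_nhds h] with y hy
    exact timeP_of_ge (le_of_lt hy)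
  unfold tauT
  rw [h1.iteratedDeriv_eq n, iteratedDeriv_const]
  simp [hn]

lemma iteratedDeriv_tauT (n m : ℕ) (s : ℝ) : iteratedDeriv n (tauT m) s = tauT (n + m) s := by
  induction n generalizing s with
  | zero => simp
  | succ n ih =>
    rw [iteratedDeriv_succ]
    have : iteratedDeriv n (tauT m) = tauT (n + m) := funext ih
    rw [this, tauT_succ]
    congr 1
    omega

/-- The gluing lemma: near the phase `k`, `τ(t - ⌊t⌋) • G ⌊t⌋` is given by the index `k`. -/
lemma glue_eq {β : Type*} [AddCommMonoid β] [Module ℝ β] {n : ℕ} (hn : n ≠ 0) (G : ℤ → β) (k : ℤ)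
    {t : ℝ} (h1 : (k : ℝ) - 1 / 4 < t) (h2 : t < k + 1) :
    tauT n (t - ⌊t⌋) • G ⌊t⌋ = tauT n (t - k) • G k := by
  by_cases h : (k : ℝ) ≤ t
  · have : ⌊t⌋ = k := Int.floor_eq_iff.mpr ⟨h, h2⟩
    rw [this]
  · have h := not_le.mp h
    have hf : ⌊t⌋ = k - 1 := by
      rw [Int.floor_eq_iff]
      push_cast
      constructor <;> linarith
    rw [hf, tauT_of_lt hn (s := t - k) (by linarith), tauT_of_gt hn (s := t - ((k - 1 : ℤ) : ℝ))
      (by push_cast; linarith)]
    simp

/-- A system of derivatives: `B m` stands for `∂^m B₀`. -/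
def IsDSys (B : (Fin 3 → ℕ) → R3 → ℝ) : Prop :=
  (∀ m, ContDiff ℝ ∞ (B m)) ∧
    ∀ m (i : Fin 3) (x : R3), fderiv ℝ (B m) x (e i) = B (m + Pi.single i 1) x

lemma IsDSys.shift {B : (Fin 3 → ℕ) → R3 → ℝ} (h : IsDSys B) (μ : Fin 3 → ℕ) :
    IsDSys (fun m => B (μ + m)) := by
  refine ⟨fun m => h.1 _, fun m i x => ?_⟩
  rw [h.2, add_assoc]

lemma IsDSys.const_mul {B : (Fin 3 → ℕ) → R3 → ℝ} (h : IsDSys B) (c : ℝ) :
    IsDSys (fun m x => c * B m x) := by
  refine ⟨fun m => contDiff_const.mul (h.1 m), fun m i x => ?_⟩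
  have hd : DifferentiableAt ℝ (B m) x := ((h.1 m).differentiable (by simp)) x
  rw [fderiv_const_mul hd]
  simp [h.2]

lemma IsDSys.add {B C : (Fin 3 → ℕ) → R3 → ℝ} (h : IsDSys B) (h' : IsDSys C) :
    IsDSys (fun m x => B m x + C m x) := by
  refine ⟨fun m => (h.1 m).add (h'.1 m), fun m i x => ?_⟩
  have hd : DifferentiableAt ℝ (B m) x := ((h.1 m).differentiable (by simp)) x
  have hd' : DifferentiableAt ℝ (C m) x := ((h'.1 m).differentiable (by simp)) x
  rw [fderiv_fun_add hd hd']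
  simp [h.2, h'.2]

lemma IsDSys.sum {ι : Type*} (s : Finset ι) {B : ι → (Fin 3 → ℕ) → R3 → ℝ} (h : ∀ i ∈ s, IsDSys (B i)) :
    IsDSys (fun m x => ∑ i ∈ s, B i m x) := by
  classical
  induction s using Finset.induction_on with
  | empty =>
    refine ⟨fun m => ?_, fun m i x => ?_⟩
    · simpa using contDiff_const
    · simp
  | insert a s ha ih =>
    have h1 := (h a (Finset.mem_insert_self _ _)).add (ih fun i hi => h i (Finset.mem_insert_of_mem hi))
    simpa [Finset.sum_insert ha] using h1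

/-- Slice derivatives of a system of derivatives. -/
lemma IsDSys.slice0 {B : (Fin 3 → ℕ) → R3 → ℝ} (h : IsDSys B) (n : ℕ) (a b c : ℝ) (μ : Fin 3 → ℕ) :
    iteratedDeriv n (fun r => B μ ![r, b, c]) a = B (μ + n • Pi.single 0 1) ![a, b, c] := by
  induction n generalizing μ with
  | zero => simp
  | succ n ih =>
    rw [iteratedDeriv_succ']
    have hd : deriv (fun r => B μ ![r, b, c]) = fun r => B (μ + Pi.single 0 1) ![r, b, c] := by
      funext r
      have h1 : HasFDerivAt (B μ) (fderiv ℝ (B μ) ![r, b, c]) ![r, b, c] :=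
        ((h.1 μ).differentiable (by simp) _).hasFDerivAt
      have h2 : HasDerivAt (fun r : ℝ => (![r, b, c] : R3)) (e 0) r := by
        rw [hasDerivAt_pi]
        intro i
        fin_cases i
        · simpa [e] using hasDerivAt_id' r
        · simpa [e] using hasDerivAt_const r b
        · simpa [e] using hasDerivAt_const r c
      have h3 := h1.comp_hasDerivAt r h2
      have h4 : deriv (fun r : ℝ => B μ ![r, b, c]) r = fderiv ℝ (B μ) ![r, b, c] (e 0) := h3.deriv
      rw [h4, h.2]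
    rw [hd, ih]
    congr 1
    rw [add_assoc, succ_nsmul']

lemma IsDSys.slice1 {B : (Fin 3 → ℕ) → R3 → ℝ} (h : IsDSys B) (n : ℕ) (a b c : ℝ) (μ : Fin 3 → ℕ) :
    iteratedDeriv n (fun r => B μ ![a, r, c]) b = B (μ + n • Pi.single 1 1) ![a, b, c] := by
  induction n generalizing μ with
  | zero => simp
  | succ n ih =>
    rw [iteratedDeriv_succ']
    have hd : deriv (fun r => B μ ![a, r, c]) = fun r => B (μ + Pi.single 1 1) ![a, r, c] := by
      funext r
      have h1 : HasFDerivAt (B μ) (fderiv ℝ (B μ) ![a, r, c]) ![a, r, c] :=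
        ((h.1 μ).differentiable (by simp) _).hasFDerivAt
      have h2 : HasDerivAt (fun r : ℝ => (![a, r, c] : R3)) (e 1) r := by
        rw [hasDerivAt_pi]
        intro i
        fin_cases i
        · simpa [e] using hasDerivAt_const r a
        · simpa [e] using hasDerivAt_id' r
        · simpa [e] using hasDerivAt_const r c
      have h3 := h1.comp_hasDerivAt r h2
      have h4 : deriv (fun r : ℝ => B μ ![a, r, c]) r = fderiv ℝ (B μ) ![a, r, c] (e 1) := h3.deriv
      rw [h4, h.2]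
    rw [hd, ih]
    congr 1
    rw [add_assoc, succ_nsmul']

lemma IsDSys.slice2 {B : (Fin 3 → ℕ) → R3 → ℝ} (h : IsDSys B) (n : ℕ) (a b c : ℝ) (μ : Fin 3 → ℕ) :
    iteratedDeriv n (fun r => B μ ![a, b, r]) c = B (μ + n • Pi.single 2 1) ![a, b, c] := by
  induction n generalizing μ with
  | zero => simp
  | succ n ih =>
    rw [iteratedDeriv_succ']
    have hd : deriv (fun r => B μ ![a, b, r]) = fun r => B (μ + Pi.single 2 1) ![a, b, r] := by
      funext r
      have h1 : HasFDerivAt (B μ) (fderiv ℝ (B μ) ![a, b, r]) ![a, b, r] :=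
        ((h.1 μ).differentiable (by simp) _).hasFDerivAt
      have h2 : HasDerivAt (fun r : ℝ => (![a, b, r] : R3)) (e 2) r := by
        rw [hasDerivAt_pi]
        intro i
        fin_cases i
        · simpa [e] using hasDerivAt_const r a
        · simpa [e] using hasDerivAt_const r b
        · simpa [e] using hasDerivAt_id' r
      have h3 := h1.comp_hasDerivAt r h2
      have h4 : deriv (fun r : ℝ => B μ ![a, b, r]) r = fderiv ℝ (B μ) ![a, b, r] (e 2) := h3.deriv
      rw [h4, h.2]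
    rw [hd, ih]
    congr 1
    rw [add_assoc, succ_nsmul']

/-- The order vector `![m₀, m₁, m₂]` as a sum of basis orders. -/
def orderVec (m₀ m₁ m₂ : ℕ) : Fin 3 → ℕ := ![m₀, m₁, m₂]

/-- The nested derivative of a system of derivatives. -/
lemma IsDSys.nested {B : (Fin 3 → ℕ) → R3 → ℝ} (h : IsDSys B) (m₀ m₁ m₂ : ℕ) (x₀ x₁ x₂ : ℝ) :
    iteratedDeriv m₀ (fun y₀ =>
      iteratedDeriv m₁ (fun y₁ =>
        iteratedDeriv m₂ (fun y₂ => B 0 ![y₀, y₁, y₂]) x₂) x₁) x₀
      = B (orderVec m₀ m₁ m₂) ![x₀, x₁, x₂] := by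
  have e1 : (fun y₀ => iteratedDeriv m₁ (fun y₁ =>
        iteratedDeriv m₂ (fun y₂ => B 0 ![y₀, y₁, y₂]) x₂) x₁)
      = fun y₀ => B ((0 + m₂ • Pi.single 2 1) + m₁ • Pi.single 1 1) ![y₀, x₁, x₂] := by
    funext y₀
    have e2 : (fun y₁ => iteratedDeriv m₂ (fun y₂ => B 0 ![y₀, y₁, y₂]) x₂)
        = fun y₁ => B (0 + m₂ • Pi.single 2 1) ![y₀, y₁, x₂] := by
      funext y₁
      exact h.slice2 _ _ _ _ _
    rw [e2]
    exact h.slice1 _ _ _ _ _
  rw [e1, h.slice0]
  congr 1
  funext i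
  fin_cases i <;> simp [orderVec]

end

end Vale.Agent.Lib.P113
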