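import Vale.Agent.Lib.P113.Defs

/-!
# An injective two-stack simulation of a Turing machine
-/

namespace Vale.Agent.Lib.P113

/-- Record digits: `f` says which seek mode the step started from, `q, s` the state and symbol. -/
def recDigit (M : Machine) (f q s : ℕ) : ℕ := M.S + 1 + f + 2 * (s + (M.S + 1) * q)

/-- Symbols and records are the digits below `numA M`. -/
def numA (M : Machine) : ℕ := M.S + 1 + 2 * ((M.S + 1) * (M.Q + 1))

/-- The control digit of mode `f` and state `q`. -/
def ctrlDigit (M : Machine) (f q : ℕ) : ℕ := numA M + f + 2 * q

/-- The number of digits. -/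
def numD (M : Machine) : ℕ := numA M + 2 * (M.Q + 1)

/-- Configurations of the two-stack machine: mode `f` (`0`: seeking right, otherwise seeking left),
state, left stack, right stack. -/
structure SConfig where
  f : ℕ
  q : ℕ
  L : List ℕ
  R : List ℕ

/-- One step of the two-stack machine. -/
def snext (M : Machine) (d : SConfig) : SConfig :=
  if d.f = 0 then
    let a := d.R.headD 0
    if M.S < a then ⟨0, d.q, a :: d.L, d.R.tail⟩
    else
      let r := M.next d.q a
      let rc := recDigit M 0 d.q a
      if r.2.2 then ⟨0, r.1, r.2.1 :: rc :: d.L, d.R.tail⟩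
      else ⟨1, r.1, d.L, r.2.1 :: rc :: d.R.tail⟩
  else
    let a := d.L.headD 0
    if M.S < a then ⟨1, d.q, d.L.tail, a :: d.R⟩
    else
      let r := M.next d.q a
      let rc := recDigit M 1 d.q a
      if r.2.2 then ⟨0, r.1, r.2.1 :: rc :: d.L.tail, d.R⟩
      else ⟨1, r.1, d.L.tail, r.2.1 :: rc :: d.R⟩

/-- The tape symbols on a stack (records erased). -/
def syms (M : Machine) (l : List ℕ) : List ℕ := l.filter (· ≤ M.S)

/-- The simulation relation. -/
def SimRel (M : Machine) (c : Config) (d : SConfig) : Prop :=
  d.q = c.state ∧
  ∃ b : ℤ, b = (if d.f = 0 then c.head else c.head + 1) ∧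
    ∀ i : ℕ, (syms M d.L).getD i 0 = c.tape (b - 1 - i) ∧ (syms M d.R).getD i 0 = c.tape (b + i)

lemma next_fst_le (M : Machine) (q a : ℕ) : (M.next q a).1 ≤ M.Q := by
  simp only [Machine.next]
  exact Nat.lt_succ_iff.mp (Nat.mod_lt _ (Nat.succ_pos _))

lemma next_snd_le (M : Machine) (q a : ℕ) : (M.next q a).2.1 ≤ M.S := by
  simp only [Machine.next]
  exact Nat.lt_succ_iff.mp (Nat.mod_lt _ (Nat.succ_pos _))

lemma rec_gt (M : Machine) (f q s : ℕ) : M.S < recDigit M f q s := by
  unfold recDigit; omega

lemma syms_cons_le {M : Machine} {a : ℕ} (h : a ≤ M.S) (l : List ℕ) :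
    syms M (a :: l) = a :: syms M l := by
  simp [syms, h]

lemma syms_cons_gt {M : Machine} {a : ℕ} (h : M.S < a) (l : List ℕ) :
    syms M (a :: l) = syms M l := by
  simp [syms, not_le.mpr h]

/-- Reading the first stacked symbol, when the top of the stack is a symbol. -/
lemma syms_getD_zero {M : Machine} {l : List ℕ} (h : ¬ M.S < l.headD 0) :
    (syms M l).getD 0 0 = l.headD 0 := by
  cases l with
  | nil => simp [syms]
  | cons a t =>
    simp only [List.headD_cons] at h
    rw [syms_cons_le (not_lt.mp h)]
    simp

lemma syms_getD_succ {M : Machine} {l : List ℕ} (h : ¬ M.S < l.headD 0) (i : ℕ) :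
    (syms M l).getD (i + 1) 0 = (syms M l.tail).getD i 0 := by
  cases l with
  | nil => simp [syms]
  | cons a t =>
    simp only [List.headD_cons] at h
    rw [syms_cons_le (not_lt.mp h)]
    simp

lemma syms_tail_of_gt {M : Machine} {l : List ℕ} (h : M.S < l.headD 0) :
    syms M l.tail = syms M l := by
  cases l with
  | nil => simp at h
  | cons a t =>
    simp only [List.headD_cons] at h
    rw [syms_cons_gt h]
    simp

/-- A measure for the skip steps. -/
def skipMeasure (d : SConfig) : ℕ := if d.f = 0 then d.R.length else d.L.length

lemma step_state (M : Machine) (c : Config) :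
    (M.step c).state = (M.next c.state (c.tape c.head)).1 := rfl

lemma step_tape (M : Machine) (c : Config) :
    (M.step c).tape = Function.update c.tape c.head (M.next c.state (c.tape c.head)).2.1 := rfl

lemma step_head_true (M : Machine) (c : Config) (h : (M.next c.state (c.tape c.head)).2.2 = true) :
    (M.step c).head = c.head + 1 := by
  simp only [Machine.step]
  rw [if_pos h]

lemma step_head_false (M : Machine) (c : Config)
    (h : ¬ (M.next c.state (c.tape c.head)).2.2 = true) :
    (M.step c).head = c.head - 1 := by
  simp only [Machine.step]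
  rw [if_neg h]

lemma snext_R_skip (M : Machine) {d : SConfig} (hf : d.f = 0) (ha : M.S < d.R.headD 0) :
    snext M d = ⟨0, d.q, d.R.headD 0 :: d.L, d.R.tail⟩ := by
  unfold snext
  rw [if_pos hf]
  exact if_pos ha

lemma snext_R_right (M : Machine) {d : SConfig} (hf : d.f = 0) (ha : ¬ M.S < d.R.headD 0)
    (hr : (M.next d.q (d.R.headD 0)).2.2 = true) :
    snext M d = ⟨0, (M.next d.q (d.R.headD 0)).1,
      (M.next d.q (d.R.headD 0)).2.1 :: recDigit M 0 d.q (d.R.headD 0) :: d.L, d.R.tail⟩ := by
  unfold snext
  rw [if_pos hf]
  refine (if_neg ha).trans ?_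
  exact if_pos hr

lemma snext_R_left (M : Machine) {d : SConfig} (hf : d.f = 0) (ha : ¬ M.S < d.R.headD 0)
    (hr : ¬ (M.next d.q (d.R.headD 0)).2.2 = true) :
    snext M d = ⟨1, (M.next d.q (d.R.headD 0)).1, d.L,
      (M.next d.q (d.R.headD 0)).2.1 :: recDigit M 0 d.q (d.R.headD 0) :: d.R.tail⟩ := by
  unfold snext
  rw [if_pos hf]
  refine (if_neg ha).trans ?_
  exact if_neg hr

lemma snext_L_skip (M : Machine) {d : SConfig} (hf : ¬ d.f = 0) (ha : M.S < d.L.headD 0) :
    snext M d = ⟨1, d.q, d.L.tail, d.L.headD 0 :: d.R⟩ := by
  unfold snext
  rw [if_neg hf]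
  exact if_pos ha

lemma snext_L_right (M : Machine) {d : SConfig} (hf : ¬ d.f = 0) (ha : ¬ M.S < d.L.headD 0)
    (hr : (M.next d.q (d.L.headD 0)).2.2 = true) :
    snext M d = ⟨0, (M.next d.q (d.L.headD 0)).1,
      (M.next d.q (d.L.headD 0)).2.1 :: recDigit M 1 d.q (d.L.headD 0) :: d.L.tail, d.R⟩ := by
  unfold snext
  rw [if_neg hf]
  refine (if_neg ha).trans ?_
  exact if_pos hr

lemma snext_L_left (M : Machine) {d : SConfig} (hf : ¬ d.f = 0) (ha : ¬ M.S < d.L.headD 0)
    (hr : ¬ (M.next d.q (d.L.headD 0)).2.2 = true) :
    snext M d = ⟨1, (M.next d.q (d.L.headD 0)).1, d.L.tail,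
      (M.next d.q (d.L.headD 0)).2.1 :: recDigit M 1 d.q (d.L.headD 0) :: d.R⟩ := by
  unfold snext
  rw [if_neg hf]
  refine (if_neg ha).trans ?_
  exact if_neg hr

lemma snext_spec (M : Machine) {c : Config} {d : SConfig} (h : SimRel M c d) :
    (SimRel M c (snext M d) ∧ skipMeasure (snext M d) < skipMeasure d) ∨
      SimRel M (M.step c) (snext M d) := by
  obtain ⟨hq, b, hb, hi⟩ := h
  by_cases hf : d.f = 0
  · -- seeking right
    have hb' : b = c.head := by simpa [hf] using hb
    subst hb'
    by_cases ha : M.S < d.R.headD 0
    · left
      rw [snext_R_skip M hf ha]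
      refine ⟨⟨hq, c.head, by simp, ?_⟩, ?_⟩
      · intro i
        simp only
        rw [syms_cons_gt ha, syms_tail_of_gt ha]
        exact hi i
      · have hne : d.R ≠ [] := by
          intro h0; rw [h0] at ha; simp at ha
        simp only [skipMeasure, hf, if_true, List.length_tail]
        have := List.length_pos_iff.mpr hne
        omega
    · right
      have hread : c.tape c.head = d.R.headD 0 := by
        have := (hi 0).2
        simp only [Nat.cast_zero, add_zero] at this
        rw [← this, syms_getD_zero ha]
      have hst : c.state = d.q := hq.symm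
      have hstate := step_state M c
      have htape := step_tape M c
      rw [hread, hst] at hstate htape
      by_cases hr : (M.next d.q (d.R.headD 0)).2.2 = true
      · rw [snext_R_right M hf ha hr]
        have hhead := step_head_true M c (by rw [hread, hst]; exact hr)
        refine ⟨hstate.symm, c.head + 1, by simp [hhead], ?_⟩
        intro i
        constructor
        · simp only
          rw [syms_cons_le (next_snd_le _ _ _), syms_cons_gt (rec_gt _ _ _ _), htape]
          cases i with
          | zero => simp
          | succ n =>
            have hne : (c.head + 1 - 1 - ((n + 1 : ℕ) : ℤ)) ≠ c.head := by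
              push_cast; omega
            rw [Function.update_of_ne hne]
            have := (hi n).1
            simp only [List.getD_cons_succ]
            rw [this]
            congr 1
            push_cast; ring
        · simp only
          rw [htape, ← syms_getD_succ ha]
          have hne : (c.head + 1 + (i : ℤ)) ≠ c.head := by omega
          rw [Function.update_of_ne hne]
          have := (hi (i + 1)).2
          rw [this]
          congr 1
          push_cast; ring
      · rw [snext_R_left M hf ha hr]
        have hhead := step_head_false M c (by rw [hread, hst]; exact hr)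
        refine ⟨hstate.symm, c.head, by simp [hhead], ?_⟩
        intro i
        constructor
        · simp only
          rw [htape]
          have hne : (c.head - 1 - (i : ℤ)) ≠ c.head := by omega
          rw [Function.update_of_ne hne]
          exact (hi i).1
        · simp only
          rw [syms_cons_le (next_snd_le _ _ _), syms_cons_gt (rec_gt _ _ _ _), htape]
          cases i with
          | zero => simp
          | succ n =>
            have hne : (c.head + ((n + 1 : ℕ) : ℤ)) ≠ c.head := by
              push_cast; omega
            rw [Function.update_of_ne hne]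
            simp only [List.getD_cons_succ]
            rw [← syms_getD_succ ha]
            exact (hi (n + 1)).2
  · -- seeking left
    have hb' : b = c.head + 1 := by simpa [hf] using hb
    subst hb'
    by_cases ha : M.S < d.L.headD 0
    · left
      rw [snext_L_skip M hf ha]
      refine ⟨⟨hq, c.head + 1, by simp, ?_⟩, ?_⟩
      · intro i
        simp only
        rw [syms_cons_gt ha, syms_tail_of_gt ha]
        exact hi i
      · have hne : d.L ≠ [] := by
          intro h0; rw [h0] at ha; simp at ha
        simp only [skipMeasure, hf, if_false, List.length_tail]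
        simp
        have := List.length_pos_iff.mpr hne
        omega
    · right
      have hread : c.tape c.head = d.L.headD 0 := by
        have := (hi 0).1
        simp only [Nat.cast_zero, sub_zero, add_sub_cancel_right] at this
        rw [← this, syms_getD_zero ha]
      have hst : c.state = d.q := hq.symm
      have hstate := step_state M c
      have htape := step_tape M c
      rw [hread, hst] at hstate htape
      by_cases hr : (M.next d.q (d.L.headD 0)).2.2 = true
      · rw [snext_L_right M hf ha hr]
        have hhead := step_head_true M c (by rw [hread, hst]; exact hr)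
        refine ⟨hstate.symm, c.head + 1, by simp [hhead], ?_⟩
        intro i
        constructor
        · simp only
          rw [syms_cons_le (next_snd_le _ _ _), syms_cons_gt (rec_gt _ _ _ _), htape]
          cases i with
          | zero => simp
          | succ n =>
            have hne : (c.head + 1 - 1 - ((n + 1 : ℕ) : ℤ)) ≠ c.head := by
              push_cast; omega
            rw [Function.update_of_ne hne]
            simp only [List.getD_cons_succ]
            rw [← syms_getD_succ ha]
            have := (hi (n + 1)).1
            rw [this]
        · simp only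
          rw [htape]
          have hne : (c.head + 1 + (i : ℤ)) ≠ c.head := by omega
          rw [Function.update_of_ne hne]
          exact (hi i).2
      · rw [snext_L_left M hf ha hr]
        have hhead := step_head_false M c (by rw [hread, hst]; exact hr)
        refine ⟨hstate.symm, c.head, by simp [hhead], ?_⟩
        intro i
        constructor
        · simp only
          rw [htape, ← syms_getD_succ ha]
          have hne : (c.head - 1 - (i : ℤ)) ≠ c.head := by omega
          rw [Function.update_of_ne hne]
          have := (hi (i + 1)).1
          rw [this]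
          congr 1
          push_cast; ring
        · simp only
          rw [syms_cons_le (next_snd_le _ _ _), syms_cons_gt (rec_gt _ _ _ _), htape]
          cases i with
          | zero => simp
          | succ n =>
            have hne : (c.head + ((n + 1 : ℕ) : ℤ)) ≠ c.head := by
              push_cast; omega
            rw [Function.update_of_ne hne]
            simp only [List.getD_cons_succ]
            have := (hi n).2
            rw [this]
            congr 1
            push_cast; ring

/-- The start configuration of the two-stack machine. -/
def sinit (w : List ℕ) : SConfig := ⟨0, 0, [], w⟩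

lemma simRel_init {M : Machine} {w : List ℕ} (hw : M.ValidWord w) :
    SimRel M (initConfig w) (sinit w) := by
  refine ⟨rfl, 0, by simp [sinit, initConfig], ?_⟩
  intro i
  have hsyms : syms M w = w := by
    unfold syms
    rw [List.filter_eq_self]
    intro a ha
    simpa using hw a ha
  constructor
  · have : ¬ (0 : ℤ) ≤ 0 - 1 - (i : ℤ) := by omega
    simp only [sinit, syms, initConfig]
    rw [if_neg this]
    simp
  · simp only [sinit, initConfig]
    rw [hsyms]
    simp

/-- Every step of the simulation stays related to some configuration of the orbit of the machine. -/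
lemma sim_backward (M : Machine) {c₀ : Config} {d₀ : SConfig} (h : SimRel M c₀ d₀) (m : ℕ) :
    ∃ n : ℕ, SimRel M (M.step^[n] c₀) ((snext M)^[m] d₀) := by
  induction m with
  | zero => exact ⟨0, by simpa using h⟩
  | succ m ih =>
    obtain ⟨n, hn⟩ := ih
    rw [Function.iterate_succ_apply']
    rcases snext_spec M hn with h1 | h1
    · exact ⟨n, h1.1⟩
    · exact ⟨n + 1, by rw [Function.iterate_succ_apply']; exact h1⟩

/-- Every step of the machine is simulated after finitely many steps. -/
lemma sim_one (M : Machine) (N : ℕ) : ∀ {c : Config} {d : SConfig}, skipMeasure d ≤ N →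
    SimRel M c d → ∃ m : ℕ, SimRel M (M.step c) ((snext M)^[m] d) := by
  induction N with
  | zero =>
    intro c d hN h
    rcases snext_spec M h with h1 | h1
    · omega
    · exact ⟨1, h1⟩
  | succ N ih =>
    intro c d hN h
    rcases snext_spec M h with h1 | h1
    · obtain ⟨m, hm⟩ := ih (by omega) h1.1
      exact ⟨m + 1, by rw [Function.iterate_succ_apply]; exact hm⟩
    · exact ⟨1, h1⟩

lemma sim_forward (M : Machine) {c₀ : Config} {d₀ : SConfig} (h : SimRel M c₀ d₀) (n : ℕ) :
    ∃ m : ℕ, SimRel M (M.step^[n] c₀) ((snext M)^[m] d₀) := by
  induction n with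
  | zero => exact ⟨0, by simpa using h⟩
  | succ n ih =>
    obtain ⟨m, hm⟩ := ih
    obtain ⟨m', hm'⟩ := sim_one M _ (le_refl _) hm
    refine ⟨m' + m, ?_⟩
    rw [Function.iterate_succ_apply', Function.iterate_add_apply]
    exact hm'

/-- The halting criterion: `M` halts on `w` iff the two-stack orbit reaches a halting state. -/
theorem halts_iff (M : Machine) {w : List ℕ} (hw : M.ValidWord w) :
    M.Halts w ↔ ∃ m : ℕ, M.isHalting ((snext M)^[m] (sinit w)).q = true := by
  have h0 := simRel_init hw
  constructor
  · rintro ⟨n, hn⟩
    obtain ⟨m, hm⟩ := sim_forward M h0 n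
    exact ⟨m, by rw [hm.1]; exact hn⟩
  · rintro ⟨m, hm⟩
    obtain ⟨n, hn⟩ := sim_backward M h0 m
    exact ⟨n, by rw [← hn.1]; exact hm⟩

end Vale.Agent.Lib.P113
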