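import Vale.Agent.Lib.P113.CompBase
import Vale.Agent.Lib.P113.Step

/-!
# Approximation of the exponential and of the primitive of the bump
-/

open MeasureTheory intervalIntegral

namespace Vale.Agent.Lib.P113

open QCode

noncomputable section

/-- The code of the positive part of a rational number. -/
def posCode (r : QCode) : QCode := (r.1 - r.2.1, 0, r.2.2)

lemma primPosCode : Primrec posCode :=
  Primrec.pair (Primrec.nat_sub.comp (prim1 Primrec.id) (prim2 Primrec.id))
    (Primrec.pair (Primrec.const 0) (prim3 Primrec.id))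

lemma val_posCode_nonneg (r : QCode) : 0 ≤ (posCode r).val := by
  simp only [posCode, QCode.val, Nat.cast_zero, sub_zero]
  positivity

lemma val_posCode_of_nonneg {r : QCode} (h : 0 ≤ r.val) : (posCode r).val = r.val := by
  obtain ⟨a, b, d⟩ := r
  simp only [posCode, QCode.val] at *
  have hd : (0 : ℝ) < (d : ℝ) + 1 := by positivity
  have h1 : (b : ℝ) ≤ a := by
    have := (div_nonneg_iff.mp h)
    rcases this with h2 | h2
    · linarith [h2.1]
    · linarith [h2.2]
  have h2 : b ≤ a := by exact_mod_cast h1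
  rw [Nat.cast_sub h2]
  simp

lemma val_posCode_of_nonpos {r : QCode} (h : r.val ≤ 0) : (posCode r).val = 0 := by
  obtain ⟨a, b, d⟩ := r
  simp only [posCode, QCode.val] at *
  have hd : (0 : ℝ) < (d : ℝ) + 1 := by positivity
  have h1 : (a : ℝ) ≤ b := by
    by_contra hc
    have h3 : (0 : ℝ) < (a : ℝ) - b := by linarith [not_le.mp hc]
    have := div_pos h3 hd
    linarith
  have h2 : a ≤ b := by exact_mod_cast h1
  rw [Nat.sub_eq_zero_of_le h2]
  simp

/-- `(1 - r / N) ^ N` approximates `exp (-r)`. -/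
lemma exp_approx {r : ℝ} (hr : 0 ≤ r) {N : ℕ} (hN : 0 < N) (hrN : r ≤ N) :
    |(1 - r / N) ^ N - Real.exp (-r)| ≤ r ^ 2 / N := by
  have hN' : (0 : ℝ) < N := by exact_mod_cast hN
  set x := r / N with hx
  have hx0 : 0 ≤ x := by positivity
  have hx1 : x ≤ 1 := by
    rw [hx, div_le_one hN']
    exact hrN
  have hrx : r = N * x := by
    rw [hx]
    field_simp
  have hexp : Real.exp (-r) = Real.exp (-x) ^ N := by
    rw [← Real.exp_nat_mul, hrx]
    congr 1
    ring
  have hle1 : 1 - x ≤ Real.exp (-x) := by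
    have := Real.add_one_le_exp (-x)
    linarith
  have hup : (1 - x) ^ N ≤ Real.exp (-r) := by
    rw [hexp]
    exact pow_le_pow_left₀ (by linarith) hle1 N
  have hle2 : Real.exp (-x) * (1 - x ^ 2) ≤ 1 - x := by
    have h1 := Real.add_one_le_exp x
    have h2 : Real.exp (-x) * (x + 1) ≤ 1 := by
      calc Real.exp (-x) * (x + 1) ≤ Real.exp (-x) * Real.exp x :=
            mul_le_mul_of_nonneg_left h1 (Real.exp_pos _).le
        _ = 1 := by rw [← Real.exp_add]; simp
    have h3 := mul_le_mul_of_nonneg_right h2 (by linarith : (0 : ℝ) ≤ 1 - x)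
    nlinarith
  have hx2 : 0 ≤ 1 - x ^ 2 := by nlinarith
  have hlow0 : (Real.exp (-x) * (1 - x ^ 2)) ^ N ≤ (1 - x) ^ N :=
    pow_le_pow_left₀ (mul_nonneg (Real.exp_pos _).le hx2) hle2 N
  have hbern : 1 + (N : ℝ) * (-(x ^ 2)) ≤ (1 + (-(x ^ 2))) ^ N :=
    one_add_mul_le_pow (by nlinarith) N
  have hexp1 : Real.exp (-r) ≤ 1 := by
    rw [Real.exp_le_one_iff]
    linarith
  have hexp0 : 0 < Real.exp (-r) := Real.exp_pos _
  have hlow : Real.exp (-r) - N * x ^ 2 ≤ (1 - x) ^ N := by
    have h5 : Real.exp (-r) * (1 + (N : ℝ) * (-(x ^ 2))) ≤ Real.exp (-r) * (1 + (-(x ^ 2))) ^ N :=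
      mul_le_mul_of_nonneg_left hbern hexp0.le
    have h6 : Real.exp (-r) * (1 + (-(x ^ 2))) ^ N = (Real.exp (-x) * (1 - x ^ 2)) ^ N := by
      rw [hexp, mul_pow]
      ring_nf
    have h7 : 0 ≤ (N : ℝ) * x ^ 2 := by positivity
    nlinarith
  have hval : (N : ℝ) * x ^ 2 = r ^ 2 / N := by
    rw [hx]
    field_simp
  rw [abs_le, ← hval]
  constructor <;> linarith

/-- The rational approximation of the exponential. -/
def expApprox (r : QCode) (k : ℕ) : QCode :=
  let N := (size r + 1) ^ 2 * 2 ^ k
  QCode.pow (sub (ofNat 1) (mul r (invSucc (N - 1)))) N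

lemma primExpApprox : Primrec₂ expApprox := by
  have hr : Primrec fun q : QCode × ℕ => q.1 := Primrec.fst
  have hk : Primrec fun q : QCode × ℕ => q.2 := Primrec.snd
  have hpow : Primrec₂ fun a b : ℕ => a ^ b := Primrec₂.unpaired'.1 Nat.Primrec.pow
  have hN : Primrec fun q : QCode × ℕ => (size q.1 + 1) ^ 2 * 2 ^ q.2 :=
    Primrec.nat_mul.comp
      (hpow.comp (Primrec.nat_add.comp (primSize.comp hr) (Primrec.const 1)) (Primrec.const 2))
      (hpow.comp (Primrec.const 2) hk)
  exact primPow.comp (primSub.comp (Primrec.const _)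
    (primMul.comp hr (primInvSucc.comp (Primrec.nat_sub.comp hN (Primrec.const 1))))) hN

/-- The exponential of minus a rational is computable. -/
theorem compExp : CompR fun r : QCode => Real.exp (-(posCode r).val) := by
  refine ⟨fun r k => expApprox (posCode r) k, ?_, fun r k => ?_⟩
  · exact primExpApprox.to_comp.comp (primPosCode.to_comp.comp Computable.fst) Computable.snd
  · set c := posCode r with hc
    have hc0 : 0 ≤ c.val := val_posCode_nonneg r
    have hS : c.val ≤ size c := (le_abs_self _).trans (abs_val_le_size c)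
    set N := (size c + 1) ^ 2 * 2 ^ k with hN
    have hNpos : 0 < N := by positivity
    have hN1 : ((N - 1 : ℕ) : ℝ) + 1 = N := by
      rw [Nat.cast_sub hNpos]
      push_cast
      ring
    have hcast : (N : ℝ) = ((size c : ℝ) + 1) ^ 2 * 2 ^ k := by
      rw [hN]
      push_cast
      ring
    have hs0 : (0 : ℝ) ≤ size c := Nat.cast_nonneg _
    have hNge : c.val ≤ N := by
      rw [hcast]
      have h2 : (1 : ℝ) ≤ 2 ^ k := one_le_pow₀ (by norm_num)
      nlinarith [mul_nonneg (sq_nonneg ((size c : ℝ) + 1)) (sub_nonneg.mpr h2)]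
    have hval : (expApprox c k).val = (1 - c.val / N) ^ N := by
      simp only [expApprox, val_pow, val_sub, val_ofNat, val_mul, val_invSucc]
      rw [← hN, hN1]
      push_cast
      rw [mul_one_div]
    rw [hval]
    refine (exp_approx hc0 hNpos hNge).trans ?_
    rw [hcast, div_le_iff₀ (by positivity)]
    have h2 : (1 / 2 : ℝ) ^ k * 2 ^ k = 1 := by
      rw [← mul_pow]
      norm_num
    have e : (1 / 2 : ℝ) ^ k * (((size c : ℝ) + 1) ^ 2 * 2 ^ k) = ((size c : ℝ) + 1) ^ 2 := by
      rw [mul_comm ((1 / 2 : ℝ) ^ k), mul_assoc, mul_comm ((2 : ℝ) ^ k), h2, mul_one]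
    rw [e]
    nlinarith

/-! ### The primitive of the bump -/

lemma bumpB_hasCompactSupport : HasCompactSupport bumpB := by
  apply HasCompactSupport.intro (isCompact_Icc (a := (0 : ℝ)) (b := 1))
  intro x hx
  by_cases h0 : x ≤ 0
  · exact bumpB_of_nonpos h0
  · have : ¬ x ≤ 1 := fun h1 => hx ⟨le_of_lt (not_le.mp h0), h1⟩
    exact bumpB_of_one_le (le_of_lt (not_le.mp this))

/-- The bump is Lipschitz. -/
lemma bumpB_lipschitz : ∃ L : ℕ, ∀ x y : ℝ, |bumpB x - bumpB y| ≤ L * |x - y| := by
  have hd : Continuous (deriv bumpB) :=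
    bumpB_contDiff.continuous_deriv (by simp)
  obtain ⟨C, hC⟩ := hd.bounded_above_of_compact_support bumpB_hasCompactSupport.deriv
  obtain ⟨L, hL⟩ := exists_nat_ge C
  refine ⟨L, fun x y => ?_⟩
  have := Convex.norm_image_sub_le_of_norm_deriv_le (f := bumpB) (s := Set.univ) (C := (L : ℝ))
    (x := y) (y := x)
    (fun z _ => (bumpB_contDiff.differentiable (by simp) z)) (fun z _ => (hC z).trans hL)
    convex_univ trivial trivial
  simpa [Real.norm_eq_abs] using this

/-- The error of the left Riemann sum on one cell. -/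
lemma riemann_cell {L : ℝ} (hL : ∀ x y : ℝ, |bumpB x - bumpB y| ≤ L * |x - y|) (a h : ℝ)
    (hh : 0 ≤ h) :
    |(∫ r in a..(a + h), bumpB r) - h * bumpB a| ≤ L * h * h := by
  have hc : IntervalIntegrable bumpB volume a (a + h) := bumpB_continuous.intervalIntegrable _ _
  have e : (∫ r in a..(a + h), bumpB r) - h * bumpB a = ∫ r in a..(a + h), (bumpB r - bumpB a) := by
    rw [intervalIntegral.integral_sub hc intervalIntegrable_const]
    simp
  rw [e]
  have := intervalIntegral.norm_integral_le_of_norm_le_const (a := a) (b := a + h)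
    (f := fun r => bumpB r - bumpB a) (C := L * h) (fun r hr => by
      rw [Set.uIoc_of_le (by linarith)] at hr
      rw [Real.norm_eq_abs]
      have h1 := hL r a
      have h2 : |r - a| ≤ h := by
        rw [abs_of_pos (by linarith [hr.1])]
        linarith [hr.2]
      have hL0 : 0 ≤ L := by
        have h3 := hL 1 0
        have h4 : bumpB 1 = 0 := bumpB_of_one_le le_rfl
        have h5 : bumpB 0 = 0 := bumpB_of_nonpos le_rfl
        simpa [h4, h5] using h3
      exact h1.trans (mul_le_mul_of_nonneg_left h2 hL0))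
  rw [Real.norm_eq_abs] at this
  have e2 : |a + h - a| = h := by
    rw [add_sub_cancel_left, abs_of_nonneg hh]
  rwa [e2] at this

/-- The Riemann sum. -/
def riemannS (s : ℝ) (N : ℕ) : ℝ :=
  s / N * ∑ i ∈ Finset.range N, bumpB ((i : ℝ) * (s / N))

/-- The error of the Riemann sums of the bump. -/
lemma riemann_error {L : ℝ} (hL : ∀ x y : ℝ, |bumpB x - bumpB y| ≤ L * |x - y|) {s : ℝ} (hs : 0 ≤ s)
    {N : ℕ} (hN : 0 < N) : |primJ s - riemannS s N| ≤ L * s ^ 2 / N := by
  have hN' : (0 : ℝ) < N := by exact_mod_cast hN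
  set h := s / N with hh
  have hh0 : 0 ≤ h := by positivity
  have hsum : ∀ n : ℕ, |(∫ r in (0 : ℝ)..((n : ℝ) * h), bumpB r)
      - h * ∑ i ∈ Finset.range n, bumpB ((i : ℝ) * h)| ≤ (n : ℝ) * (L * h * h) := by
    intro n
    induction n with
    | zero => simp
    | succ n ih =>
      have hc : IntervalIntegrable bumpB volume 0 ((n : ℝ) * h) :=
        bumpB_continuous.intervalIntegrable _ _
      have hc2 : IntervalIntegrable bumpB volume ((n : ℝ) * h) ((n : ℝ) * h + h) :=
        bumpB_continuous.intervalIntegrable _ _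
      have e1 : (((n + 1 : ℕ) : ℝ) * h) = (n : ℝ) * h + h := by
        push_cast
        ring
      rw [e1, ← intervalIntegral.integral_add_adjacent_intervals hc hc2, Finset.sum_range_succ]
      have h3 := riemann_cell hL ((n : ℝ) * h) h hh0
      calc _ = |((∫ r in (0 : ℝ)..((n : ℝ) * h), bumpB r)
              - h * ∑ i ∈ Finset.range n, bumpB ((i : ℝ) * h))
            + ((∫ r in ((n : ℝ) * h)..((n : ℝ) * h + h), bumpB r) - h * bumpB ((n : ℝ) * h))| := by
            ring_nf
        _ ≤ _ := abs_add_le _ _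
        _ ≤ (n : ℝ) * (L * h * h) + L * h * h := add_le_add ih h3
        _ = _ := by push_cast; ring
  have h1 := hsum N
  have e2 : (N : ℝ) * h = s := by
    rw [hh]
    field_simp
  rw [e2] at h1
  have e3 : (N : ℝ) * (L * h * h) = L * s ^ 2 / N := by
    rw [hh]
    field_simp
  rw [e3] at h1
  exact h1

lemma primJ_posCode (s : QCode) : primJ (posCode s).val = primJ s.val := by
  by_cases h : 0 ≤ s.val
  · rw [val_posCode_of_nonneg h]
  · have h' := (not_le.mp h).le
    rw [val_posCode_of_nonpos h', primJ_of_nonpos le_rfl, primJ_of_nonpos h']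

section
variable (hB : CompR fun s : QCode => bumpB s.val)
include hB

/-- The Riemann sums are computable. -/
lemma compRiemann : CompR fun q : QCode × ℕ =>
    (mul q.1 (invSucc (q.2 - 1))).val
      * ∑ i ∈ Finset.range q.2, bumpB (mul (ofNat i) (mul q.1 (invSucc (q.2 - 1)))).val := by
  have hc : Computable fun q : QCode × ℕ => mul q.1 (invSucc (q.2 - 1)) :=
    (primMul.comp Primrec.fst (primInvSucc.comp
      (Primrec.nat_sub.comp Primrec.snd (Primrec.const 1)))).to_comp
  have hT : CompR fun p : (QCode × ℕ) × ℕ =>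
      bumpB (mul (ofNat p.2) (mul p.1.1 (invSucc (p.1.2 - 1)))).val := by
    refine hB.comp ?_
    exact primMul.to_comp.comp (primOfNat.to_comp.comp Computable.snd) (hc.comp Computable.fst)
  exact (CompR.of_exact hc).mul (CompR.sum Computable.snd hT)

/-- The primitive of the bump is computable at nonnegative codes. -/
lemma compPrimJ_pos : CompR fun s : QCode => primJ (posCode s).val := by
  obtain ⟨L, hL⟩ := bumpB_lipschitz
  -- the number of cells at precision `k`
  let N : QCode × ℕ → ℕ := fun q => (L + 1) * (size (posCode q.1) + 1) ^ 2 * 2 ^ q.2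
  have hN : Primrec N := by
    have hpow : Primrec₂ fun a b : ℕ => a ^ b := Primrec₂.unpaired'.1 Nat.Primrec.pow
    exact Primrec.nat_mul.comp (Primrec.nat_mul.comp (Primrec.const _)
      (hpow.comp (Primrec.nat_add.comp (primSize.comp (primPosCode.comp Primrec.fst))
        (Primrec.const 1)) (Primrec.const 2))) (hpow.comp (Primrec.const 2) Primrec.snd)
  have hF := (compRiemann hB).comp (h := fun q : QCode × ℕ => (posCode q.1, N q))
    ((primPosCode.comp Primrec.fst).pair hN).to_comp
  refine CompR.of_limit hF fun s k => ?_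
  set c := posCode s with hc
  have hc0 : 0 ≤ c.val := val_posCode_nonneg s
  have hS : c.val ≤ size c := (le_abs_self _).trans (abs_val_le_size c)
  have hNdef : N (s, k) = (L + 1) * (size c + 1) ^ 2 * 2 ^ k := rfl
  set M := N (s, k) with hM
  have hMpos : 0 < M := by rw [hNdef]; positivity
  have hM1 : ((M - 1 : ℕ) : ℝ) + 1 = M := by
    rw [Nat.cast_sub hMpos]
    push_cast
    ring
  have e1 : (mul c (invSucc (M - 1))).val = c.val / M := by
    simp only [val_mul, val_invSucc]
    rw [hM1, mul_one_div]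
  have e2 : ∀ i : ℕ, (mul (ofNat i) (mul c (invSucc (M - 1)))).val = (i : ℝ) * (c.val / M) := by
    intro i
    rw [val_mul, e1, val_ofNat]
  simp only [e1, e2]
  have h1 := riemann_error hL hc0 hMpos
  rw [abs_sub_comm]
  refine h1.trans ?_
  have hcast : (M : ℝ) = ((L : ℝ) + 1) * ((size c : ℝ) + 1) ^ 2 * 2 ^ k := by
    rw [hNdef]
    push_cast
    ring
  have hs0 : (0 : ℝ) ≤ size c := Nat.cast_nonneg _
  have hL0 : (0 : ℝ) ≤ L := Nat.cast_nonneg _
  rw [hcast, div_le_iff₀ (by positivity)]
  have h2 : (1 / 2 : ℝ) ^ k * 2 ^ k = 1 := by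
    rw [← mul_pow]
    norm_num
  have e : (1 / 2 : ℝ) ^ k * (((L : ℝ) + 1) * ((size c : ℝ) + 1) ^ 2 * 2 ^ k)
      = ((L : ℝ) + 1) * ((size c : ℝ) + 1) ^ 2 := by
    rw [mul_comm ((1 / 2 : ℝ) ^ k), mul_assoc, mul_comm ((2 : ℝ) ^ k), h2, mul_one]
  rw [e]
  have h3 : c.val ^ 2 ≤ ((size c : ℝ) + 1) ^ 2 := by
    apply pow_le_pow_left₀ hc0
    linarith
  nlinarith [mul_nonneg hL0 (sq_nonneg ((size c : ℝ) + 1)), sq_nonneg ((size c : ℝ) + 1)]

lemma compPrimJ : CompR fun s : QCode => primJ s.val :=
  (compPrimJ_pos hB).congr primJ_posCode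

lemma compMassInv {α : Type*} [Primcodable α] : CompR fun _ : α => massI⁻¹ := by
  have h1 : CompR fun _ : α => massI := by
    have := (compPrimJ hB).comp (h := fun _ : α => ((1, 0, 0) : QCode)) (Computable.const _)
    refine this.congr fun _ => ?_
    simp [massI, QCode.val]
  exact h1.inv_of_lower massI_pos fun _ => le_rfl

end

/-- The derivatives of the step in terms of the bump. -/
lemma stepS_iteratedDeriv_succ (m : ℕ) (s : ℝ) :
    iteratedDeriv (m + 1) stepS s = iteratedDeriv m bumpB s * massI⁻¹ := by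
  have e : deriv stepS = fun s => bumpB s * massI⁻¹ := by
    funext s
    rw [(stepS_hasDerivAt s).deriv, div_eq_mul_inv]
  rw [iteratedDeriv_succ', e, iteratedDeriv_mul_const_field]

/-- The main computability statement, given the derivatives of the bump. -/
theorem compR_stepDeriv_of (hD : CompR fun p : ℕ × QCode => iteratedDeriv p.1 bumpB p.2.val) :
    CompR fun p : ℕ × QCode => iteratedDeriv p.1 stepS p.2.val := by
  have hB : CompR fun s : QCode => bumpB s.val := by
    have := hD.comp (h := fun s : QCode => (0, s)) ((Computable.const 0).pair Computable.id)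
    simpa using this
  have hfst : Computable fun p : ℕ × QCode => p.1 := Computable.fst
  have hsnd : Computable fun p : ℕ × QCode => p.2 := Computable.snd
  have h0 : CompR fun p : ℕ × QCode => primJ p.2.val * massI⁻¹ :=
    ((compPrimJ hB).comp hsnd).mul (compMassInv hB)
  have h1 : CompR fun p : ℕ × QCode => iteratedDeriv (p.1 - 1) bumpB p.2.val * massI⁻¹ :=
    (hD.comp ((Primrec.nat_sub.to_comp.comp hfst (Computable.const 1)).pair hsnd)).mul
      (compMassInv hB)
  refine (CompR.ite_eq hfst (Computable.const 0) h0 h1).congr fun p => ?_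
  rcases hn : p.1 with _ | m
  · simp [stepS, div_eq_mul_inv]
  · simp [stepS_iteratedDeriv_succ]

end

end Vale.Agent.Lib.P113
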